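import Vale.Agent.Lib.P226.X.Frame

/-!
The lower bound for the Gaussian measure of a cell: `‖u m‖ ^ 4 ≤ 3 * area S u m ^ 3`.
-/

open MeasureTheory ProbabilityTheory Real Set Filter
open scoped RealInnerProductSpace ENNReal

namespace Vale.Agent.Lib.P226

variable {E : Type*} [NormedAddCommGroup E] [InnerProductSpace ℝ E] [FiniteDimensional ℝ E]
  [MeasurableSpace E] [BorelSpace E]

lemma hasDerivAt_fourthAnti (x : ℝ) :
    HasDerivAt (fun y : ℝ => -((y ^ 3 + 3 * y) * rexp (-(y ^ 2 / 2))))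
      ((x ^ 4 - 3) * rexp (-(x ^ 2 / 2))) x := by
  have h1 : HasDerivAt (fun y : ℝ => -(y ^ 2 / 2)) (-x) x := by
    have := ((hasDerivAt_pow 2 x).div_const 2).neg
    refine this.congr_deriv ?_
    push_cast
    ring
  have h2 : HasDerivAt (fun y : ℝ => y ^ 3 + 3 * y) (3 * x ^ 2 + 3) x := by
    have := (hasDerivAt_pow 3 x).add ((hasDerivAt_id x).const_mul 3)
    refine this.congr_deriv ?_
    simp
  have h3 := (h2.mul h1.exp).neg
  refine h3.congr_deriv ?_
  ring

lemma tendsto_fourthAnti :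
    Tendsto (fun y : ℝ => -((y ^ 3 + 3 * y) * rexp (-(y ^ 2 / 2)))) (Filter.cocompact ℝ) (nhds 0) := by
  have h3 := tendsto_rpow_abs_mul_exp_neg_mul_sq_cocompact (a := 1 / 2) (by norm_num) 3
  have h1 := tendsto_rpow_abs_mul_exp_neg_mul_sq_cocompact (a := 1 / 2) (by norm_num) 1
  have h := h3.add (h1.const_mul 3)
  simp only [mul_zero, add_zero] at h
  refine squeeze_zero_norm (fun y => ?_) h
  have hexp : rexp (-(1 / 2) * y ^ 2) = rexp (-(y ^ 2 / 2)) := by
    congr 1; ring
  rw [hexp]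
  have h3' : |y| ^ (3 : ℝ) = |y| ^ 3 := by
    rw [← Real.rpow_natCast]; norm_num
  have h1' : |y| ^ (1 : ℝ) = |y| := by simp
  rw [h3', h1', norm_neg, norm_mul, Real.norm_of_nonneg (Real.exp_pos _).le, Real.norm_eq_abs]
  have hb : |y ^ 3 + 3 * y| ≤ |y| ^ 3 + 3 * |y| := by
    refine (abs_add_le _ _).trans ?_
    rw [abs_pow, abs_mul, abs_of_nonneg (by norm_num : (0 : ℝ) ≤ 3)]
  have := mul_le_mul_of_nonneg_right hb (Real.exp_pos (-(y ^ 2 / 2))).le
  linarith

lemma integrable_pow_four_gauss_A : Integrable (fun y : ℝ => y ^ 4) (gaussianReal 0 1) := by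
  have h := (memLp_id_gaussianReal (μ := 0) (v := 1) 4).integrable_norm_pow (by norm_num)
  refine h.congr (Eventually.of_forall fun y => ?_)
  simp only [id, Real.norm_eq_abs]
  rw [show (4 : ℕ) = 2 * 2 from rfl, pow_mul, sq_abs, pow_mul]

/-- The fourth moment of a standard Gaussian. -/
lemma integral_pow_four_gauss : ∫ y, y ^ 4 ∂(gaussianReal 0 1) = 3 := by
  have hint : Integrable (fun y : ℝ => gaussianPDFReal 0 1 y * y ^ 4) := by
    have h := integrable_pow_four_gauss_A
    rw [gaussianReal_of_var_ne_zero 0 (by norm_num), integrable_withDensity_iff_integrable_smul']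
      at h
    · refine h.congr (Eventually.of_forall fun y => ?_)
      simp [gaussianPDF, ENNReal.toReal_ofReal (gaussianPDFReal_nonneg _ _ _)]
    · exact measurable_gaussianPDF 0 1
    · exact Eventually.of_forall fun _ => gaussianPDF_lt_top
  have hint' : Integrable (fun y : ℝ => gaussianPDFReal 0 1 y) := integrable_gaussianPDFReal 0 1
  have hmain : ∫ y, gaussianPDFReal 0 1 y * y ^ 4 - 3 * gaussianPDFReal 0 1 y = 0 := by
    have hderiv : ∀ x, HasDerivAt (fun y : ℝ => cG * -((y ^ 3 + 3 * y) * rexp (-(y ^ 2 / 2))))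
        (gaussianPDFReal 0 1 x * x ^ 4 - 3 * gaussianPDFReal 0 1 x) x := by
      intro x
      have := (hasDerivAt_fourthAnti x).const_mul cG
      refine this.congr_deriv ?_
      rw [gaussianPDFReal_01]
      ring
    have htend : Tendsto (fun y : ℝ => cG * -((y ^ 3 + 3 * y) * rexp (-(y ^ 2 / 2))))
        (Filter.cocompact ℝ) (nhds 0) := by
      simpa using tendsto_fourthAnti.const_mul cG
    have hle : atBot ≤ Filter.cocompact ℝ := atBot_le_cocompact
    have hle' : atTop ≤ Filter.cocompact ℝ := atTop_le_cocompact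
    rw [integral_of_hasDerivAt_of_tendsto hderiv (hint.sub (hint'.const_mul 3))
      (htend.mono_left hle) (htend.mono_left hle')]
    simp
  rw [integral_sub hint (hint'.const_mul 3), integral_const_mul,
    integral_gaussianPDFReal_eq_one 0 (by norm_num)] at hmain
  rw [integral_gaussianReal_eq_integral_smul (by norm_num)]
  simp only [smul_eq_mul]
  linarith

lemma integrable_inner_pow_four (e : E) (he : ‖e‖ = 1) :
    Integrable (fun x : E => ⟪e, x⟫ ^ 4) (stdGaussian E) := by
  have h := integrable_pow_four_gauss_A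
  rw [← map_inner_unit e he] at h
  have h2 := (integrable_map_measure (by fun_prop) (by fun_prop)).mp h
  exact h2

lemma integral_inner_pow_four (e : E) (he : ‖e‖ = 1) :
    ∫ x : E, ⟪e, x⟫ ^ 4 ∂(stdGaussian E) = 3 := by
  rw [← integral_pow_four_gauss, ← map_inner_unit e he,
    integral_map (by fun_prop) (by fun_prop)]
  rfl

/-- Cauchy-Schwarz on a set of finite measure. -/
lemma sq_setIntegral_le {α : Type*} [MeasurableSpace α] {μ : Measure α} [IsFiniteMeasure μ]
    (A : Set α) (f : α → ℝ) (hf : Integrable f (μ.restrict A))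
    (hf2 : Integrable (fun x => f x ^ 2) (μ.restrict A)) :
    (∫ x in A, f x ∂μ) ^ 2 ≤ μ.real A * ∫ x in A, f x ^ 2 ∂μ := by
  set I := ∫ x in A, f x ∂μ with hI
  set J := ∫ x in A, f x ^ 2 ∂μ with hJ
  set a := μ.real A with ha
  have hT : ∀ t : ℝ, 0 ≤ a * (t * t) + (-(2 * I)) * t + J := by
    intro t
    have h0 : 0 ≤ ∫ x in A, (f x - t) ^ 2 ∂μ := integral_nonneg fun x => sq_nonneg _
    have h1 : ∀ x, (f x - t) ^ 2 = (f x ^ 2 - 2 * t * f x) + t ^ 2 := fun x => by ring
    simp only [h1] at h0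
    have h3 : ∫ x in A, (f x ^ 2 - 2 * t * f x) + t ^ 2 ∂μ
        = ∫ x in A, (f x ^ 2 - 2 * t * f x) ∂μ + ∫ x in A, t ^ 2 ∂μ :=
      integral_add (hf2.sub (hf.const_mul _)) (integrable_const _)
    have h4 : ∫ x in A, (f x ^ 2 - 2 * t * f x) ∂μ
        = ∫ x in A, f x ^ 2 ∂μ - ∫ x in A, 2 * t * f x ∂μ :=
      integral_sub hf2 (hf.const_mul _)
    rw [h3, h4, integral_const_mul, setIntegral_const] at h0
    have h2 : μ.real A • t ^ 2 = a * t ^ 2 := rfl
    rw [h2] at h0
    nlinarith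
  have hd := discrim_le_zero hT
  simp only [discrim] at hd
  nlinarith

/-- The area of a cell is bounded below in terms of the norm. -/
theorem area_lower {S : Finset ℕ} {u : ℕ → E} (h : Crit S u) {m : ℕ} (hm : m ∈ S) :
    ‖u m‖ ^ 4 ≤ 3 * area S u m ^ 3 := by
  have ha0 : 0 ≤ area S u m := measureReal_nonneg
  by_cases hz : u m = 0
  · rw [hz, norm_zero]
    have : (0 : ℝ) ^ 4 = 0 := by norm_num
    rw [this]
    positivity
  have hs : 0 < ‖u m‖ := norm_pos_iff.mpr hz
  set s := ‖u m‖ with hs_def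
  set e : E := (1 / s) • u m with he_def
  have he : ‖e‖ = 1 := by
    rw [he_def, norm_smul, Real.norm_of_nonneg (by positivity), ← hs_def]
    field_simp
  have hfull4 := integrable_inner_pow_four e he
  set A := vor S u m with hA_def
  have hA : MeasurableSet A := meas_vor hm
  -- the first moment
  have h1 : s = ∫ x in A, ⟪e, x⟫ ∂(stdGaussian E) := by
    rw [setIntegral_inner, show mom A = u m from h.fixed m hm, he_def,
      inner_smul_left, real_inner_self_eq_norm_sq]
    simp only [conj_trivial]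
    rw [← hs_def]
    field_simp
  have hi1 : Integrable (fun x : E => ⟪e, x⟫) ((stdGaussian E).restrict A) :=
    (integrable_inner e).restrict
  have hi4 : Integrable (fun x : E => ⟪e, x⟫ ^ 4) ((stdGaussian E).restrict A) :=
    hfull4.restrict
  have hi2 : Integrable (fun x : E => ⟪e, x⟫ ^ 2) ((stdGaussian E).restrict A) := by
    refine Integrable.mono' (g := fun x : E => ⟪e, x⟫ ^ 4 + 1) (hi4.add (integrable_const _))
      (by fun_prop) (Eventually.of_forall fun x => ?_)
    rw [Real.norm_of_nonneg (sq_nonneg _)]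
    nlinarith [sq_nonneg (⟪e, x⟫ ^ 2 - 1)]
  have hb1 := sq_setIntegral_le A (fun x : E => ⟪e, x⟫) hi1 hi2
  have hb2 := sq_setIntegral_le A (fun x : E => ⟪e, x⟫ ^ 2) hi2
    (by simpa [pow_mul] using hi4.congr (Eventually.of_forall fun x => by
      simp only; ring))
  have hb3 : ∫ x in A, (⟪e, x⟫ ^ 2) ^ 2 ∂(stdGaussian E) ≤ 3 := by
    have : ∀ x : E, (⟪e, x⟫ ^ 2) ^ 2 = ⟪e, x⟫ ^ 4 := fun x => by ring
    simp only [this]
    rw [← integral_inner_pow_four e he]
    exact setIntegral_le_integral hfull4 (Eventually.of_forall fun x => by positivity)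
  rw [← h1] at hb1
  have harea : (stdGaussian E).real A = area S u m := rfl
  rw [harea] at hb1 hb2
  set a := area S u m with ha_def
  set b := ∫ x in A, ⟪e, x⟫ ^ 2 ∂(stdGaussian E) with hb_def
  have hb0 : 0 ≤ b := integral_nonneg fun x => sq_nonneg _
  have h5 : b ^ 2 ≤ a * 3 := hb2.trans (mul_le_mul_of_nonneg_left hb3 ha0)
  have h6 : (s ^ 2) ^ 2 ≤ (a * b) ^ 2 := pow_le_pow_left₀ (by positivity) hb1 2
  have h7 : a ^ 2 * b ^ 2 ≤ a ^ 2 * (a * 3) := mul_le_mul_of_nonneg_left h5 (by positivity)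
  nlinarith

end Vale.Agent.Lib.P226
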