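import Vale.Agent.Lib.P226.X.Defs
import Vale.Agent.Lib.P226.Split

/-!
Small-ball lemmas for two Gaussian coordinates and the frame lemma.
-/

open MeasureTheory ProbabilityTheory Real Set Filter
open scoped RealInnerProductSpace ENNReal

namespace Vale.Agent.Lib.P226

variable {E : Type*} [NormedAddCommGroup E] [InnerProductSpace ℝ E] [FiniteDimensional ℝ E]
  [MeasurableSpace E] [BorelSpace E]

/-! ### the cubic moment -/

lemma hasDerivAt_cubeAnti (x : ℝ) :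
    HasDerivAt (fun y : ℝ => -((y ^ 2 + 2) * rexp (-(y ^ 2 / 2)))) (x ^ 3 * rexp (-(x ^ 2 / 2))) x := by
  have h1 : HasDerivAt (fun y : ℝ => -(y ^ 2 / 2)) (-x) x := by
    have := (hp 1 2 x).neg
    refine this.congr_deriv ?_
    push_cast
    ring
  have h2 : HasDerivAt (fun y : ℝ => y ^ 2 + 2) (2 * x) x := by
    have := (hp 1 1 x).add_const 2
    simp only [div_one] at this
    refine this.congr_deriv ?_
    push_cast
    ring
  have h3 := (h2.mul h1.exp).neg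
  refine h3.congr_deriv ?_
  ring

lemma integral_Ioi_cube_gauss :
    ∫ y in Ioi (0 : ℝ), y ^ 3 * rexp (-(y ^ 2 / 2)) = 2 := by
  have hcont : ContinuousWithinAt (fun y : ℝ => -((y ^ 2 + 2) * rexp (-(y ^ 2 / 2)))) (Ici 0) 0 :=
    Continuous.continuousWithinAt (by fun_prop)
  have hder : ∀ x ∈ Ioi (0 : ℝ), HasDerivAt (fun y : ℝ => -((y ^ 2 + 2) * rexp (-(y ^ 2 / 2))))
      (x ^ 3 * rexp (-(x ^ 2 / 2))) x := fun x _ => hasDerivAt_cubeAnti x
  have hlim : Tendsto (fun y : ℝ => -((y ^ 2 + 2) * rexp (-(y ^ 2 / 2)))) atTop (nhds 0) := by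
    have h1 : Tendsto (fun y : ℝ => y ^ 2 / 2) atTop atTop :=
      (tendsto_pow_atTop (by norm_num)).atTop_div_const (by norm_num)
    have h2 : Tendsto (fun t : ℝ => (2 * t + 2) * rexp (-t)) atTop (nhds 0) := by
      have h3 := (Real.tendsto_pow_mul_exp_neg_atTop_nhds_zero 1).const_mul 2
      have h4 := (Real.tendsto_pow_mul_exp_neg_atTop_nhds_zero 0).const_mul 2
      have h5 := h3.add h4
      simp only [pow_one, pow_zero, one_mul, mul_zero, add_zero] at h5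
      refine h5.congr fun t => ?_
      ring
    have h6 := (h2.comp h1).neg
    simp only [neg_zero] at h6
    refine h6.congr fun y => ?_
    simp only [Function.comp]
    congr 2
    ring
  have hnn : ∀ x ∈ Ioi (0 : ℝ), 0 ≤ x ^ 3 * rexp (-(x ^ 2 / 2)) := fun x hx => by
    have : 0 < x := hx
    positivity
  have hint := integrableOn_Ioi_deriv_of_nonneg hcont hder hnn hlim
  have := integral_Ioi_of_hasDerivAt_of_nonneg hcont hder hnn hlim
  rw [this]
  simp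

/-- The cubic moment of the positive part of a linear form. -/
theorem moment_cube_pos (z : E) :
    ∫ x, (max ⟪z, x⟫ 0) ^ 3 ∂(stdGaussian E) = 2 * cG * ‖z‖ ^ 3 := by
  by_cases hz : z = 0
  · subst hz
    simp
  have hs : 0 < ‖z‖ := norm_pos_iff.mpr hz
  set s := ‖z‖ with hs_def
  set e : E := (1 / s) • z with he_def
  have he : ‖e‖ = 1 := by
    rw [he_def, norm_smul, Real.norm_of_nonneg (by positivity), ← hs_def]
    field_simp
  have hzx : ∀ x : E, ⟪z, x⟫ = s * (innerSL ℝ e x) := by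
    intro x
    rw [innerSL_apply_apply, he_def, inner_smul_left]
    simp only [conj_trivial]
    field_simp
  have hf : Measurable (fun y : ℝ => s ^ 3 * (max y 0) ^ 3) := by fun_prop
  calc ∫ x, (max ⟪z, x⟫ 0) ^ 3 ∂(stdGaussian E)
      = ∫ x, (fun y : ℝ => s ^ 3 * (max y 0) ^ 3) (innerSL ℝ e x) ∂(stdGaussian E) := by
        apply integral_congr_ae
        refine Eventually.of_forall fun x => ?_
        simp only
        rw [hzx x]
        rcases le_total (innerSL ℝ e x) 0 with h | h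
        · rw [max_eq_right h, max_eq_right (mul_nonpos_of_nonneg_of_nonpos hs.le h)]
          ring
        · rw [max_eq_left h, max_eq_left (mul_nonneg hs.le h)]
          ring
    _ = ∫ y, s ^ 3 * (max y 0) ^ 3 ∂((stdGaussian E).map (innerSL ℝ e)) := by
        rw [integral_map (by fun_prop) hf.aestronglyMeasurable]
    _ = s ^ 3 * ∫ y, (max y 0) ^ 3 ∂(gaussianReal 0 1) := by
        rw [map_inner_unit e he, integral_const_mul]
    _ = 2 * cG * s ^ 3 := by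
        have h0 : ∫ y, (max y 0) ^ 3 ∂(gaussianReal 0 1) = cG * 2 := by
          rw [integral_gaussianReal_eq_integral_smul (by norm_num)]
          have hzero : ∀ y, y ∉ Ioi (0 : ℝ) → gaussianPDFReal 0 1 y • (max y 0) ^ 3 = 0 := by
            intro y hy
            have : y ≤ 0 := not_lt.mp hy
            have h : max y 0 = 0 := max_eq_right this
            simp [h]
          rw [← setIntegral_eq_integral_of_forall_compl_eq_zero hzero]
          have hcongr : ∫ y in Ioi (0 : ℝ), gaussianPDFReal 0 1 y • (max y 0) ^ 3 =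
              ∫ y in Ioi (0 : ℝ), cG * (y ^ 3 * rexp (-(y ^ 2 / 2))) := by
            apply setIntegral_congr_fun measurableSet_Ioi
            intro y hy
            have hy' : 0 < y := hy
            simp only [smul_eq_mul, max_eq_left hy'.le, gaussianPDFReal_01]
            ring
          rw [hcongr, integral_const_mul, integral_Ioi_cube_gauss]
        rw [h0]
        ring

/-! ### the frame lemma -/

/-- Frame existence from a quadratic form bound -/
theorem exists_frame (W : Submodule ℝ E) (p₁ p₂ : E) {a₀ b₀ d₀ : ℝ} (ha : 0 < a₀)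
    (hdet : 0 < a₀ * d₀ - b₀ ^ 2)
    (hform : ∀ (ξ₁ ξ₂ : ℝ), ∀ w ∈ W,
      a₀ * ξ₁ ^ 2 + 2 * b₀ * (ξ₁ * ξ₂) + d₀ * ξ₂ ^ 2 ≤ ‖ξ₁ • p₁ + ξ₂ • p₂ + w‖ ^ 2) :
    ∃ (e₁ e₂ : E) (α β γ' : ℝ), ‖e₁‖ = 1 ∧ ‖e₂‖ = 1 ∧ ⟪e₁, e₂⟫ = 0 ∧
      (∀ w ∈ W, ⟪e₁, w⟫ = 0 ∧ ⟪e₂, w⟫ = 0) ∧
      ⟪p₁, e₁⟫ = α ∧ ⟪p₁, e₂⟫ = 0 ∧ ⟪p₂, e₁⟫ = β ∧ ⟪p₂, e₂⟫ = γ' ∧ 0 < α ∧ 0 < γ' ∧
      a₀ * d₀ - b₀ ^ 2 ≤ (α * γ') ^ 2 := by
  obtain ⟨w₁, hw₁, v₁, hv₁, rfl⟩ := W.exists_add_mem_mem_orthogonal p₁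
  obtain ⟨w₂, hw₂, v₂, hv₂, rfl⟩ := W.exists_add_mem_mem_orthogonal p₂
  have hv : ∀ v ∈ Wᗮ, ∀ w ∈ W, ⟪v, w⟫ = 0 := fun v hv w hw => by
    rw [real_inner_comm]
    exact (Submodule.mem_orthogonal W v).mp hv w hw
  -- the form on `v₁, v₂`
  have hQ : ∀ ξ₁ ξ₂ : ℝ, a₀ * ξ₁ ^ 2 + 2 * b₀ * (ξ₁ * ξ₂) + d₀ * ξ₂ ^ 2 ≤
      ξ₁ ^ 2 * ‖v₁‖ ^ 2 + 2 * (ξ₁ * ξ₂) * ⟪v₁, v₂⟫ + ξ₂ ^ 2 * ‖v₂‖ ^ 2 := by
    intro ξ₁ ξ₂
    have h := hform ξ₁ ξ₂ (-(ξ₁ • w₁) - ξ₂ • w₂)
      (W.sub_mem (W.neg_mem (W.smul_mem _ hw₁)) (W.smul_mem _ hw₂))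
    have e : ξ₁ • (w₁ + v₁) + ξ₂ • (w₂ + v₂) + (-(ξ₁ • w₁) - ξ₂ • w₂) = ξ₁ • v₁ + ξ₂ • v₂ := by
      simp only [smul_add]
      abel
    rw [e, @norm_add_sq_real, norm_smul, norm_smul, inner_smul_left, inner_smul_right] at h
    simp only [conj_trivial, Real.norm_eq_abs, mul_pow, sq_abs] at h
    nlinarith [h]
  set A := ‖v₁‖ ^ 2 with hA
  set D := ‖v₂‖ ^ 2 with hD
  set I := ⟪v₁, v₂⟫ with hI
  have hAa : a₀ ≤ A := by
    have := hQ 1 0
    simp only [one_pow, mul_one, mul_zero, add_zero, ne_eq, OfNat.ofNat_ne_zero,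
      not_false_eq_true, zero_pow, zero_mul, one_mul] at this
    linarith
  have hApos : 0 < A := lt_of_lt_of_le ha hAa
  have hv₁ne : v₁ ≠ 0 := by
    intro h
    simp [hA, h] at hApos
  have hαpos : 0 < ‖v₁‖ := norm_pos_iff.mpr hv₁ne
  -- the determinant comparison
  have hdetA : a₀ * d₀ - b₀ ^ 2 ≤ A * D - I ^ 2 := by
    -- evaluate at ξ = (-I / A, 1)
    have h1 := hQ (-I / A) 1
    have hAne : A ≠ 0 := hApos.ne'
    have h2 : (-I / A) ^ 2 * A + 2 * (-I / A * 1) * I + 1 ^ 2 * D = (A * D - I ^ 2) / A := by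
      field_simp
      ring
    rw [h2] at h1
    have h3 : (a₀ * d₀ - b₀ ^ 2) / a₀ ≤ a₀ * (-I / A) ^ 2 + 2 * b₀ * (-I / A * 1) + d₀ * 1 ^ 2 := by
      rw [div_le_iff₀ ha]
      have : (a₀ * (-I / A) ^ 2 + 2 * b₀ * (-I / A * 1) + d₀ * 1 ^ 2) * a₀ - (a₀ * d₀ - b₀ ^ 2) =
          (a₀ * (-I / A) + b₀) ^ 2 := by ring
      nlinarith [sq_nonneg (a₀ * (-I / A) + b₀)]
    have h4 : (a₀ * d₀ - b₀ ^ 2) / a₀ ≤ (A * D - I ^ 2) / A := h3.trans h1
    rw [div_le_div_iff₀ ha hApos] at h4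
    have h5 : (a₀ * d₀ - b₀ ^ 2) * a₀ ≤ (a₀ * d₀ - b₀ ^ 2) * A :=
      mul_le_mul_of_nonneg_left hAa hdet.le
    nlinarith
  -- the orthonormal frame
  set α := ‖v₁‖ with hα
  set e₁ : E := (1 / α) • v₁ with he₁
  set β := ⟪v₂, e₁⟫ with hβ
  set r : E := v₂ - β • e₁ with hr
  have he₁n : ‖e₁‖ = 1 := by
    rw [he₁, norm_smul, Real.norm_of_nonneg (by positivity), ← hα]
    field_simp
  have hβ' : β * α = I := by
    rw [hβ, he₁, inner_smul_right, hI, real_inner_comm]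
    field_simp
  have hr1 : ⟪e₁, r⟫ = 0 := by
    rw [hr, inner_sub_right, inner_smul_right, real_inner_self_eq_norm_sq, he₁n, hβ,
      real_inner_comm]
    ring
  have hrn : ‖r‖ ^ 2 = D - β ^ 2 := by
    rw [hr, @norm_sub_sq_real, norm_smul, he₁n, inner_smul_right, ← hβ]
    simp only [Real.norm_eq_abs, mul_one, sq_abs]
    ring
  have hAα : A = α ^ 2 := rfl
  have hrpos : 0 < ‖r‖ ^ 2 := by
    have : A * D - I ^ 2 = A * ‖r‖ ^ 2 := by
      rw [hrn, ← hβ', hAα]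
      ring
    have h6 : 0 < A * ‖r‖ ^ 2 := by
      rw [← this]
      linarith
    exact (pos_iff_pos_of_mul_pos h6).mp hApos
  have hrne : r ≠ 0 := by
    intro h
    simp [h] at hrpos
  have hγpos : 0 < ‖r‖ := norm_pos_iff.mpr hrne
  set e₂ : E := (1 / ‖r‖) • r with he₂
  have he₂n : ‖e₂‖ = 1 := by
    rw [he₂, norm_smul, Real.norm_of_nonneg (by positivity)]
    field_simp
  have h12 : ⟪e₁, e₂⟫ = 0 := by
    rw [he₂, inner_smul_right, hr1, mul_zero]
  have hv₁e : v₁ = α • e₁ := by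
    rw [he₁, smul_smul]
    field_simp
    simp
  have hv₂e : v₂ = β • e₁ + r := by
    rw [hr]
    abel
  have he₁W : e₁ ∈ Wᗮ := Wᗮ.smul_mem _ hv₁
  have hrW : r ∈ Wᗮ := Wᗮ.sub_mem hv₂ (Wᗮ.smul_mem _ he₁W)
  have he₂W : e₂ ∈ Wᗮ := Wᗮ.smul_mem _ hrW
  refine ⟨e₁, e₂, α, β, ‖r‖, he₁n, he₂n, h12, fun w hw => ⟨hv _ he₁W w hw, hv _ he₂W w hw⟩,
    ?_, ?_, ?_, ?_, hαpos, hγpos, ?_⟩
  · rw [inner_add_left, real_inner_comm, hv _ he₁W w₁ hw₁, zero_add, hv₁e, inner_smul_left,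
      real_inner_self_eq_norm_sq, he₁n]
    simp
  · rw [inner_add_left, real_inner_comm, hv _ he₂W w₁ hw₁, zero_add, hv₁e, inner_smul_left, h12]
    simp
  · rw [inner_add_left, real_inner_comm, hv _ he₁W w₂ hw₂, zero_add]
  · rw [inner_add_left, real_inner_comm, hv _ he₂W w₂ hw₂, zero_add, hv₂e, inner_add_left,
      inner_smul_left, h12, he₂, inner_smul_right, real_inner_self_eq_norm_sq]
    simp only [conj_trivial, mul_zero, zero_add]
    field_simp
  · have : (α * ‖r‖) ^ 2 = A * D - I ^ 2 := by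
      rw [mul_pow, hrn, ← hβ', hAα]
      ring
    rw [this]
    exact hdetA

/-! ### splitting and one-dimensional estimates -/

lemma lintegral_split (e : E) (he : ‖e‖ = 1) {f : E → ℝ≥0∞} (hf : Measurable f) :
    ∫⁻ x, f x ∂(stdGaussian E) =
      ∫⁻ y, ∫⁻ g, f (splitMap e (g, y)) ∂(gaussianReal 0 1) ∂(stdGaussian E) := by
  conv_lhs => rw [← map_splitMap e he]
  rw [lintegral_map hf (measurable_splitMap e)]
  exact lintegral_prod_symm (fun a => f (splitMap e a)) (hf.comp (measurable_splitMap e)).aemeasurable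

lemma splitMap_eq_add (e y : E) (g : ℝ) : splitMap e (g, y) = y + (g - ⟪e, y⟫) • e := by
  simp only [splitMap, sub_smul]
  abel

lemma gauss_band_le (c a b β : ℝ) (hβ : 0 < β) :
    gaussianReal 0 1 {g | a < c + g * β ∧ c + g * β < b} ≤
      ENNReal.ofReal (cG * (max (b - a) 0) / β) := by
  by_cases hab : a < b
  · have hsub : {g : ℝ | a < c + g * β ∧ c + g * β < b} ⊆ Icc ((a - c) / β) ((b - c) / β) := by
      intro g hg
      simp only [mem_ofPred_eq] at hg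
      simp only [mem_Icc]
      rw [div_le_iff₀ hβ, le_div_iff₀ hβ]
      constructor <;> linarith [hg.1, hg.2]
    refine (measure_mono hsub).trans ((gauss_Icc_le _ _ ?_).trans
      (ENNReal.ofReal_le_ofReal (le_of_eq ?_)))
    · apply div_le_div_of_nonneg_right (by linarith) hβ.le
    · rw [max_eq_left (by linarith)]
      field_simp
      ring
  · have : {g : ℝ | a < c + g * β ∧ c + g * β < b} = ∅ := by
      ext g
      simp only [mem_ofPred_eq, mem_empty_iff_false, iff_false, not_and, not_lt]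
      intro h
      linarith
    rw [this]
    simp

lemma gauss_abs_le (c t β : ℝ) (hβ : 0 < β) :
    gaussianReal 0 1 {g | |c + g * β| ≤ t} ≤ ENNReal.ofReal (cG * (2 * max t 0) / β) := by
  by_cases ht : 0 ≤ t
  · have hsub : {g : ℝ | |c + g * β| ≤ t} ⊆ Icc ((-t - c) / β) ((t - c) / β) := by
      intro g hg
      simp only [mem_ofPred_eq, abs_le] at hg
      simp only [mem_Icc]
      rw [div_le_iff₀ hβ, le_div_iff₀ hβ]
      constructor <;> linarith [hg.1, hg.2]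
    refine (measure_mono hsub).trans ((gauss_Icc_le _ _ ?_).trans
      (ENNReal.ofReal_le_ofReal (le_of_eq ?_)))
    · apply div_le_div_of_nonneg_right (by linarith) hβ.le
    · rw [max_eq_left ht]
      field_simp
      ring
  · have : {g : ℝ | |c + g * β| ≤ t} = ∅ := by
      ext g
      simp only [mem_ofPred_eq, mem_empty_iff_false, iff_false, not_le]
      have := abs_nonneg (c + g * β)
      linarith
    rw [this]
    simp

lemma gaussianPDF_le_cG (y : ℝ) : gaussianPDF 0 1 y ≤ ENNReal.ofReal cG := by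
  rw [gaussianPDF, gaussianPDFReal_01]
  apply ENNReal.ofReal_le_ofReal
  have h1 : rexp (-(y ^ 2 / 2)) ≤ 1 := Real.exp_le_one_iff.mpr (by nlinarith [sq_nonneg y])
  nlinarith [cG_pos]

lemma lintegral_gauss_le_cG {f : ℝ → ℝ≥0∞} (hf : Measurable f) :
    ∫⁻ g, f g ∂(gaussianReal 0 1) ≤ ENNReal.ofReal cG * ∫⁻ g, f g := by
  rw [gaussianReal_of_var_ne_zero 0 (by norm_num : (1 : NNReal) ≠ 0),
    lintegral_withDensity_eq_lintegral_mul _ (measurable_gaussianPDF 0 1) hf,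
    ← lintegral_const_mul _ hf]
  apply lintegral_mono
  intro g
  simp only [Pi.mul_apply]
  gcongr
  exact gaussianPDF_le_cG g

lemma lintegral_ramp (b α t₁ t₂ : ℝ) (hα : 0 < α) :
    ∫⁻ g, ({g : ℝ | b + g * α < t₁}).indicator
        (fun g => ENNReal.ofReal (max (t₂ + b + g * α) 0)) g ≤
      ENNReal.ofReal ((1 / 2) * (max (t₁ + t₂) 0) ^ 2 / α) := by
  set g₀ : ℝ := (-t₂ - b) / α with hg₀
  set g₁ : ℝ := (t₁ - b) / α with hg₁
  by_cases ht : 0 ≤ t₁ + t₂
  · have hle : g₀ ≤ g₁ := by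
      apply div_le_div_of_nonneg_right (by linarith) hα.le
    have hsub : ∀ g, ({g : ℝ | b + g * α < t₁}).indicator
        (fun g => ENNReal.ofReal (max (t₂ + b + g * α) 0)) g ≤
        (Ioc g₀ g₁).indicator (fun g => ENNReal.ofReal (t₂ + b + g * α)) g := by
      intro g
      by_cases h1 : b + g * α < t₁
      · rw [indicator_of_mem (by exact h1)]
        by_cases h2 : g₀ < g
        · have h3 : g ≤ g₁ := by
            rw [hg₁, le_div_iff₀ hα]
            linarith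
          rw [indicator_of_mem (mem_Ioc.mpr ⟨h2, h3⟩)]
          have h4 : 0 < t₂ + b + g * α := by
            rw [hg₀, div_lt_iff₀ hα] at h2
            linarith
          rw [max_eq_left h4.le]
        · have h4 : t₂ + b + g * α ≤ 0 := by
            have : g ≤ g₀ := not_lt.mp h2
            rw [hg₀, le_div_iff₀ hα] at this
            linarith
          rw [max_eq_right h4]
          simp
      · rw [indicator_of_notMem (by exact h1)]
        exact zero_le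
    calc ∫⁻ g, ({g : ℝ | b + g * α < t₁}).indicator
          (fun g => ENNReal.ofReal (max (t₂ + b + g * α) 0)) g
        ≤ ∫⁻ g, (Ioc g₀ g₁).indicator (fun g => ENNReal.ofReal (t₂ + b + g * α)) g :=
          lintegral_mono hsub
      _ = ∫⁻ g in Ioc g₀ g₁, ENNReal.ofReal (t₂ + b + g * α) :=
          lintegral_indicator measurableSet_Ioc _
      _ = ENNReal.ofReal (∫ g in Ioc g₀ g₁, (t₂ + b + g * α)) := by
          rw [ofReal_integral_eq_lintegral_ofReal]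
          · exact (Continuous.integrableOn_Ioc (by fun_prop))
          · refine (ae_restrict_iff' measurableSet_Ioc).mpr (Eventually.of_forall fun g hg => ?_)
            have h2 : g₀ < g := hg.1
            rw [hg₀, div_lt_iff₀ hα] at h2
            show 0 ≤ t₂ + b + g * α
            linarith
      _ = ENNReal.ofReal ((1 / 2) * (max (t₁ + t₂) 0) ^ 2 / α) := by
          congr 1
          rw [← intervalIntegral.integral_of_le hle, max_eq_left ht]
          have hd : ∀ x ∈ uIcc g₀ g₁, HasDerivAt (fun g : ℝ => (t₂ + b + g * α) ^ 2 / (2 * α))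
              (t₂ + b + x * α) x := by
            intro x _
            have h1 : HasDerivAt (fun g : ℝ => t₂ + b + g * α) α x := by
              simpa using ((hasDerivAt_id' x).mul_const α).const_add (t₂ + b)
            have h2 := (h1.pow 2).div_const (2 * α)
            refine h2.congr_deriv ?_
            field_simp
            simp
            ring
          rw [intervalIntegral.integral_eq_sub_of_hasDerivAt hd
            ((Continuous.intervalIntegrable (by fun_prop) _ _))]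
          have e0 : t₂ + b + g₀ * α = 0 := by
            rw [hg₀]
            field_simp
            ring
          have e1 : t₂ + b + g₁ * α = t₁ + t₂ := by
            rw [hg₁]
            field_simp
            ring
          rw [e0, e1]
          field_simp
          ring
  · have hzero : ∀ g, ({g : ℝ | b + g * α < t₁}).indicator
        (fun g => ENNReal.ofReal (max (t₂ + b + g * α) 0)) g = 0 := by
      intro g
      by_cases h1 : b + g * α < t₁
      · rw [indicator_of_mem (by exact h1), max_eq_right (by linarith [not_le.mp ht])]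
        simp
      · exact indicator_of_notMem (by exact h1) _
    calc _ = ∫⁻ _ : ℝ, 0 := lintegral_congr hzero
      _ = 0 := by simp
      _ ≤ _ := zero_le

lemma lintegral_ramp_gauss (b α t₁ t₂ : ℝ) (hα : 0 < α) :
    ∫⁻ g, ({g : ℝ | b + g * α < t₁}).indicator
        (fun g => ENNReal.ofReal (max (t₂ + b + g * α) 0)) g ∂(gaussianReal 0 1) ≤
      ENNReal.ofReal (cG * ((1 / 2) * (max (t₁ + t₂) 0) ^ 2 / α)) := by
  have hm : Measurable (({g : ℝ | b + g * α < t₁}).indicator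
      (fun g => ENNReal.ofReal (max (t₂ + b + g * α) 0))) := by
    refine Measurable.indicator (by fun_prop) ?_
    exact measurableSet_lt (by fun_prop) measurable_const
  refine (lintegral_gauss_le_cG hm).trans ?_
  rw [ENNReal.ofReal_mul cG_pos.le]
  gcongr
  exact lintegral_ramp b α t₁ t₂ hα

/-! ### the small-ball estimates -/

/-- A function on `E` not depending on the two coordinates `e₁, e₂`. -/
def Inv2 (e₁ e₂ : E) (f : E → ℝ) : Prop :=
  ∀ (x : E) (a b : ℝ), f (x + a • e₁ + b • e₂) = f x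

lemma Inv2.split₁ {e₁ e₂ : E} {f : E → ℝ} (h : Inv2 e₁ e₂ f) (g : ℝ) (x : E) :
    f (splitMap e₁ (g, x)) = f x := by
  have := h x (g - ⟪e₁, x⟫) 0
  simpa [splitMap_eq_add] using this

lemma Inv2.split₂ {e₁ e₂ : E} {f : E → ℝ} (h : Inv2 e₁ e₂ f) (g : ℝ) (x : E) :
    f (splitMap e₂ (g, x)) = f x := by
  have := h x 0 (g - ⟪e₂, x⟫)
  simpa [splitMap_eq_add] using this

theorem rect_ball {e₁ e₂ : E} (he₁ : ‖e₁‖ = 1) (he₂ : ‖e₂‖ = 1) (h12 : ⟪e₁, e₂⟫ = 0)
    {q₁ q₂ : E} {α β γ' : ℝ} (hα : 0 < α) (hγ : 0 < γ')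
    (h11 : ⟪q₁, e₁⟫ = α) (h12' : ⟪q₁, e₂⟫ = 0) (h21 : ⟪q₂, e₁⟫ = β) (h22 : ⟪q₂, e₂⟫ = γ')
    {τ₁ τ₂ : E → ℝ} (m₁ : Measurable τ₁) (m₂ : Measurable τ₂)
    (i₁ : Inv2 e₁ e₂ τ₁) (i₂ : Inv2 e₁ e₂ τ₂)
    (hint : Integrable (fun x => max (τ₁ x) 0 * max (τ₂ x) 0) (stdGaussian E)) :
    (stdGaussian E).real {x | |⟪q₁, x⟫| ≤ τ₁ x ∧ |⟪q₂, x⟫| ≤ τ₂ x} ≤
      cG ^ 2 / (α * γ') * ∫ x, 4 * (max (τ₁ x) 0 * max (τ₂ x) 0) ∂(stdGaussian E) := by
  have hc := cG_pos
  set T : Set E := {x | |⟪q₁, x⟫| ≤ τ₁ x} with hT_def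
  have hT : MeasurableSet T := measurableSet_le (by fun_prop) m₁
  have hT2 : MeasurableSet {x : E | |⟪q₂, x⟫| ≤ τ₂ x} := measurableSet_le (by fun_prop) m₂
  set S : Set E := {x | |⟪q₁, x⟫| ≤ τ₁ x ∧ |⟪q₂, x⟫| ≤ τ₂ x} with hS_def
  have hS : MeasurableSet S := hT.inter hT2
  set G : E → ℝ≥0∞ := fun x => ENNReal.ofReal (cG * (2 * max (τ₂ x) 0) / γ') with hG
  have hGm : Measurable G := by
    apply ENNReal.measurable_ofReal.comp
    fun_prop
  have step1 : ∀ x, gaussianReal 0 1 {g | splitMap e₂ (g, x) ∈ S} ≤ T.indicator G x := by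
    intro x
    by_cases hx : x ∈ T
    · rw [indicator_of_mem hx]
      have hsub : {g | splitMap e₂ (g, x) ∈ S} ⊆
          {g | |(⟪q₂, x⟫ - ⟪e₂, x⟫ * γ') + g * γ'| ≤ τ₂ x} := by
        intro g hg
        have h2 : |⟪q₂, splitMap e₂ (g, x)⟫| ≤ τ₂ (splitMap e₂ (g, x)) := hg.2
        rw [inner_splitMap, h22, i₂.split₂] at h2
        exact h2
      exact (measure_mono hsub).trans (gauss_abs_le _ _ _ hγ)
    · rw [indicator_of_notMem hx]
      have : {g | splitMap e₂ (g, x) ∈ S} = ∅ := by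
        ext g
        simp only [mem_ofPred_eq, mem_empty_iff_false, iff_false]
        intro hg
        have h1 : |⟪q₁, splitMap e₂ (g, x)⟫| ≤ τ₁ (splitMap e₂ (g, x)) := hg.1
        rw [inner_splitMap, h12', i₁.split₂] at h1
        have h1' : |⟪q₁, x⟫| ≤ τ₁ x := by simpa using h1
        exact hx h1'
      rw [this]
      simp
  have step2 : ∀ y, ∫⁻ g, T.indicator G (splitMap e₁ (g, y)) ∂(gaussianReal 0 1) ≤
      ENNReal.ofReal (cG ^ 2 / (α * γ') * (4 * (max (τ₁ y) 0 * max (τ₂ y) 0))) := by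
    intro y
    have hind : ∀ g, T.indicator G (splitMap e₁ (g, y)) =
        ({g | |(⟪q₁, y⟫ - ⟪e₁, y⟫ * α) + g * α| ≤ τ₁ y}).indicator (fun _ => G y) g := by
      intro g
      have hG' : G (splitMap e₁ (g, y)) = G y := by
        simp only [hG, i₂.split₁]
      have hiff : splitMap e₁ (g, y) ∈ T ↔ |(⟪q₁, y⟫ - ⟪e₁, y⟫ * α) + g * α| ≤ τ₁ y := by
        show |⟪q₁, splitMap e₁ (g, y)⟫| ≤ τ₁ (splitMap e₁ (g, y)) ↔ _
        rw [inner_splitMap, h11, i₁.split₁]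
      by_cases h : |(⟪q₁, y⟫ - ⟪e₁, y⟫ * α) + g * α| ≤ τ₁ y
      · rw [indicator_of_mem (hiff.mpr h), indicator_of_mem (by exact h), hG']
      · rw [indicator_of_notMem (fun h' => h (hiff.mp h')), indicator_of_notMem (by exact h)]
    have hmeas : MeasurableSet {g : ℝ | |(⟪q₁, y⟫ - ⟪e₁, y⟫ * α) + g * α| ≤ τ₁ y} :=
      measurableSet_le (by fun_prop) measurable_const
    calc ∫⁻ g, T.indicator G (splitMap e₁ (g, y)) ∂(gaussianReal 0 1)
        = ∫⁻ g, ({g | |(⟪q₁, y⟫ - ⟪e₁, y⟫ * α) + g * α| ≤ τ₁ y}).indicator (fun _ => G y) g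
            ∂(gaussianReal 0 1) := lintegral_congr hind
      _ = G y * gaussianReal 0 1 {g | |(⟪q₁, y⟫ - ⟪e₁, y⟫ * α) + g * α| ≤ τ₁ y} :=
          lintegral_indicator_const hmeas _
      _ ≤ G y * ENNReal.ofReal (cG * (2 * max (τ₁ y) 0) / α) := by
          gcongr
          exact gauss_abs_le _ _ _ hα
      _ = ENNReal.ofReal (cG ^ 2 / (α * γ') * (4 * (max (τ₁ y) 0 * max (τ₂ y) 0))) := by
          rw [hG, ← ENNReal.ofReal_mul (by positivity)]
          congr 1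
          field_simp
          ring
  have hint' : Integrable (fun x => cG ^ 2 / (α * γ') * (4 * (max (τ₁ x) 0 * max (τ₂ x) 0)))
      (stdGaussian E) := (hint.const_mul 4).const_mul _
  have hmain : stdGaussian E S ≤
      ENNReal.ofReal (∫ x, cG ^ 2 / (α * γ') * (4 * (max (τ₁ x) 0 * max (τ₂ x) 0))
        ∂(stdGaussian E)) := by
    rw [ofReal_integral_eq_lintegral_ofReal hint' (Eventually.of_forall fun x => by
      show 0 ≤ cG ^ 2 / (α * γ') * (4 * (max (τ₁ x) 0 * max (τ₂ x) 0))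
      positivity)]
    calc stdGaussian E S
        = ∫⁻ x, gaussianReal 0 1 {g | splitMap e₂ (g, x) ∈ S} ∂(stdGaussian E) :=
          stdGaussian_apply_split e₂ he₂ S hS
      _ ≤ ∫⁻ x, T.indicator G x ∂(stdGaussian E) := lintegral_mono step1
      _ = ∫⁻ y, ∫⁻ g, T.indicator G (splitMap e₁ (g, y)) ∂(gaussianReal 0 1) ∂(stdGaussian E) :=
          lintegral_split e₁ he₁ (hGm.indicator hT)
      _ ≤ _ := lintegral_mono step2
  have hfinal := ENNReal.toReal_le_of_le_ofReal (integral_nonneg fun x => by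
    show 0 ≤ cG ^ 2 / (α * γ') * (4 * (max (τ₁ x) 0 * max (τ₂ x) 0))
    positivity) hmain
  rw [integral_const_mul] at hfinal
  exact hfinal

theorem tri_ball {e₁ e₂ : E} (he₁ : ‖e₁‖ = 1) (he₂ : ‖e₂‖ = 1) (h12 : ⟪e₁, e₂⟫ = 0)
    {p₁ p₂ : E} {α β γ' : ℝ} (hα : 0 < α) (hγ : 0 < γ')
    (h11 : ⟪p₁, e₁⟫ = α) (h12' : ⟪p₁, e₂⟫ = 0) (h21 : ⟪p₂, e₁⟫ = β) (h22 : ⟪p₂, e₂⟫ = γ')
    {τ₁ τ₂ τ₃ : E → ℝ} (m₁ : Measurable τ₁) (m₂ : Measurable τ₂) (m₃ : Measurable τ₃)
    (i₁ : Inv2 e₁ e₂ τ₁) (i₂ : Inv2 e₁ e₂ τ₂) (i₃ : Inv2 e₁ e₂ τ₃)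
    {C : Set E} (hC : MeasurableSet C) (iC : ∀ (x : E) (a b : ℝ), x + a • e₁ + b • e₂ ∈ C ↔ x ∈ C)
    (hint : Integrable (fun x => (max (τ₁ x + τ₂ x + τ₃ x) 0) ^ 2) (stdGaussian E)) :
    (stdGaussian E).real
        {x | x ∈ C ∧ ⟪p₁, x⟫ < τ₁ x ∧ ⟪p₂, x⟫ < τ₂ x ∧ -τ₃ x < ⟪p₁, x⟫ + ⟪p₂, x⟫} ≤
      cG ^ 2 / (α * γ') * ∫ x in C, (1 / 2) * (max (τ₁ x + τ₂ x + τ₃ x) 0) ^ 2 ∂(stdGaussian E) := by
  have hc := cG_pos
  have iC₁ : ∀ (g : ℝ) (x : E), splitMap e₁ (g, x) ∈ C ↔ x ∈ C := by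
    intro g x
    have := iC x (g - ⟪e₁, x⟫) 0
    simpa [splitMap_eq_add] using this
  have iC₂ : ∀ (g : ℝ) (x : E), splitMap e₂ (g, x) ∈ C ↔ x ∈ C := by
    intro g x
    have := iC x 0 (g - ⟪e₂, x⟫)
    simpa [splitMap_eq_add] using this
  set T : Set E := C ∩ {x | ⟪p₁, x⟫ < τ₁ x} with hT_def
  have hT : MeasurableSet T := hC.inter (measurableSet_lt (by fun_prop) m₁)
  set S : Set E := {x | x ∈ C ∧ ⟪p₁, x⟫ < τ₁ x ∧ ⟪p₂, x⟫ < τ₂ x ∧ -τ₃ x < ⟪p₁, x⟫ + ⟪p₂, x⟫}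
    with hS_def
  have hS : MeasurableSet S := by
    have h1 : MeasurableSet {x : E | ⟪p₁, x⟫ < τ₁ x} := measurableSet_lt (by fun_prop) m₁
    have h2 : MeasurableSet {x : E | ⟪p₂, x⟫ < τ₂ x} := measurableSet_lt (by fun_prop) m₂
    have h3 : MeasurableSet {x : E | -τ₃ x < ⟪p₁, x⟫ + ⟪p₂, x⟫} :=
      measurableSet_lt m₃.neg (by fun_prop)
    exact hC.inter (h1.inter (h2.inter h3))
  set G : E → ℝ≥0∞ := fun x => ENNReal.ofReal (cG * (max (τ₂ x + τ₃ x + ⟪p₁, x⟫) 0) / γ') with hG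
  have hGm : Measurable G := by
    apply ENNReal.measurable_ofReal.comp
    fun_prop
  have step1 : ∀ x, gaussianReal 0 1 {g | splitMap e₂ (g, x) ∈ S} ≤ T.indicator G x := by
    intro x
    have hp₁ : ∀ g, ⟪p₁, splitMap e₂ (g, x)⟫ = ⟪p₁, x⟫ := by
      intro g
      rw [inner_splitMap, h12']
      ring
    by_cases hx : x ∈ T
    · rw [indicator_of_mem hx]
      have hsub : {g | splitMap e₂ (g, x) ∈ S} ⊆
          {g | -τ₃ x - ⟪p₁, x⟫ < (⟪p₂, x⟫ - ⟪e₂, x⟫ * γ') + g * γ' ∧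
            (⟪p₂, x⟫ - ⟪e₂, x⟫ * γ') + g * γ' < τ₂ x} := by
        intro g hg
        obtain ⟨_, _, h2, h3⟩ := hg
        rw [i₂.split₂, inner_splitMap, h22] at h2
        rw [i₃.split₂, hp₁, inner_splitMap, h22] at h3
        exact ⟨by linarith, h2⟩
      refine (measure_mono hsub).trans ((gauss_band_le _ _ _ _ hγ).trans
        (ENNReal.ofReal_le_ofReal (le_of_eq ?_)))
      congr 3
      ring
    · rw [indicator_of_notMem hx]
      have : {g | splitMap e₂ (g, x) ∈ S} = ∅ := by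
        ext g
        simp only [mem_ofPred_eq, mem_empty_iff_false, iff_false]
        intro hg
        obtain ⟨h0, h1, _, _⟩ := hg
        rw [iC₂] at h0
        rw [hp₁, i₁.split₂] at h1
        exact hx ⟨h0, h1⟩
      rw [this]
      simp
  have step2 : ∀ y, ∫⁻ g, T.indicator G (splitMap e₁ (g, y)) ∂(gaussianReal 0 1) ≤
      C.indicator (fun y => ENNReal.ofReal
        (cG ^ 2 / (α * γ') * ((1 / 2) * (max (τ₁ y + τ₂ y + τ₃ y) 0) ^ 2))) y := by
    intro y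
    by_cases hy : y ∈ C
    · rw [indicator_of_mem hy]
      set b := ⟪p₁, y⟫ - ⟪e₁, y⟫ * α with hb
      have hp₁ : ∀ g, ⟪p₁, splitMap e₁ (g, y)⟫ = b + g * α := by
        intro g
        rw [inner_splitMap, h11]
      have hind : ∀ g, T.indicator G (splitMap e₁ (g, y)) =
          ENNReal.ofReal (cG / γ') * ({g : ℝ | b + g * α < τ₁ y}).indicator
            (fun g => ENNReal.ofReal (max ((τ₂ y + τ₃ y) + b + g * α) 0)) g := by
        intro g
        by_cases h : b + g * α < τ₁ y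
        · have hm : splitMap e₁ (g, y) ∈ T := by
            refine ⟨(iC₁ g y).mpr hy, ?_⟩
            show ⟪p₁, splitMap e₁ (g, y)⟫ < τ₁ (splitMap e₁ (g, y))
            rw [hp₁, i₁.split₁]
            exact h
          rw [indicator_of_mem hm, indicator_of_mem (by exact h), hG]
          simp only [i₂.split₁, i₃.split₁, hp₁]
          rw [← ENNReal.ofReal_mul (by positivity)]
          congr 1
          have e1 : τ₂ y + τ₃ y + (b + g * α) = τ₂ y + τ₃ y + b + g * α := by ring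
          rw [e1]
          field_simp
        · have hm : splitMap e₁ (g, y) ∉ T := by
            rintro ⟨_, h1⟩
            have h1' : ⟪p₁, splitMap e₁ (g, y)⟫ < τ₁ (splitMap e₁ (g, y)) := h1
            rw [hp₁, i₁.split₁] at h1'
            exact h h1'
          rw [indicator_of_notMem hm, indicator_of_notMem (by exact h)]
          simp
      have hmeas : Measurable (({g : ℝ | b + g * α < τ₁ y}).indicator
            (fun g => ENNReal.ofReal (max ((τ₂ y + τ₃ y) + b + g * α) 0))) := by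
        refine Measurable.indicator (by fun_prop) ?_
        exact measurableSet_lt (by fun_prop) measurable_const
      calc ∫⁻ g, T.indicator G (splitMap e₁ (g, y)) ∂(gaussianReal 0 1)
          = ∫⁻ g, ENNReal.ofReal (cG / γ') * ({g : ℝ | b + g * α < τ₁ y}).indicator
            (fun g => ENNReal.ofReal (max ((τ₂ y + τ₃ y) + b + g * α) 0)) g
              ∂(gaussianReal 0 1) := lintegral_congr hind
        _ = ENNReal.ofReal (cG / γ') * ∫⁻ g, ({g : ℝ | b + g * α < τ₁ y}).indicator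
            (fun g => ENNReal.ofReal (max ((τ₂ y + τ₃ y) + b + g * α) 0)) g
              ∂(gaussianReal 0 1) := lintegral_const_mul _ hmeas
        _ ≤ ENNReal.ofReal (cG / γ') *
            ENNReal.ofReal (cG * ((1 / 2) * (max (τ₁ y + (τ₂ y + τ₃ y)) 0) ^ 2 / α)) := by
            gcongr
            exact lintegral_ramp_gauss b α _ _ hα
        _ = ENNReal.ofReal (cG ^ 2 / (α * γ') * ((1 / 2) * (max (τ₁ y + τ₂ y + τ₃ y) 0) ^ 2)) := by
            rw [← ENNReal.ofReal_mul (by positivity)]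
            congr 1
            rw [← add_assoc]
            field_simp
    · rw [indicator_of_notMem hy]
      have hzero : ∀ g, T.indicator G (splitMap e₁ (g, y)) = 0 := by
        intro g
        apply indicator_of_notMem
        rintro ⟨h0, _⟩
        exact hy ((iC₁ g y).mp h0)
      calc _ = ∫⁻ _ : ℝ, 0 ∂(gaussianReal 0 1) := lintegral_congr hzero
        _ = 0 := by simp
        _ ≤ 0 := le_rfl
  have hint' : IntegrableOn (fun x => cG ^ 2 / (α * γ') * ((1 / 2) * (max (τ₁ x + τ₂ x + τ₃ x) 0) ^ 2))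
      C (stdGaussian E) := ((hint.const_mul (1 / 2)).const_mul _).integrableOn
  have hmain : stdGaussian E S ≤
      ENNReal.ofReal (∫ x in C, cG ^ 2 / (α * γ') * ((1 / 2) * (max (τ₁ x + τ₂ x + τ₃ x) 0) ^ 2)
        ∂(stdGaussian E)) := by
    rw [ofReal_integral_eq_lintegral_ofReal hint' (Eventually.of_forall fun x => by
      show 0 ≤ cG ^ 2 / (α * γ') * ((1 / 2) * (max (τ₁ x + τ₂ x + τ₃ x) 0) ^ 2)
      positivity)]
    calc stdGaussian E S
        = ∫⁻ x, gaussianReal 0 1 {g | splitMap e₂ (g, x) ∈ S} ∂(stdGaussian E) :=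
          stdGaussian_apply_split e₂ he₂ S hS
      _ ≤ ∫⁻ x, T.indicator G x ∂(stdGaussian E) := lintegral_mono step1
      _ = ∫⁻ y, ∫⁻ g, T.indicator G (splitMap e₁ (g, y)) ∂(gaussianReal 0 1) ∂(stdGaussian E) :=
          lintegral_split e₁ he₁ (hGm.indicator hT)
      _ ≤ ∫⁻ y, C.indicator (fun y => ENNReal.ofReal
            (cG ^ 2 / (α * γ') * ((1 / 2) * (max (τ₁ y + τ₂ y + τ₃ y) 0) ^ 2))) y ∂(stdGaussian E) :=
          lintegral_mono step2
      _ = _ := lintegral_indicator hC _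
  have hfinal := ENNReal.toReal_le_of_le_ofReal (setIntegral_nonneg hC fun x _ => by
    show 0 ≤ cG ^ 2 / (α * γ') * ((1 / 2) * (max (τ₁ x + τ₂ x + τ₃ x) 0) ^ 2)
    positivity) hmain
  rw [integral_const_mul] at hfinal
  exact hfinal

/-! ### the fourth moment -/

lemma integrable_pow_four_gauss :
    IntegrableOn (fun y : ℝ => y ^ 4 * rexp (-(y ^ 2 / 2))) (Ioi 0) := by
  have h := integrableOn_rpow_mul_exp_neg_mul_sq (b := 1 / 2) (by norm_num) (s := 4) (by norm_num)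
  refine h.congr_fun (fun y _ => ?_) measurableSet_Ioi
  simp only
  have e1 : y ^ (4 : ℝ) = y ^ 4 := by
    exact_mod_cast Real.rpow_natCast y 4
  rw [e1]
  congr 2
  ring

lemma integral_Ioi_four_gauss :
    ∫ y in Ioi (0 : ℝ), y ^ 4 * rexp (-(y ^ 2 / 2)) = 3 * (√(2 * π) / 2) := by
  have h0 : ∫ y in Ioi (0 : ℝ), rexp (-(y ^ 2 / 2)) = √(2 * π) / 2 := by
    have := integral_gaussian_Ioi (1 / 2)
    have e : (fun x : ℝ => rexp (-(1 / 2) * x ^ 2)) = fun y => rexp (-(y ^ 2 / 2)) := by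
      ext y; congr 1; ring
    rw [e] at this
    rw [this]
    congr 2
    ring
  have hI : IntegrableOn (fun y : ℝ => rexp (-(y ^ 2 / 2))) (Ioi 0) := integrable_gauss.integrableOn
  have hcont : ContinuousWithinAt (fun y : ℝ => -((y ^ 3 + 3 * y) * rexp (-(y ^ 2 / 2)))) (Ici 0) 0 :=
    Continuous.continuousWithinAt (by fun_prop)
  have hder : ∀ x ∈ Ioi (0 : ℝ), HasDerivAt (fun y : ℝ => -((y ^ 3 + 3 * y) * rexp (-(y ^ 2 / 2))))
      (x ^ 4 * rexp (-(x ^ 2 / 2)) - 3 * rexp (-(x ^ 2 / 2))) x := by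
    intro x _
    have h1 : HasDerivAt (fun y : ℝ => -(y ^ 2 / 2)) (-x) x := by
      have := (hp 1 2 x).neg
      refine this.congr_deriv ?_
      push_cast
      ring
    have h2 : HasDerivAt (fun y : ℝ => y ^ 3 + 3 * y) (3 * x ^ 2 + 3) x := by
      have := (hasDerivAt_pow 3 x).add ((hasDerivAt_id' x).const_mul 3)
      refine this.congr_deriv ?_
      push_cast
      ring
    have h3 := (h2.mul h1.exp).neg
    refine h3.congr_deriv ?_
    ring
  have hlim : Tendsto (fun y : ℝ => -((y ^ 3 + 3 * y) * rexp (-(y ^ 2 / 2)))) atTop (nhds 0) := by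
    have h1 := (integrable_gauss.mul_const (0 : ℝ))
    -- `y ^ 3 e^{-y²/2} → 0`, `y e^{-y²/2} → 0`
    have key : ∀ n : ℕ, Tendsto (fun y : ℝ => y ^ n * rexp (-(y ^ 2 / 2))) atTop (nhds 0) := by
      intro n
      have h2 : Tendsto (fun y : ℝ => y ^ n * rexp (-y)) atTop (nhds 0) :=
        Real.tendsto_pow_mul_exp_neg_atTop_nhds_zero n
      refine squeeze_zero' ?_ ?_ h2
      · filter_upwards [eventually_ge_atTop 0] with y hy
        positivity
      · filter_upwards [eventually_ge_atTop 2] with y hy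
        have : rexp (-(y ^ 2 / 2)) ≤ rexp (-y) := by
          apply Real.exp_le_exp.mpr
          nlinarith
        exact mul_le_mul_of_nonneg_left this (by positivity)
    have h3 := ((key 3).add ((key 1).const_mul 3)).neg
    simp only [add_zero, mul_zero, neg_zero, pow_one] at h3
    refine h3.congr fun y => ?_
    ring
  have hInt : IntegrableOn (fun x : ℝ => x ^ 4 * rexp (-(x ^ 2 / 2)) - 3 * rexp (-(x ^ 2 / 2)))
      (Ioi 0) := integrable_pow_four_gauss.sub (hI.const_mul 3)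
  have h4 := integral_Ioi_of_hasDerivAt_of_tendsto hcont hder hInt hlim
  simp only [ne_eq, OfNat.ofNat_ne_zero, not_false_eq_true, zero_pow, mul_zero, add_zero] at h4
  rw [integral_sub integrable_pow_four_gauss (hI.const_mul 3), integral_const_mul, h0] at h4
  linarith

/-- The fourth moment of the positive part of a linear form. -/
theorem moment_fourth_pos (z : E) :
    ∫ x, (max ⟪z, x⟫ 0) ^ 4 ∂(stdGaussian E) = (3 / 2) * ‖z‖ ^ 4 := by
  by_cases hz : z = 0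
  · subst hz
    simp
  have hs : 0 < ‖z‖ := norm_pos_iff.mpr hz
  set s := ‖z‖ with hs_def
  set e : E := (1 / s) • z with he_def
  have he : ‖e‖ = 1 := by
    rw [he_def, norm_smul, Real.norm_of_nonneg (by positivity), ← hs_def]
    field_simp
  have hzx : ∀ x : E, ⟪z, x⟫ = s * (innerSL ℝ e x) := by
    intro x
    rw [innerSL_apply_apply, he_def, inner_smul_left]
    simp only [conj_trivial]
    field_simp
  have hf : Measurable (fun y : ℝ => s ^ 4 * (max y 0) ^ 4) := by fun_prop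
  calc ∫ x, (max ⟪z, x⟫ 0) ^ 4 ∂(stdGaussian E)
      = ∫ x, (fun y : ℝ => s ^ 4 * (max y 0) ^ 4) (innerSL ℝ e x) ∂(stdGaussian E) := by
        apply integral_congr_ae
        refine Eventually.of_forall fun x => ?_
        simp only
        rw [hzx x]
        rcases le_total (innerSL ℝ e x) 0 with h | h
        · rw [max_eq_right h, max_eq_right (mul_nonpos_of_nonneg_of_nonpos hs.le h)]
          ring
        · rw [max_eq_left h, max_eq_left (mul_nonneg hs.le h)]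
          ring
    _ = ∫ y, s ^ 4 * (max y 0) ^ 4 ∂((stdGaussian E).map (innerSL ℝ e)) := by
        rw [integral_map (by fun_prop) hf.aestronglyMeasurable]
    _ = s ^ 4 * ∫ y, (max y 0) ^ 4 ∂(gaussianReal 0 1) := by
        rw [map_inner_unit e he, integral_const_mul]
    _ = (3 / 2) * s ^ 4 := by
        have h0 : ∫ y, (max y 0) ^ 4 ∂(gaussianReal 0 1) = 3 / 2 := by
          rw [integral_gaussianReal_eq_integral_smul (by norm_num)]
          have hzero : ∀ y, y ∉ Ioi (0 : ℝ) → gaussianPDFReal 0 1 y • (max y 0) ^ 4 = 0 := by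
            intro y hy
            have : y ≤ 0 := not_lt.mp hy
            have h : max y 0 = 0 := max_eq_right this
            simp [h]
          rw [← setIntegral_eq_integral_of_forall_compl_eq_zero hzero]
          have hcongr : ∫ y in Ioi (0 : ℝ), gaussianPDFReal 0 1 y • (max y 0) ^ 4 =
              ∫ y in Ioi (0 : ℝ), cG * (y ^ 4 * rexp (-(y ^ 2 / 2))) := by
            apply setIntegral_congr_fun measurableSet_Ioi
            intro y hy
            have hy' : 0 < y := hy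
            simp only [smul_eq_mul, max_eq_left hy'.le, gaussianPDFReal_01]
            ring
          rw [hcongr, integral_const_mul, integral_Ioi_four_gauss]
          have h2 := cG_mul_sqrt
          linear_combination (3 / 2) * h2
        rw [h0]
        ring

/-! ### the frame for three vectors -/

/-- Frame existence for three vectors; the quadratic form is given by a symmetric matrix. -/
theorem exists_frame3 (W : Submodule ℝ E) (p₁ p₂ p₃ : E) {a11 a12 a13 a22 a23 a33 : ℝ}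
    (ha : 0 < a11) (hdet2 : 0 < a11 * a22 - a12 ^ 2)
    (hdet : 0 < a11 * (a22 * a33 - a23 ^ 2) - a12 * (a12 * a33 - a23 * a13)
      + a13 * (a12 * a23 - a22 * a13))
    (hform : ∀ (ξ₁ ξ₂ ξ₃ : ℝ), ∀ w ∈ W,
      a11 * ξ₁ ^ 2 + a22 * ξ₂ ^ 2 + a33 * ξ₃ ^ 2 + 2 * a12 * (ξ₁ * ξ₂) + 2 * a13 * (ξ₁ * ξ₃)
        + 2 * a23 * (ξ₂ * ξ₃) ≤ ‖ξ₁ • p₁ + ξ₂ • p₂ + ξ₃ • p₃ + w‖ ^ 2) :
    ∃ (e₁ e₂ e₃ : E) (α₁ α₂ β γ' : ℝ), ‖e₁‖ = 1 ∧ ‖e₂‖ = 1 ∧ ‖e₃‖ = 1 ∧ ⟪e₁, e₂⟫ = 0 ∧
      ⟪e₁, e₃⟫ = 0 ∧ ⟪e₂, e₃⟫ = 0 ∧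
      (∀ w ∈ W, ⟪e₁, w⟫ = 0 ∧ ⟪e₂, w⟫ = 0 ∧ ⟪e₃, w⟫ = 0) ∧
      ⟪p₁, e₁⟫ = α₁ ∧ ⟪p₁, e₂⟫ = 0 ∧ ⟪p₁, e₃⟫ = 0 ∧
      ⟪p₂, e₂⟫ = α₂ ∧ ⟪p₂, e₃⟫ = 0 ∧ ⟪p₃, e₂⟫ = β ∧ ⟪p₃, e₃⟫ = γ' ∧
      0 < α₁ ∧ 0 < α₂ ∧ 0 < γ' ∧
      a11 * (a22 * a33 - a23 ^ 2) - a12 * (a12 * a33 - a23 * a13) + a13 * (a12 * a23 - a22 * a13)
        ≤ (α₁ * α₂ * γ') ^ 2 := by
  -- Schur complement
  set a₀ := a22 - a12 ^ 2 / a11 with ha₀
  set b₀ := a23 - a12 * a13 / a11 with hb₀
  set d₀ := a33 - a13 ^ 2 / a11 with hd₀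
  have ha₀pos : 0 < a₀ := by
    have : a₀ = (a11 * a22 - a12 ^ 2) / a11 := by
      rw [ha₀]
      field_simp
    rw [this]
    exact div_pos hdet2 ha
  have hdetS : a11 * (a₀ * d₀ - b₀ ^ 2) = a11 * (a22 * a33 - a23 ^ 2)
      - a12 * (a12 * a33 - a23 * a13) + a13 * (a12 * a23 - a22 * a13) := by
    rw [ha₀, hb₀, hd₀]
    field_simp
    ring
  have hdet₀ : 0 < a₀ * d₀ - b₀ ^ 2 := by
    have h : 0 < a11 * (a₀ * d₀ - b₀ ^ 2) := by
      rw [hdetS]
      exact hdet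
    exact (pos_iff_pos_of_mul_pos h).mp ha
  set W' : Submodule ℝ E := W ⊔ Submodule.span ℝ {p₁} with hW'
  have hform' : ∀ (ξ₂ ξ₃ : ℝ), ∀ w ∈ W',
      a₀ * ξ₂ ^ 2 + 2 * b₀ * (ξ₂ * ξ₃) + d₀ * ξ₃ ^ 2 ≤ ‖ξ₂ • p₂ + ξ₃ • p₃ + w‖ ^ 2 := by
    intro ξ₂ ξ₃ w hw
    obtain ⟨w₀, hw₀, y, hy, rfl⟩ := Submodule.mem_sup.mp hw
    obtain ⟨ξ₁, rfl⟩ := Submodule.mem_span_singleton.mp hy
    have h := hform ξ₁ ξ₂ ξ₃ w₀ hw₀
    have e : ξ₂ • p₂ + ξ₃ • p₃ + (w₀ + ξ₁ • p₁) = ξ₁ • p₁ + ξ₂ • p₂ + ξ₃ • p₃ + w₀ := by abel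
    rw [e]
    refine le_trans ?_ h
    have hsq : a11 * ξ₁ ^ 2 + a22 * ξ₂ ^ 2 + a33 * ξ₃ ^ 2 + 2 * a12 * (ξ₁ * ξ₂)
        + 2 * a13 * (ξ₁ * ξ₃) + 2 * a23 * (ξ₂ * ξ₃)
        - (a₀ * ξ₂ ^ 2 + 2 * b₀ * (ξ₂ * ξ₃) + d₀ * ξ₃ ^ 2)
        = a11 * (ξ₁ + (a12 * ξ₂ + a13 * ξ₃) / a11) ^ 2 := by
      rw [ha₀, hb₀, hd₀]
      field_simp
      ring
    have : 0 ≤ a11 * (ξ₁ + (a12 * ξ₂ + a13 * ξ₃) / a11) ^ 2 := by positivity
    linarith
  obtain ⟨e₂, e₃, α₂, β, γ', he₂, he₃, h23, hW2, h22, h23', h32, h33, hα₂, hγ, hdetF⟩ :=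
    exists_frame W' p₂ p₃ ha₀pos hdet₀ hform'
  obtain ⟨w₁, hw₁, v₁, hv₁, hp₁⟩ := W.exists_add_mem_mem_orthogonal p₁
  have hv : ∀ v ∈ Wᗮ, ∀ w ∈ W, ⟪v, w⟫ = 0 := fun v hv w hw => by
    rw [real_inner_comm]
    exact (Submodule.mem_orthogonal W v).mp hv w hw
  have hnorm : a11 ≤ ‖v₁‖ ^ 2 := by
    have h := hform 1 0 0 (-w₁) (W.neg_mem hw₁)
    have e : (1 : ℝ) • p₁ + (0 : ℝ) • p₂ + (0 : ℝ) • p₃ + -w₁ = v₁ := by
      rw [hp₁]
      simp
    rw [e] at h
    simpa using h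
  have hv₁pos : 0 < ‖v₁‖ := by
    have : 0 < ‖v₁‖ ^ 2 := lt_of_lt_of_le ha hnorm
    have hne : ‖v₁‖ ≠ 0 := by
      intro h0
      simp [h0] at this
    exact lt_of_le_of_ne (norm_nonneg _) (Ne.symm hne)
  set e₁ : E := (1 / ‖v₁‖) • v₁ with he₁_def
  have he₁ : ‖e₁‖ = 1 := by
    rw [he₁_def, norm_smul, Real.norm_of_nonneg (by positivity)]
    field_simp
  have hp₁W' : p₁ ∈ W' := Submodule.mem_sup_right (Submodule.mem_span_singleton_self p₁)
  have hw₁W' : w₁ ∈ W' := Submodule.mem_sup_left hw₁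
  have hv₁W' : v₁ ∈ W' := by
    have : v₁ = p₁ - w₁ := by
      rw [hp₁]
      abel
    rw [this]
    exact W'.sub_mem hp₁W' hw₁W'
  have hvo : ∀ w ∈ W', ⟪e₂, w⟫ = 0 ∧ ⟪e₃, w⟫ = 0 := hW2
  have h12 : ⟪e₁, e₂⟫ = 0 := by
    rw [he₁_def, inner_smul_left, real_inner_comm, (hvo v₁ hv₁W').1]
    simp
  have h13 : ⟪e₁, e₃⟫ = 0 := by
    rw [he₁_def, inner_smul_left, real_inner_comm, (hvo v₁ hv₁W').2]
    simp
  have he₁W : e₁ ∈ Wᗮ := Wᗮ.smul_mem _ hv₁
  refine ⟨e₁, e₂, e₃, ‖v₁‖, α₂, β, γ', he₁, he₂, he₃, h12, h13, h23, ?_, ?_, ?_, ?_, h22, h23',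
    h32, h33, hv₁pos, hα₂, hγ, ?_⟩
  · intro w hw
    have hw' : w ∈ W' := Submodule.mem_sup_left hw
    exact ⟨hv _ he₁W w hw, (hvo w hw').1, (hvo w hw').2⟩
  · rw [hp₁, inner_add_left, real_inner_comm, hv _ he₁W w₁ hw₁, zero_add, he₁_def,
      inner_smul_right, real_inner_self_eq_norm_sq]
    field_simp
  · rw [real_inner_comm]
    exact (hvo p₁ hp₁W').1
  · rw [real_inner_comm]
    exact (hvo p₁ hp₁W').2
  · rw [← hdetS]
    have h1 : a11 * (a₀ * d₀ - b₀ ^ 2) ≤ ‖v₁‖ ^ 2 * (α₂ * γ') ^ 2 :=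
      mul_le_mul hnorm hdetF hdet₀.le (by positivity)
    calc _ ≤ ‖v₁‖ ^ 2 * (α₂ * γ') ^ 2 := h1
      _ = (‖v₁‖ * α₂ * γ') ^ 2 := by ring

/-! ### three forms -/

lemma lintegral_ramp2 (b α t₁ t₂ : ℝ) (hα : 0 < α) :
    ∫⁻ g, ({g : ℝ | b + g * α < t₁}).indicator
        (fun g => ENNReal.ofReal ((1 / 2) * (max (t₂ + b + g * α) 0) ^ 2)) g ≤
      ENNReal.ofReal ((1 / 6) * (max (t₁ + t₂) 0) ^ 3 / α) := by
  set g₀ : ℝ := (-t₂ - b) / α with hg₀
  set g₁ : ℝ := (t₁ - b) / α with hg₁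
  by_cases ht : 0 ≤ t₁ + t₂
  · have hle : g₀ ≤ g₁ := by
      apply div_le_div_of_nonneg_right (by linarith) hα.le
    have hsub : ∀ g, ({g : ℝ | b + g * α < t₁}).indicator
        (fun g => ENNReal.ofReal ((1 / 2) * (max (t₂ + b + g * α) 0) ^ 2)) g ≤
        (Ioc g₀ g₁).indicator (fun g => ENNReal.ofReal ((1 / 2) * (t₂ + b + g * α) ^ 2)) g := by
      intro g
      by_cases h1 : b + g * α < t₁
      · rw [indicator_of_mem (by exact h1)]
        by_cases h2 : g₀ < g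
        · have h3 : g ≤ g₁ := by
            rw [hg₁, le_div_iff₀ hα]
            linarith
          rw [indicator_of_mem (mem_Ioc.mpr ⟨h2, h3⟩)]
          have h4 : 0 < t₂ + b + g * α := by
            rw [hg₀, div_lt_iff₀ hα] at h2
            linarith
          rw [max_eq_left h4.le]
        · have h4 : t₂ + b + g * α ≤ 0 := by
            have : g ≤ g₀ := not_lt.mp h2
            rw [hg₀, le_div_iff₀ hα] at this
            linarith
          rw [max_eq_right h4]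
          simp
      · rw [indicator_of_notMem (by exact h1)]
        exact zero_le
    calc ∫⁻ g, ({g : ℝ | b + g * α < t₁}).indicator
          (fun g => ENNReal.ofReal ((1 / 2) * (max (t₂ + b + g * α) 0) ^ 2)) g
        ≤ ∫⁻ g, (Ioc g₀ g₁).indicator (fun g => ENNReal.ofReal ((1 / 2) * (t₂ + b + g * α) ^ 2)) g :=
          lintegral_mono hsub
      _ = ∫⁻ g in Ioc g₀ g₁, ENNReal.ofReal ((1 / 2) * (t₂ + b + g * α) ^ 2) :=
          lintegral_indicator measurableSet_Ioc _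
      _ = ENNReal.ofReal (∫ g in Ioc g₀ g₁, ((1 / 2) * (t₂ + b + g * α) ^ 2)) := by
          rw [ofReal_integral_eq_lintegral_ofReal]
          · exact (Continuous.integrableOn_Ioc (by fun_prop))
          · exact Eventually.of_forall fun g => by
              show 0 ≤ (1 / 2) * (t₂ + b + g * α) ^ 2
              positivity
      _ = ENNReal.ofReal ((1 / 6) * (max (t₁ + t₂) 0) ^ 3 / α) := by
          congr 1
          rw [← intervalIntegral.integral_of_le hle, max_eq_left ht]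
          have hd : ∀ x ∈ uIcc g₀ g₁, HasDerivAt (fun g : ℝ => (t₂ + b + g * α) ^ 3 / (6 * α))
              ((1 / 2) * (t₂ + b + x * α) ^ 2) x := by
            intro x _
            have h1 : HasDerivAt (fun g : ℝ => t₂ + b + g * α) α x := by
              simpa using ((hasDerivAt_id' x).mul_const α).const_add (t₂ + b)
            have h2 := (h1.pow 3).div_const (6 * α)
            refine h2.congr_deriv ?_
            field_simp
            simp
            ring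
          rw [intervalIntegral.integral_eq_sub_of_hasDerivAt hd
            ((Continuous.intervalIntegrable (by fun_prop) _ _))]
          have e0 : t₂ + b + g₀ * α = 0 := by
            rw [hg₀]
            field_simp
            ring
          have e1 : t₂ + b + g₁ * α = t₁ + t₂ := by
            rw [hg₁]
            field_simp
            ring
          rw [e0, e1]
          field_simp
          ring
  · have hzero : ∀ g, ({g : ℝ | b + g * α < t₁}).indicator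
        (fun g => ENNReal.ofReal ((1 / 2) * (max (t₂ + b + g * α) 0) ^ 2)) g = 0 := by
      intro g
      by_cases h1 : b + g * α < t₁
      · rw [indicator_of_mem (by exact h1), max_eq_right (by linarith [not_le.mp ht])]
        simp
      · exact indicator_of_notMem (by exact h1) _
    calc _ = ∫⁻ _ : ℝ, 0 := lintegral_congr hzero
      _ = 0 := by simp
      _ ≤ _ := zero_le

lemma lintegral_ramp2_gauss (b α t₁ t₂ : ℝ) (hα : 0 < α) :
    ∫⁻ g, ({g : ℝ | b + g * α < t₁}).indicator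
        (fun g => ENNReal.ofReal ((1 / 2) * (max (t₂ + b + g * α) 0) ^ 2)) g ∂(gaussianReal 0 1) ≤
      ENNReal.ofReal (cG * ((1 / 6) * (max (t₁ + t₂) 0) ^ 3 / α)) := by
  have hm : Measurable (({g : ℝ | b + g * α < t₁}).indicator
      (fun g => ENNReal.ofReal ((1 / 2) * (max (t₂ + b + g * α) 0) ^ 2))) := by
    refine Measurable.indicator (by fun_prop) ?_
    exact measurableSet_lt (by fun_prop) measurable_const
  refine (lintegral_gauss_le_cG hm).trans ?_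
  rw [ENNReal.ofReal_mul cG_pos.le]
  gcongr
  exact lintegral_ramp2 b α t₁ t₂ hα

/-- Three forms.  `τ` does not depend on the three coordinates `e₁ e₂ e₃`. -/
theorem simplex_ball {e₁ e₂ e₃ : E} (he₁ : ‖e₁‖ = 1) (he₂ : ‖e₂‖ = 1) (he₃ : ‖e₃‖ = 1)
    (h12 : ⟪e₁, e₂⟫ = 0) (h13 : ⟪e₁, e₃⟫ = 0) (h23 : ⟪e₂, e₃⟫ = 0)
    {p₁ p₂ p₃ : E} {α₁ α₂ β γ' : ℝ} (hα₁ : 0 < α₁) (hα₂ : 0 < α₂) (hγ : 0 < γ')
    (h11 : ⟪p₁, e₁⟫ = α₁) (h12' : ⟪p₁, e₂⟫ = 0) (h13' : ⟪p₁, e₃⟫ = 0)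
    (h22 : ⟪p₂, e₂⟫ = α₂) (h23' : ⟪p₂, e₃⟫ = 0) (h32 : ⟪p₃, e₂⟫ = β) (h33 : ⟪p₃, e₃⟫ = γ')
    {τ : E → ℝ} (mτ : Measurable τ)
    (iτ : ∀ (x : E) (a b c : ℝ), τ (x + a • e₁ + b • e₂ + c • e₃) = τ x)
    (hint : Integrable (fun x => (max (τ x) 0) ^ 3) (stdGaussian E)) :
    (stdGaussian E).real
        {x | ⟪p₁, x⟫ < τ x ∧ ⟪p₂, x⟫ < τ x ∧ ⟪p₃, x⟫ < τ x ∧
          -τ x < ⟪p₁, x⟫ + ⟪p₂, x⟫ + ⟪p₃, x⟫} ≤
      cG ^ 3 / (α₁ * α₂ * γ') * ∫ x, (32 / 3) * (max (τ x) 0) ^ 3 ∂(stdGaussian E) := by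
  have hc := cG_pos
  set f₁ : E → ℝ := fun x => ⟪p₁, x⟫ with hf₁
  have mf₁ : Measurable f₁ := by fun_prop
  -- invariances
  have i23 : Inv2 e₂ e₃ τ := by
    intro x a b
    have := iτ x 0 a b
    simpa using this
  have if₁ : ∀ (x : E) (a b : ℝ), f₁ (x + a • e₂ + b • e₃) = f₁ x := by
    intro x a b
    simp only [hf₁, inner_add_right, inner_smul_right, h12', h13']
    ring
  set C : Set E := {x | f₁ x < τ x} with hC_def
  have hCm : MeasurableSet C := measurableSet_lt mf₁ mτ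
  have iC : ∀ (x : E) (a b : ℝ), x + a • e₂ + b • e₃ ∈ C ↔ x ∈ C := by
    intro x a b
    show f₁ (x + a • e₂ + b • e₃) < τ (x + a • e₂ + b • e₃) ↔ f₁ x < τ x
    rw [if₁, i23]
  have i3 : Inv2 e₂ e₃ (fun x => τ x + f₁ x) := by
    intro x a b
    show τ (x + a • e₂ + b • e₃) + f₁ (x + a • e₂ + b • e₃) = τ x + f₁ x
    rw [if₁, i23]
  -- integrability of the square
  have hsqτ : Integrable (fun x => (max (τ x) 0) ^ 2) (stdGaussian E) := by
    refine Integrable.mono' (g := fun x => 1 + (max (τ x) 0) ^ 3)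
      ((integrable_const 1).add hint) (by fun_prop) (Eventually.of_forall fun x => ?_)
    have h0 : 0 ≤ max (τ x) 0 := le_max_right _ _
    rw [Real.norm_of_nonneg (by positivity)]
    show max (τ x) 0 ^ 2 ≤ 1 + max (τ x) 0 ^ 3
    rcases le_total (max (τ x) 0) 1 with h | h
    · have : max (τ x) 0 ^ 2 ≤ 1 := pow_le_one₀ h0 h
      have h3 : 0 ≤ max (τ x) 0 ^ 3 := by positivity
      linarith
    · have : max (τ x) 0 ^ 2 ≤ max (τ x) 0 ^ 3 := by
        rw [pow_succ (max (τ x) 0) 2]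
        nlinarith [sq_nonneg (max (τ x) 0)]
      linarith
  have hint2 : Integrable (fun x => (max (τ x + τ x + (τ x + f₁ x)) 0) ^ 2) (stdGaussian E) := by
    refine Integrable.mono' (g := fun x => 18 * (max (τ x) 0) ^ 2 + 2 * ⟪p₁, x⟫ ^ 2)
      ((hsqτ.const_mul 18).add ((integrable_inner_sq p₁).const_mul 2)) (by fun_prop)
      (Eventually.of_forall fun x => ?_)
    have h0 : 0 ≤ max (τ x + τ x + (τ x + f₁ x)) 0 := le_max_right _ _
    rw [Real.norm_of_nonneg (by positivity)]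
    show max (τ x + τ x + (τ x + f₁ x)) 0 ^ 2 ≤ 18 * max (τ x) 0 ^ 2 + 2 * ⟪p₁, x⟫ ^ 2
    have h1 : τ x ≤ max (τ x) 0 := le_max_left _ _
    have h2 : 0 ≤ max (τ x) 0 := le_max_right _ _
    have h3 : f₁ x = ⟪p₁, x⟫ := rfl
    rcases le_total (τ x + τ x + (τ x + f₁ x)) 0 with h | h
    · rw [max_eq_right h]
      have : 0 ≤ max (τ x) 0 ^ 2 := by positivity
      have : 0 ≤ ⟪p₁, x⟫ ^ 2 := by positivity
      norm_num
      linarith
    · rw [max_eq_left h]
      nlinarith [sq_nonneg (3 * max (τ x) 0 - ⟪p₁, x⟫), sq_nonneg (3 * τ x + ⟪p₁, x⟫)]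
  -- first step: the frame (e₂, e₃)
  have hset : {x | ⟪p₁, x⟫ < τ x ∧ ⟪p₂, x⟫ < τ x ∧ ⟪p₃, x⟫ < τ x ∧
        -τ x < ⟪p₁, x⟫ + ⟪p₂, x⟫ + ⟪p₃, x⟫} =
      {x | x ∈ C ∧ ⟪p₂, x⟫ < τ x ∧ ⟪p₃, x⟫ < τ x ∧ -(τ x + f₁ x) < ⟪p₂, x⟫ + ⟪p₃, x⟫} := by
    ext x
    simp only [mem_ofPred_eq, hC_def, hf₁]
    constructor
    · rintro ⟨h1, h2, h3, h4⟩
      exact ⟨h1, h2, h3, by linarith⟩
    · rintro ⟨h1, h2, h3, h4⟩
      exact ⟨h1, h2, h3, by linarith⟩
  have hstep1 := tri_ball (e₁ := e₂) (e₂ := e₃) (p₁ := p₂) (p₂ := p₃) (τ₁ := τ) (τ₂ := τ)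
    (τ₃ := fun x => τ x + f₁ x) he₂ he₃ h23 hα₂ hγ h22 h23'
    h32 h33 mτ mτ (mτ.add mf₁) i23 i23 i3 hCm iC hint2
  rw [← hset] at hstep1
  -- second step: the coordinate `e₁`
  have i1τ : ∀ (g : ℝ) (y : E), τ (splitMap e₁ (g, y)) = τ y := by
    intro g y
    have := iτ y (g - ⟪e₁, y⟫) 0 0
    simpa [splitMap_eq_add] using this
  have hp₁s : ∀ (g : ℝ) (y : E), f₁ (splitMap e₁ (g, y)) = (⟪p₁, y⟫ - ⟪e₁, y⟫ * α₁) + g * α₁ := by
    intro g y
    simp only [hf₁]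
    rw [inner_splitMap, h11]
  set F : E → ℝ≥0∞ := C.indicator
    (fun x => ENNReal.ofReal ((1 / 2) * (max (τ x + τ x + (τ x + f₁ x)) 0) ^ 2)) with hF
  have hFm : Measurable F := by
    refine Measurable.indicator ?_ hCm
    apply ENNReal.measurable_ofReal.comp
    fun_prop
  have hstep2 : ∀ y, ∫⁻ g, F (splitMap e₁ (g, y)) ∂(gaussianReal 0 1) ≤
      ENNReal.ofReal (cG / α₁ * ((32 / 3) * (max (τ y) 0) ^ 3)) := by
    intro y
    set b := ⟪p₁, y⟫ - ⟪e₁, y⟫ * α₁ with hb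
    have hind : ∀ g, F (splitMap e₁ (g, y)) = ({g : ℝ | b + g * α₁ < τ y}).indicator
        (fun g => ENNReal.ofReal ((1 / 2) * (max (3 * τ y + b + g * α₁) 0) ^ 2)) g := by
      intro g
      have hiff : splitMap e₁ (g, y) ∈ C ↔ b + g * α₁ < τ y := by
        show f₁ (splitMap e₁ (g, y)) < τ (splitMap e₁ (g, y)) ↔ _
        rw [hp₁s, i1τ]
      by_cases h : b + g * α₁ < τ y
      · rw [hF, indicator_of_mem (hiff.mpr h), indicator_of_mem (by exact h), i1τ, hp₁s]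
        congr 4
        ring
      · rw [hF, indicator_of_notMem (fun h' => h (hiff.mp h')), indicator_of_notMem (by exact h)]
    calc ∫⁻ g, F (splitMap e₁ (g, y)) ∂(gaussianReal 0 1)
        = ∫⁻ g, ({g : ℝ | b + g * α₁ < τ y}).indicator
          (fun g => ENNReal.ofReal ((1 / 2) * (max (3 * τ y + b + g * α₁) 0) ^ 2)) g
            ∂(gaussianReal 0 1) := lintegral_congr hind
      _ ≤ ENNReal.ofReal (cG * ((1 / 6) * (max (τ y + 3 * τ y) 0) ^ 3 / α₁)) :=
          lintegral_ramp2_gauss b α₁ _ _ hα₁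
      _ = ENNReal.ofReal (cG / α₁ * ((32 / 3) * (max (τ y) 0) ^ 3)) := by
          congr 1
          have e : max (τ y + 3 * τ y) 0 = 4 * max (τ y) 0 := by
            rcases le_total (τ y) 0 with h | h
            · rw [max_eq_right h, max_eq_right (by linarith)]
              ring
            · rw [max_eq_left h, max_eq_left (by linarith)]
              ring
          rw [e]
          field_simp
          ring
  have hint3 : Integrable (fun x => cG / α₁ * ((32 / 3) * (max (τ x) 0) ^ 3)) (stdGaussian E) :=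
    (hint.const_mul _).const_mul _
  have hint4 : IntegrableOn (fun x => (1 / 2) * (max (τ x + τ x + (τ x + f₁ x)) 0) ^ 2) C
      (stdGaussian E) := (hint2.const_mul (1 / 2)).integrableOn
  have hmain : ENNReal.ofReal (∫ x in C, (1 / 2) * (max (τ x + τ x + (τ x + f₁ x)) 0) ^ 2
        ∂(stdGaussian E)) ≤
      ENNReal.ofReal (∫ x, cG / α₁ * ((32 / 3) * (max (τ x) 0) ^ 3) ∂(stdGaussian E)) := by
    rw [ofReal_integral_eq_lintegral_ofReal hint4 (Eventually.of_forall fun x => by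
      show 0 ≤ (1 / 2) * (max (τ x + τ x + (τ x + f₁ x)) 0) ^ 2
      positivity),
      ofReal_integral_eq_lintegral_ofReal hint3 (Eventually.of_forall fun x => by
      show 0 ≤ cG / α₁ * ((32 / 3) * (max (τ x) 0) ^ 3)
      positivity)]
    calc ∫⁻ x in C, ENNReal.ofReal ((1 / 2) * (max (τ x + τ x + (τ x + f₁ x)) 0) ^ 2) ∂(stdGaussian E)
        = ∫⁻ x, F x ∂(stdGaussian E) := (lintegral_indicator hCm _).symm
      _ = ∫⁻ y, ∫⁻ g, F (splitMap e₁ (g, y)) ∂(gaussianReal 0 1) ∂(stdGaussian E) :=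
          lintegral_split e₁ he₁ hFm
      _ ≤ _ := lintegral_mono hstep2
  have hreal : (∫ x in C, (1 / 2) * (max (τ x + τ x + (τ x + f₁ x)) 0) ^ 2 ∂(stdGaussian E)) ≤
      ∫ x, cG / α₁ * ((32 / 3) * (max (τ x) 0) ^ 3) ∂(stdGaussian E) := by
    refine (ENNReal.ofReal_le_ofReal_iff ?_).mp hmain
    exact integral_nonneg fun x => by
      show 0 ≤ cG / α₁ * ((32 / 3) * (max (τ x) 0) ^ 3)
      positivity
  have hconst : ∫ x, cG / α₁ * ((32 / 3) * (max (τ x) 0) ^ 3) ∂(stdGaussian E) =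
      cG / α₁ * ∫ x, (32 / 3) * (max (τ x) 0) ^ 3 ∂(stdGaussian E) := integral_const_mul _ _
  rw [hconst] at hreal
  calc _ ≤ cG ^ 2 / (α₂ * γ') * ∫ x in C, (1 / 2) * (max (τ x + τ x + (τ x + f₁ x)) 0) ^ 2
        ∂(stdGaussian E) := hstep1
    _ ≤ cG ^ 2 / (α₂ * γ') * (cG / α₁ * ∫ x, (32 / 3) * (max (τ x) 0) ^ 3 ∂(stdGaussian E)) :=
        mul_le_mul_of_nonneg_left hreal (by positivity)
    _ = _ := by
        field_simp

end Vale.Agent.Lib.P226
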