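import Vale.Agent.Lib.P226.X.Defs

/-!
Critical configurations: existence, the energy identities, and the removal inequalities.
-/

open MeasureTheory ProbabilityTheory Real Set Filter
open scoped RealInnerProductSpace ENNReal

namespace Vale.Agent.Lib.P226

variable {E : Type*} [NormedAddCommGroup E] [InnerProductSpace ℝ E] [FiniteDimensional ℝ E]
  [MeasurableSpace E] [BorelSpace E]

lemma t0_pos_M1 : 0 < t0 := by
  unfold t0
  have := Real.pi_pos
  positivity

/-! ### Elementary facts on `mx` -/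

section mxfacts

variable {ι : Type*}

lemma integrable_norm_gauss_M1 : Integrable (fun x : E => ‖x‖) (stdGaussian E) :=
  (IsGaussian.integrable_id (μ := stdGaussian E)).norm

omit [FiniteDimensional ℝ E] [MeasurableSpace E] [BorelSpace E] in
lemma mx_smul_M1 {S : Finset ι} (hS : S.Nonempty) (v : ι → E) (c : ℝ) (hc : 0 ≤ c) (x : E) :
    mx S hS (fun l => c • v l) x = c * mx S hS v x := by
  apply le_antisymm
  · apply mx_le
    intro l hl
    rw [inner_smul_left]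
    simp only [conj_trivial]
    exact mul_le_mul_of_nonneg_left (le_mx hS v x hl) hc
  · obtain ⟨l, hl, e⟩ := exists_mx_eq hS v x
    rw [e]
    have := le_mx hS (fun l => c • v l) x hl
    simp only [inner_smul_left, conj_trivial] at this
    exact this

omit [FiniteDimensional ℝ E] [MeasurableSpace E] [BorelSpace E] in
lemma abs_mx_sub_le_M1 {S : Finset ι} (hS : S.Nonempty) (v w : ι → E) (x : E) {C : ℝ}
    (h : ∀ l ∈ S, ‖v l - w l‖ ≤ C) :
    |mx S hS v x - mx S hS w x| ≤ C * ‖x‖ := by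
  have key : ∀ v w : ι → E, (∀ l ∈ S, ‖v l - w l‖ ≤ C) → mx S hS v x - mx S hS w x ≤ C * ‖x‖ := by
    intro v w h
    obtain ⟨l, hl, e⟩ := exists_mx_eq hS v x
    rw [e]
    have h1 := le_mx hS w x hl
    have h2 : ⟪v l, x⟫ - ⟪w l, x⟫ ≤ ‖v l - w l‖ * ‖x‖ := by
      rw [← inner_sub_left]
      exact real_inner_le_norm _ _
    have h3 : ‖v l - w l‖ * ‖x‖ ≤ C * ‖x‖ :=
      mul_le_mul_of_nonneg_right (h l hl) (norm_nonneg _)
    linarith
  rw [abs_le]
  constructor
  · have := key w v (fun l hl => by rw [norm_sub_rev]; exact h l hl)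
    linarith
  · exact key v w h

end mxfacts

/-! ### Existence of a critical configuration -/

/-- Extension by zero from the subtype. -/
noncomputable def extZ (S : Finset ℕ) (v : S → E) (l : ℕ) : E :=
  if h : l ∈ S then v ⟨l, h⟩ else 0

omit [FiniteDimensional ℝ E] [MeasurableSpace E] [BorelSpace E] in
lemma extZ_mem (S : Finset ℕ) (v : S → E) {l : ℕ} (h : l ∈ S) : extZ S v l = v ⟨l, h⟩ := by
  simp [extZ, h]

omit [FiniteDimensional ℝ E] [MeasurableSpace E] [BorelSpace E] in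
lemma sum_extZ (S : Finset ℕ) (v : S → E) :
    ∑ l ∈ S, ‖extZ S v l‖ ^ 2 = ∑ l : S, ‖v l‖ ^ 2 := by
  rw [← Finset.sum_coe_sort S]
  refine Finset.sum_congr rfl fun l _ => ?_
  rw [extZ_mem S v l.2]

/-- The mean of the maximum, as a function on the finite product. -/
noncomputable def PhiZ (S : Finset ℕ) (hS : S.Nonempty) (v : S → E) : ℝ :=
  ∫ x, mx S hS (extZ S v) x ∂(stdGaussian E)

lemma PhiZ_continuous (S : Finset ℕ) (hS : S.Nonempty) :
    Continuous (PhiZ S hS : (S → E) → ℝ) := by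
  set C : ℝ := ∫ x : E, ‖x‖ ∂(stdGaussian E) with hC
  have hC0 : 0 ≤ C := integral_nonneg fun x => norm_nonneg x
  have hl : LipschitzWith ⟨C, hC0⟩ (PhiZ S hS : (S → E) → ℝ) := by
    apply LipschitzWith.of_dist_le_mul
    intro v w
    rw [Real.dist_eq]
    unfold PhiZ
    rw [← integral_sub (integrable_mx hS _) (integrable_mx hS _)]
    refine (abs_integral_le_integral_abs).trans ?_
    have hb : ∀ x : E, |mx S hS (extZ S v) x - mx S hS (extZ S w) x| ≤ dist v w * ‖x‖ := by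
      intro x
      apply abs_mx_sub_le_M1
      intro l hl
      rw [extZ_mem S v hl, extZ_mem S w hl, ← dist_eq_norm]
      exact dist_le_pi_dist v w ⟨l, hl⟩
    have h2 : ∫ x, |mx S hS (extZ S v) x - mx S hS (extZ S w) x| ∂(stdGaussian E) ≤
        ∫ x, dist v w * ‖x‖ ∂(stdGaussian E) := by
      apply integral_mono_of_nonneg (Eventually.of_forall fun x => abs_nonneg _)
        (integrable_norm_gauss_M1.const_mul _) (Eventually.of_forall hb)
    refine h2.trans (le_of_eq ?_)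
    rw [integral_const_mul]
    show dist v w * C = C * dist v w
    ring
  exact hl.continuous

theorem exists_crit {n : ℕ} (_hn : 1 ≤ n) (hP : PB E n) {S : Finset ℕ} (hS : S.card = n + 1)
    {A : ℕ → Set E} (hA : Good S A) (hF : t0 < ∑ l ∈ S, ‖mom (A l)‖ ^ 2) :
    ∃ u : ℕ → E, Crit S u := by
  classical
  have hSne : S.Nonempty := by
    rw [← Finset.card_pos, hS]
    omega
  have ht0 := t0_pos_M1
  -- the compact set
  set K : Set (S → E) := {v | ∑ l : S, ‖v l‖ ^ 2 ≤ 1} with hK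
  have hKc : IsCompact K := by
    apply Metric.isCompact_of_isClosed_isBounded
    · exact isClosed_le (by fun_prop) continuous_const
    · rw [isBounded_iff_forall_norm_le]
      refine ⟨1, fun v hv => ?_⟩
      rw [pi_norm_le_iff_of_nonneg zero_le_one]
      intro l
      have h1 : ‖v l‖ ^ 2 ≤ ∑ l : S, ‖v l‖ ^ 2 :=
        Finset.single_le_sum (f := fun l => ‖v l‖ ^ 2) (fun l _ => by positivity) (Finset.mem_univ l)
      have h2 : ‖v l‖ ^ 2 ≤ 1 := h1.trans hv
      nlinarith [norm_nonneg (v l)]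
  have hK0 : K.Nonempty := ⟨0, by simp [hK]⟩
  obtain ⟨vs, hvs, hmax⟩ := hKc.exists_isMaxOn hK0 (PhiZ_continuous S hSne).continuousOn
  set M := PhiZ S hSne vs with hM
  set F := ∑ l ∈ S, ‖mom (A l)‖ ^ 2 with hFd
  have hF0 : 0 < F := ht0.trans hF
  -- scaled test point
  have hscale : ∀ (w : ℕ → E) (c : ℝ), 0 ≤ c → c ^ 2 * ∑ l ∈ S, ‖w l‖ ^ 2 ≤ 1 →
      c * ∫ x, mx S hSne w x ∂(stdGaussian E) ≤ M := by
    intro w c hc hw
    set v : S → E := fun l => c • w l with hv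
    have hvK : v ∈ K := by
      show ∑ l : S, ‖c • w l‖ ^ 2 ≤ 1
      have e : ∑ l : S, ‖c • w l‖ ^ 2 = c ^ 2 * ∑ l ∈ S, ‖w l‖ ^ 2 := by
        rw [← Finset.sum_coe_sort S, Finset.mul_sum]
        refine Finset.sum_congr rfl fun l _ => ?_
        rw [norm_smul, Real.norm_of_nonneg hc]
        ring
      rw [e]
      exact hw
    have h1 : PhiZ S hSne v ≤ M := hmax hvK
    refine le_trans (le_of_eq ?_) h1
    unfold PhiZ
    have e : ∀ x, mx S hSne (extZ S v) x = c * mx S hSne w x := by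
      intro x
      rw [← mx_smul_M1 hSne w c hc x]
      unfold mx
      refine Finset.sup'_congr hSne rfl fun l hl => ?_
      rw [extZ_mem S v hl]
    simp_rw [e]
    rw [integral_const_mul]
  -- lower bound for M
  have hMF : Real.sqrt F ≤ M := by
    have h1 := hscale (fun l => mom (A l)) (Real.sqrt F)⁻¹ (by positivity) (by
      rw [inv_pow, Real.sq_sqrt hF0.le, ← hFd]
      exact le_of_eq (inv_mul_cancel₀ hF0.ne'))
    have h2 := sum_sq_le_integral_mx hA hSne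
    have hs : 0 < Real.sqrt F := Real.sqrt_pos.2 hF0
    have h3 : (Real.sqrt F)⁻¹ * F ≤ (Real.sqrt F)⁻¹ * ∫ x, mx S hSne (fun l => mom (A l)) x ∂(stdGaussian E) :=
      mul_le_mul_of_nonneg_left h2 (by positivity)
    have h4 : (Real.sqrt F)⁻¹ * F = Real.sqrt F := by
      field_simp
      rw [Real.sq_sqrt hF0.le]
    linarith
  have hM0 : 0 < M := (Real.sqrt_pos.2 hF0).trans_le hMF
  have hM2 : t0 < M ^ 2 := by
    have h1 : F ≤ M ^ 2 := by
      have := pow_le_pow_left₀ (Real.sqrt_nonneg F) hMF 2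
      rwa [Real.sq_sqrt hF0.le] at this
    linarith
  -- moments at the maximizer
  set vh : ℕ → E := extZ S vs with hvh
  have hvs1 : ∑ l ∈ S, ‖vh l‖ ^ 2 ≤ 1 := by
    rw [hvh, sum_extZ]
    exact hvs
  set z : ℕ → E := fun l => mom (vor S vh l) with hz
  have hg := vor_good S vh hSne
  set Z := ∑ l ∈ S, ‖z l‖ ^ 2 with hZ
  have hZ0 : 0 ≤ Z := Finset.sum_nonneg fun l _ => by positivity
  have hMe : M = ∑ l ∈ S, ⟪vh l, z l⟫ := integral_mx_eq hSne vh
  -- `Z ≤ M ^ 2`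
  have hZM : Z ≤ M ^ 2 := by
    have h1 := sum_sq_le_integral_mx hg hSne
    rcases hZ0.eq_or_lt with h0 | hpos
    · rw [← h0]
      positivity
    · have hs : 0 < Real.sqrt Z := Real.sqrt_pos.2 hpos
      have h2 := hscale z (Real.sqrt Z)⁻¹ (by positivity) (by
        rw [inv_pow, Real.sq_sqrt hZ0, ← hZ]
        exact le_of_eq (inv_mul_cancel₀ hpos.ne'))
      have h3 : (Real.sqrt Z)⁻¹ * Z ≤ (Real.sqrt Z)⁻¹ * ∫ x, mx S hSne z x ∂(stdGaussian E) :=
        mul_le_mul_of_nonneg_left h1 (by positivity)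
      have h4 : (Real.sqrt Z)⁻¹ * Z = Real.sqrt Z := by
        field_simp
        rw [Real.sq_sqrt hZ0]
      have h5 : Real.sqrt Z ≤ M := by linarith
      have := pow_le_pow_left₀ (Real.sqrt_nonneg Z) h5 2
      rwa [Real.sq_sqrt hZ0] at this
  -- equality in Cauchy-Schwarz
  have hdist : ∑ l ∈ S, ‖z l - M • vh l‖ ^ 2 ≤ 0 := by
    have e : ∀ l, ‖z l - M • vh l‖ ^ 2 =
        ‖z l‖ ^ 2 - 2 * M * ⟪vh l, z l⟫ + M ^ 2 * ‖vh l‖ ^ 2 := by
      intro l
      rw [@norm_sub_sq_real, norm_smul, Real.norm_of_nonneg hM0.le, inner_smul_right,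
        real_inner_comm]
      ring
    simp_rw [e]
    rw [Finset.sum_add_distrib, Finset.sum_sub_distrib, ← Finset.mul_sum, ← Finset.mul_sum, ← hMe]
    have h1 : M ^ 2 * ∑ l ∈ S, ‖vh l‖ ^ 2 ≤ M ^ 2 * 1 :=
      mul_le_mul_of_nonneg_left hvs1 (by positivity)
    rw [← hZ]
    linarith
  have heq : ∀ l ∈ S, z l = M • vh l := by
    intro l hl
    have h0 : ∑ l ∈ S, ‖z l - M • vh l‖ ^ 2 = 0 :=
      le_antisymm hdist (Finset.sum_nonneg fun l _ => by positivity)
    have h1 := (Finset.sum_eq_zero_iff_of_nonneg (fun l _ => by positivity)).1 h0 l hl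
    have h2 : ‖z l - M • vh l‖ = 0 := by
      simpa using h1
    exact sub_eq_zero.1 (norm_eq_zero.1 h2)
  -- the critical configuration
  set u : ℕ → E := fun l => M • vh l with hu
  have hvor : ∀ l, vor S u l = vor S vh l := by
    intro l
    ext x
    simp only [vor, mem_ofPred_eq, hu, inner_smul_left, conj_trivial]
    constructor
    · rintro ⟨h1, h2⟩
      exact ⟨fun n hn => le_of_mul_le_mul_left (h1 n hn) hM0,
        fun n hn hlt => lt_of_mul_lt_mul_left (h2 n hn hlt) hM0.le⟩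
    · rintro ⟨h1, h2⟩
      exact ⟨fun n hn => mul_le_mul_of_nonneg_left (h1 n hn) hM0.le,
        fun n hn hlt => mul_lt_mul_of_pos_left (h2 n hn hlt) hM0⟩
  have hfix : ∀ l ∈ S, mom (vor S u l) = u l := by
    intro l hl
    rw [hvor]
    exact heq l hl
  have hsum : ∑ l ∈ S, ‖u l‖ ^ 2 = Z := by
    rw [hZ]
    refine Finset.sum_congr rfl fun l hl => ?_
    rw [heq l hl]
  -- `M ^ 2 ≤ Z`
  have hMZ : M ^ 2 ≤ Z := by
    have h1 : M ≤ Real.sqrt Z := by
      have h2 := Finset.sum_mul_sq_le_sq_mul_sq S (fun l => ‖vh l‖) (fun l => ‖z l‖)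
      have h3 : M ≤ ∑ l ∈ S, ‖vh l‖ * ‖z l‖ := by
        rw [hMe]
        exact Finset.sum_le_sum fun l _ => real_inner_le_norm _ _
      have h4 : M ^ 2 ≤ Z := by
        calc M ^ 2 ≤ (∑ l ∈ S, ‖vh l‖ * ‖z l‖) ^ 2 := pow_le_pow_left₀ hM0.le h3 2
          _ ≤ (∑ l ∈ S, ‖vh l‖ ^ 2) * ∑ l ∈ S, ‖z l‖ ^ 2 := h2
          _ ≤ 1 * Z := mul_le_mul_of_nonneg_right hvs1 hZ0
          _ = Z := one_mul _
      exact Real.le_sqrt_of_sq_le h4
    have := pow_le_pow_left₀ hM0.le h1 2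
    rwa [Real.sq_sqrt hZ0] at this
  refine ⟨u, hfix, ?_, ?_⟩
  · rw [hsum]
    linarith
  · intro a ha b hb hab
    have hgu := vor_good S u hSne
    have h1 := merge_sum hgu ha hb hab
    have hcard : (S.erase b).card ≤ n := by
      rw [Finset.card_erase_of_mem hb, hS]
      omega
    have h2 := hP (S.erase b) hcard _ (merge_good hgu ha hb hab)
    rw [h1, hfix a ha, hfix b hb] at h2
    have h3 : ∑ l ∈ S, ‖mom (vor S u l)‖ ^ 2 = ∑ l ∈ S, ‖u l‖ ^ 2 :=
      Finset.sum_congr rfl fun l hl => by rw [hfix l hl]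
    rw [h3, hsum] at h2
    linarith

/-! ### Consequences of criticality -/

variable {S : Finset ℕ} {u : ℕ → E}

lemma Crit.sum_eq_zero (h : Crit S u) (hS : S.Nonempty) : ∑ l ∈ S, u l = 0 := by
  have h1 := sum_mom_eq_zero (vor_good S u hS)
  rw [← h1]
  exact Finset.sum_congr rfl fun l hl => (h.fixed l hl).symm

lemma Crit.integral_mx (h : Crit S u) (hS : S.Nonempty) :
    ∫ x, mx S hS u x ∂(stdGaussian E) = ∑ l ∈ S, ‖u l‖ ^ 2 := by
  rw [integral_mx_eq hS u]
  refine Finset.sum_congr rfl fun l hl => ?_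
  rw [h.fixed l hl, real_inner_self_eq_norm_sq]

lemma Crit.sum_area (_h : Crit S u) (hS : S.Nonempty) : ∑ l ∈ S, area S u l = 1 := by
  have h1 := (vor_good S u hS).integral_eq (fun _ => (1 : ℝ)) (integrable_const 1)
  simp_rw [setIntegral_const] at h1
  simp only [integral_const, smul_eq_mul, mul_one, probReal_univ] at h1
  exact h1.symm

/-- degree identity -/
lemma Crit.degree (h : Crit S u) {a : ℕ} (ha : a ∈ S) :
    ‖u a‖ ^ 2 = ∑ b ∈ S.erase a, (-⟪u a, u b⟫) := by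
  have h0 := h.sum_eq_zero ⟨a, ha⟩
  have h1 : ⟪u a, ∑ l ∈ S, u l⟫ = 0 := by
    rw [h0, inner_zero_right]
  rw [inner_sum, ← Finset.add_sum_erase S _ ha, real_inner_self_eq_norm_sq] at h1
  rw [Finset.sum_neg_distrib]
  linarith

/-- Laplacian identity -/
lemma Crit.energy (h : Crit S u) (p : ℕ → ℝ) :
    ‖∑ l ∈ S, p l • u l‖ ^ 2 = (1 / 2) * ∑ a ∈ S, ∑ b ∈ S, (-⟪u a, u b⟫) * (p a - p b) ^ 2 := by
  rcases S.eq_empty_or_nonempty with rfl | hS
  · simp
  have h0 := h.sum_eq_zero hS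
  have hz : ∀ a, ∑ b ∈ S, ⟪u a, u b⟫ = 0 := fun a => by
    rw [← inner_sum, h0, inner_zero_right]
  have hz' : ∀ b, ∑ a ∈ S, ⟪u a, u b⟫ = 0 := fun b => by
    rw [← sum_inner, h0, inner_zero_left]
  have e1 : ‖∑ l ∈ S, p l • u l‖ ^ 2 = ∑ a ∈ S, ∑ b ∈ S, p a * p b * ⟪u a, u b⟫ := by
    rw [← real_inner_self_eq_norm_sq, sum_inner]
    refine Finset.sum_congr rfl fun a _ => ?_
    rw [inner_sum]
    refine Finset.sum_congr rfl fun b _ => ?_
    rw [inner_smul_left, inner_smul_right]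
    simp only [conj_trivial]
    ring
  have e2 : ∀ a b, (-⟪u a, u b⟫) * (p a - p b) ^ 2 =
      -(p a ^ 2 * ⟪u a, u b⟫) + 2 * (p a * p b * ⟪u a, u b⟫) - p b ^ 2 * ⟪u a, u b⟫ := by
    intro a b
    ring
  simp_rw [e2, Finset.sum_sub_distrib, Finset.sum_add_distrib, Finset.sum_neg_distrib,
    ← Finset.mul_sum, hz, mul_zero]
  have e3 : ∑ a ∈ S, ∑ b ∈ S, p b ^ 2 * ⟪u a, u b⟫ = 0 := by
    rw [Finset.sum_comm]
    refine Finset.sum_eq_zero fun b _ => ?_
    rw [← Finset.mul_sum, hz', mul_zero]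
  rw [e3, e1]
  simp

omit [FiniteDimensional ℝ E] [MeasurableSpace E] [BorelSpace E] in
lemma crit_term_nonneg (hneg : ∀ a ∈ S, ∀ b ∈ S, a ≠ b → ⟪u a, u b⟫ < 0) (p : ℕ → ℝ) {a b : ℕ}
    (ha : a ∈ S) (hb : b ∈ S) : 0 ≤ (-⟪u a, u b⟫) * (p a - p b) ^ 2 := by
  by_cases hab : a = b
  · subst hab
    simp
  · have := hneg a ha b hb hab
    apply mul_nonneg (by linarith) (sq_nonneg _)

/-- Lower bound for the energy from the edges between four distinct nodes -/
lemma Crit.energy_ge_four (h : Crit S u) (p : ℕ → ℝ) {i j r t : ℕ} (hi : i ∈ S) (hj : j ∈ S)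
    (hr : r ∈ S) (ht : t ∈ S) (hij : i ≠ j) (hir : i ≠ r) (hit : i ≠ t) (hjr : j ≠ r)
    (hjt : j ≠ t) (hrt : r ≠ t) :
    (-⟪u i, u j⟫) * (p i - p j) ^ 2 + (-⟪u i, u r⟫) * (p i - p r) ^ 2
      + (-⟪u i, u t⟫) * (p i - p t) ^ 2 + (-⟪u j, u r⟫) * (p j - p r) ^ 2
      + (-⟪u j, u t⟫) * (p j - p t) ^ 2 + (-⟪u r, u t⟫) * (p r - p t) ^ 2
      ≤ ‖∑ l ∈ S, p l • u l‖ ^ 2 := by
  classical
  rw [h.energy p]
  set T : Finset ℕ := {i, j, r, t} with hT
  have hTS : T ⊆ S := by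
    intro l hl
    simp only [hT, Finset.mem_insert, Finset.mem_singleton] at hl
    rcases hl with rfl | rfl | rfl | rfl <;> assumption
  have hnn := fun a ha b hb => crit_term_nonneg (u := u) h.neg p (a := a) (b := b) ha hb
  have h1 : ∑ a ∈ T, ∑ b ∈ T, (-⟪u a, u b⟫) * (p a - p b) ^ 2 ≤
      ∑ a ∈ S, ∑ b ∈ S, (-⟪u a, u b⟫) * (p a - p b) ^ 2 := by
    calc ∑ a ∈ T, ∑ b ∈ T, (-⟪u a, u b⟫) * (p a - p b) ^ 2
        ≤ ∑ a ∈ T, ∑ b ∈ S, (-⟪u a, u b⟫) * (p a - p b) ^ 2 := by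
          refine Finset.sum_le_sum fun a ha => ?_
          exact Finset.sum_le_sum_of_subset_of_nonneg hTS fun b hb _ => hnn a (hTS ha) b hb
      _ ≤ _ := by
          refine Finset.sum_le_sum_of_subset_of_nonneg hTS fun a ha _ => ?_
          exact Finset.sum_nonneg fun b hb => hnn a ha b hb
  have h2 : ∑ a ∈ T, ∑ b ∈ T, (-⟪u a, u b⟫) * (p a - p b) ^ 2 =
      2 * ((-⟪u i, u j⟫) * (p i - p j) ^ 2 + (-⟪u i, u r⟫) * (p i - p r) ^ 2
      + (-⟪u i, u t⟫) * (p i - p t) ^ 2 + (-⟪u j, u r⟫) * (p j - p r) ^ 2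
      + (-⟪u j, u t⟫) * (p j - p t) ^ 2 + (-⟪u r, u t⟫) * (p r - p t) ^ 2) := by
    rw [hT]
    simp only [Finset.sum_insert, Finset.mem_insert, Finset.mem_singleton, hij, hir, hit, hjr, hjt,
      hrt, not_false_eq_true, or_self, Finset.sum_singleton, sub_self, ne_eq,
      OfNat.ofNat_ne_zero, zero_pow, mul_zero, add_zero, zero_add]
    rw [real_inner_comm (u i) (u j), real_inner_comm (u i) (u r), real_inner_comm (u i) (u t),
      real_inner_comm (u j) (u r), real_inner_comm (u j) (u t), real_inner_comm (u r) (u t)]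
    ring
  rw [h2] at h1
  linarith

/-- A linear relation among the `u l` has constant coefficients. -/
lemma Crit.coeff_const (h : Crit S u) (p : ℕ → ℝ) (hp : ∑ l ∈ S, p l • u l = 0) {a b : ℕ}
    (ha : a ∈ S) (hb : b ∈ S) : p a = p b := by
  by_contra hne
  have hab : a ≠ b := fun e => hne (by rw [e])
  have h1 := h.energy p
  rw [hp, norm_zero] at h1
  have hnn := fun a ha b hb => crit_term_nonneg (u := u) h.neg p (a := a) (b := b) ha hb
  have h2 : (-⟪u a, u b⟫) * (p a - p b) ^ 2 ≤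
      ∑ a ∈ S, ∑ b ∈ S, (-⟪u a, u b⟫) * (p a - p b) ^ 2 := by
    calc (-⟪u a, u b⟫) * (p a - p b) ^ 2 ≤ ∑ b ∈ S, (-⟪u a, u b⟫) * (p a - p b) ^ 2 :=
          Finset.single_le_sum (f := fun b => (-⟪u a, u b⟫) * (p a - p b) ^ 2)
            (fun b hb => hnn a ha b hb) hb
      _ ≤ _ := Finset.single_le_sum (f := fun a => ∑ b ∈ S, (-⟪u a, u b⟫) * (p a - p b) ^ 2)
            (fun a ha => Finset.sum_nonneg fun b hb => hnn a ha b hb) ha
  have h3 := h.neg a ha b hb hab
  have h4 : 0 < (p a - p b) ^ 2 := by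
    have : p a - p b ≠ 0 := sub_ne_zero.2 hne
    positivity
  have h5 : 0 < (-⟪u a, u b⟫) * (p a - p b) ^ 2 := mul_pos (by linarith) h4
  rw [zero_pow two_ne_zero] at h1
  linarith

/-- The norm of a sum over a subset is at most the sum of squares of norms. -/
lemma Crit.norm_sum_sq_le (h : Crit S u) (T : Finset ℕ) (hT : T ⊆ S) :
    ‖∑ l ∈ T, u l‖ ^ 2 ≤ ∑ l ∈ T, ‖u l‖ ^ 2 := by
  classical
  induction T using Finset.induction_on with
  | empty => simp
  | insert a T ha ih =>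
    rw [Finset.sum_insert ha, Finset.sum_insert ha, @norm_add_sq_real]
    have h1 := ih ((Finset.subset_insert a T).trans hT)
    have h2 : ⟪u a, ∑ l ∈ T, u l⟫ ≤ 0 := by
      rw [inner_sum]
      refine Finset.sum_nonpos fun b hb => ?_
      have hne : a ≠ b := fun e => ha (e ▸ hb)
      exact (h.neg a (hT (Finset.mem_insert_self a T)) b
        (hT (Finset.mem_insert_of_mem hb)) hne).le
    linarith

/-! ### Removal -/

/-- The general removal inequality -/
theorem removal_gen {n : ℕ} (hP : PB E n) (h : Crit S u) {B : Finset ℕ} (hB : B.Nonempty)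
    (hc : B.card ≤ n) (v : ℕ → E) {e D : ℝ}
    (h1 : ∑ i ∈ B, ‖v i‖ ^ 2 ≤ (∑ l ∈ S, ‖u l‖ ^ 2) - e)
    (h2 : (∑ l ∈ S, ‖u l‖ ^ 2) - D ≤ ∫ x, mx B hB v x ∂(stdGaussian E))
    (hD0 : 0 ≤ D) (hD : D ≤ t0 / 2) : e ≤ 2 * D - D ^ 2 / t0 := by
  have ht0 := t0_pos_M1
  set T := ∑ l ∈ S, ‖u l‖ ^ 2 with hT
  have hbig : t0 < T := h.big
  set X := ∫ x, mx B hB v x ∂(stdGaussian E) with hX
  have h3 := voronoi_bound hB v
  rw [← hX] at h3
  have h4 : ∑ l ∈ B, ‖mom (vor B v l)‖ ^ 2 ≤ t0 := hP B hc _ (vor_good B v hB)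
  have hS0 : 0 ≤ ∑ i ∈ B, ‖v i‖ ^ 2 := Finset.sum_nonneg fun l _ => by positivity
  have h5 : X ^ 2 ≤ (T - e) * t0 := by
    calc X ^ 2 ≤ (∑ l ∈ B, ‖v l‖ ^ 2) * ∑ l ∈ B, ‖mom (vor B v l)‖ ^ 2 := h3
      _ ≤ (∑ l ∈ B, ‖v l‖ ^ 2) * t0 := mul_le_mul_of_nonneg_left h4 hS0
      _ ≤ (T - e) * t0 := mul_le_mul_of_nonneg_right h1 ht0.le
  have h6 : (T - D) ^ 2 ≤ X ^ 2 := pow_le_pow_left₀ (by linarith) h2 2
  have h7 : (T - D) ^ 2 ≤ (T - e) * t0 := h6.trans h5
  -- monotonicity in `T`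
  have h8 : (t0 - D) ^ 2 ≤ (t0 - e) * t0 := by
    have h9 : 0 ≤ (T - t0) * (T - 2 * D) := by
      apply mul_nonneg (by linarith) (by linarith)
    nlinarith
  have h10 : e * t0 ≤ 2 * D * t0 - D ^ 2 := by nlinarith
  rw [le_sub_iff_add_le, ← le_sub_iff_add_le', div_le_iff₀ ht0]
  nlinarith

/-- Competitor integral: for a subset `B` of `S` and `v i = u i + τ i • n`. -/
theorem comp_integral (h : Crit S u) {B : Finset ℕ} (hB : B.Nonempty) (hBS : B ⊆ S) (n : E)
    (τ : ℕ → ℝ) :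
    (∑ l ∈ S, ‖u l‖ ^ 2) + ∑ i ∈ B, τ i * ⟪u i, n⟫
        - ∑ l ∈ S \ B, ∫ x, max (⟪u l, x⟫ - mx B hB (fun i => u i + τ i • n) x) 0 ∂(stdGaussian E)
      ≤ ∫ x, mx B hB (fun i => u i + τ i • n) x ∂(stdGaussian E) := by
  classical
  have hSne : S.Nonempty := hB.mono hBS
  set v : ℕ → E := fun i => u i + τ i • n with hv
  have hg := vor_good S u hSne
  have hmI := integrable_mx hB v
  rw [hg.integral_eq _ hmI, ← Finset.sum_sdiff hBS, add_comm (∑ l ∈ S \ B, _)]
  have hpart1 : ∀ i ∈ B, ‖u i‖ ^ 2 + τ i * ⟪u i, n⟫ ≤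
      ∫ x in vor S u i, mx B hB v x ∂(stdGaussian E) := by
    intro i hi
    have h1 : ∫ x in vor S u i, ⟪v i, x⟫ ∂(stdGaussian E) = ‖u i‖ ^ 2 + τ i * ⟪u i, n⟫ := by
      rw [setIntegral_inner, h.fixed i (hBS hi), hv]
      simp only [inner_add_left, inner_smul_left, conj_trivial, real_inner_self_eq_norm_sq]
      rw [real_inner_comm]
    rw [← h1]
    apply setIntegral_mono (integrable_inner _).integrableOn hmI.integrableOn
    intro x
    exact le_mx hB v x hi
  have hpart2 : ∀ l ∈ S \ B, ‖u l‖ ^ 2 -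
      ∫ x, max (⟪u l, x⟫ - mx B hB v x) 0 ∂(stdGaussian E) ≤
      ∫ x in vor S u l, mx B hB v x ∂(stdGaussian E) := by
    intro l hl
    have hlS := (Finset.mem_sdiff.1 hl).1
    have hmaxI : Integrable (fun x => max (⟪u l, x⟫ - mx B hB v x) 0) (stdGaussian E) :=
      ((integrable_inner (u l)).sub hmI).sup (integrable_const 0)
    have h1 : ∫ x in vor S u l, ⟪u l, x⟫ ∂(stdGaussian E) = ‖u l‖ ^ 2 := by
      rw [setIntegral_inner, h.fixed l hlS, real_inner_self_eq_norm_sq]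
    have h2 : ∫ x in vor S u l, max (⟪u l, x⟫ - mx B hB v x) 0 ∂(stdGaussian E) ≤
        ∫ x, max (⟪u l, x⟫ - mx B hB v x) 0 ∂(stdGaussian E) :=
      setIntegral_le_integral hmaxI (Eventually.of_forall fun x => le_max_right _ _)
    have h3 : ∫ x in vor S u l, ⟪u l, x⟫ ∂(stdGaussian E) -
        ∫ x in vor S u l, max (⟪u l, x⟫ - mx B hB v x) 0 ∂(stdGaussian E) ≤
        ∫ x in vor S u l, mx B hB v x ∂(stdGaussian E) := by
      rw [← integral_sub (integrable_inner _).integrableOn hmaxI.integrableOn]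
      apply setIntegral_mono (((integrable_inner _).sub hmaxI).integrableOn) hmI.integrableOn
      intro x
      have := le_max_left (⟪u l, x⟫ - mx B hB v x) 0
      show ⟪u l, x⟫ - max (⟪u l, x⟫ - mx B hB v x) 0 ≤ mx B hB v x
      linarith
    rw [h1] at h3
    linarith
  have hs1 := Finset.sum_le_sum hpart1
  have hs2 := Finset.sum_le_sum hpart2
  rw [Finset.sum_add_distrib] at hs1
  rw [Finset.sum_sub_distrib] at hs2
  rw [← Finset.sum_sdiff hBS]
  linarith

/-- `mx` of a constant shift. -/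
lemma mx_add_const_M1 {ι : Type*} {S : Finset ι} (hS : S.Nonempty) (v : ι → E) (w x : E) :
    mx S hS (fun i => v i + w) x = mx S hS v x + ⟪w, x⟫ := by
  apply le_antisymm
  · apply mx_le
    intro l hl
    rw [inner_add_left]
    have := le_mx hS v x hl
    linarith
  · obtain ⟨l, hl, e⟩ := exists_mx_eq hS v x
    rw [e]
    have := le_mx hS (fun i => v i + w) x hl
    simp only [inner_add_left] at this
    exact this

/-- The maximum over `S` in terms of the maximum over `S.erase m`. -/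
lemma mx_erase_M1 {S : Finset ℕ} {m : ℕ} (hm : m ∈ S) (hS : S.Nonempty) (hne : (S.erase m).Nonempty)
    (u : ℕ → E) (x : E) :
    mx S hS u x = mx (S.erase m) hne u x + max (⟪u m, x⟫ - mx (S.erase m) hne u x) 0 := by
  apply le_antisymm
  · apply mx_le
    intro l hl
    by_cases hlm : l = m
    · subst hlm
      have := le_max_left (⟪u l, x⟫ - mx (S.erase l) hne u x) 0
      linarith
    · have h1 := le_mx hne u x (Finset.mem_erase.2 ⟨hlm, hl⟩)
      have := le_max_right (⟪u m, x⟫ - mx (S.erase m) hne u x) 0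
      linarith
  · have h1 := le_mx hS u x hm
    have h2 : mx (S.erase m) hne u x ≤ mx S hS u x :=
      mx_le hne u x fun l hl => le_mx hS u x (Finset.mem_of_mem_erase hl)
    rcases le_total (⟪u m, x⟫ - mx (S.erase m) hne u x) 0 with h3 | h3
    · rw [max_eq_right h3]
      linarith
    · rw [max_eq_left h3]
      linarith

/-- Removal of one cell. -/
theorem removal_cell {k : ℕ} (hP : PB E k) (h : Crit S u) (hk : S.card = k + 1) (hk1 : 1 ≤ k)
    {m : ℕ} (hm : m ∈ S) (hne : (S.erase m).Nonempty) {D : ℝ} (hΔ : Delta S u m hne ≤ D)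
    (hD : D ≤ t0 / 2) :
    (((k : ℝ) + 1) / k) * ‖u m‖ ^ 2 ≤ 2 * D - D ^ 2 / t0 := by
  classical
  have hS : S.Nonempty := ⟨m, hm⟩
  have hk0 : (0 : ℝ) < k := by exact_mod_cast hk1
  set B := S.erase m with hB
  set v : ℕ → E := fun i => u i + (1 / (k : ℝ)) • u m with hv
  have hBcard : B.card ≤ k := by
    rw [hB, Finset.card_erase_of_mem hm, hk]
    omega
  have hBcard' : (B.card : ℝ) = k := by
    rw [hB, Finset.card_erase_of_mem hm, hk]
    simp
  have hsum0 := h.sum_eq_zero hS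
  have hsumB : ∑ i ∈ B, u i = - u m := by
    have := Finset.add_sum_erase S u hm
    rw [hsum0] at this
    exact eq_neg_of_add_eq_zero_right this
  have hD0 : 0 ≤ D := by
    refine le_trans ?_ hΔ
    exact integral_nonneg fun x => le_max_right _ _
  have h1 : ∑ i ∈ B, ‖v i‖ ^ 2 =
      (∑ l ∈ S, ‖u l‖ ^ 2) - (((k : ℝ) + 1) / k) * ‖u m‖ ^ 2 := by
    have e : ∀ i, ‖v i‖ ^ 2 = ‖u i‖ ^ 2 + (2 / (k : ℝ)) * ⟪u i, u m⟫ +
        (1 / (k : ℝ)) ^ 2 * ‖u m‖ ^ 2 := by
      intro i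
      simp only [hv]
      rw [@norm_add_sq_real, norm_smul, inner_smul_right,
        Real.norm_of_nonneg (by positivity : (0:ℝ) ≤ 1 / k)]
      ring
    simp_rw [e]
    rw [Finset.sum_add_distrib, Finset.sum_add_distrib, ← Finset.mul_sum, ← sum_inner, hsumB,
      Finset.sum_const, inner_neg_left, real_inner_self_eq_norm_sq, nsmul_eq_mul, hBcard',
      ← Finset.add_sum_erase S (fun l => ‖u l‖ ^ 2) hm]
    field_simp
    ring
  have h2 : (∑ l ∈ S, ‖u l‖ ^ 2) - D ≤ ∫ x, mx B hne v x ∂(stdGaussian E) := by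
    have e1 : ∀ x, mx B hne v x = mx B hne u x + (1 / (k : ℝ)) * ⟪u m, x⟫ := by
      intro x
      rw [hv, mx_add_const_M1, inner_smul_left]
      simp
    simp_rw [e1]
    rw [integral_add (integrable_mx hne u) ((integrable_inner _).const_mul _), integral_const_mul,
      integral_inner_eq_zero, mul_zero, add_zero]
    have e2 := h.integral_mx hS
    have hmaxI : Integrable (fun x => max (⟪u m, x⟫ - mx B hne u x) 0) (stdGaussian E) :=
      ((integrable_inner (u m)).sub (integrable_mx hne u)).sup (integrable_const 0)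
    have e3 : ∫ x, mx S hS u x ∂(stdGaussian E) = ∫ x, mx B hne u x ∂(stdGaussian E) +
        ∫ x, max (⟪u m, x⟫ - mx B hne u x) 0 ∂(stdGaussian E) := by
      rw [← integral_add (integrable_mx hne u) hmaxI]
      exact integral_congr_ae (Eventually.of_forall fun x => mx_erase_M1 hm hS hne u x)
    have e4 : ∫ x, max (⟪u m, x⟫ - mx B hne u x) 0 ∂(stdGaussian E) ≤ D := hΔ
    linarith
  exact removal_gen hP h hne hBcard v h1.le h2 hD0 hD

end Vale.Agent.Lib.P226
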