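import Mathlib

/-!
Numerical part of the two-term bound of the Gaussian propeller reduction: a rational function of
two variables is bounded by `45` on a rectangle, by separate convexity on finitely many boxes.
-/

namespace Vale.Agent.Lib.P226

/-- The upper bound obtained from tangents with parameters `m` and `t`. -/
noncomputable def gfun (m t B q : ℝ) : ℝ :=
  (B ^ 2 + 16 - 8 * q) * ((B ^ 2 + 16 - 8 * q) + m ^ 2) / (2 * m)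
    - 64 * ((3 / 2) * t * (B ^ 2 + 1 - 2 * q) - t ^ 3 / 2)
    + 63 * B ^ 3 - 180 * q * B + 72 * B + 72 * q ^ 2 / B

/-- A convex quadratic on an interval is bounded by its values at the endpoints. -/
lemma quad_le_of_ends {a b c q₁ q₂ q M : ℝ} (ha : 0 ≤ a) (h1 : q₁ ≤ q) (h2 : q ≤ q₂)
    (hq₁ : a * q₁ ^ 2 + b * q₁ + c ≤ M) (hq₂ : a * q₂ ^ 2 + b * q₂ + c ≤ M) :
    a * q ^ 2 + b * q + c ≤ M := by
  rcases eq_or_lt_of_le (h1.trans h2) with h | h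
  · have e1 : q = q₁ := le_antisymm (by rw [h]; exact h2) h1
    rw [e1]; exact hq₁
  have hw : 0 < q₂ - q₁ := by linarith
  have key : (q₂ - q₁) * (a * q ^ 2 + b * q + c) ≤ (q₂ - q₁) * M := by
    have e : (q₂ - q) * (a * q₁ ^ 2 + b * q₁ + c) + (q - q₁) * (a * q₂ ^ 2 + b * q₂ + c)
        - (q₂ - q₁) * (a * q ^ 2 + b * q + c) = a * ((q - q₁) * (q₂ - q) * (q₂ - q₁)) := by ring
    have e2 : 0 ≤ a * ((q - q₁) * (q₂ - q) * (q₂ - q₁)) :=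
      mul_nonneg ha (mul_nonneg (mul_nonneg (by linarith) (by linarith)) hw.le)
    have e3 := mul_le_mul_of_nonneg_left hq₁ (by linarith : 0 ≤ q₂ - q)
    have e4 := mul_le_mul_of_nonneg_left hq₂ (by linarith : 0 ≤ q - q₁)
    nlinarith
  exact le_of_mul_le_mul_left key hw

lemma gfun_quad (m t B q : ℝ) (hm : 0 < m) (hB : 0 < B) :
    gfun m t B q = (32 / m + 72 / B) * q ^ 2
      + (-(8 * (2 * (B ^ 2 + 16) + m ^ 2)) / (2 * m) + 192 * t - 180 * B) * q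
      + ((B ^ 2 + 16) * (B ^ 2 + 16 + m ^ 2) / (2 * m) - 96 * t * (B ^ 2 + 1) + 32 * t ^ 3
        + 63 * B ^ 3 + 72 * B) := by
  unfold gfun
  field_simp
  ring

/-- Chord inequality in `B`. -/
lemma gfun_chord {m t B₁ B₂ B q : ℝ} (hm : 0 < m) (hB₁ : 0 < B₁) (h1 : B₁ ≤ B) (h2 : B ≤ B₂)
    (hq2 : q ≤ 2) (ht : 96 * t ≤ 189 * B₁) :
    (B₂ - B₁) * gfun m t B q ≤ (B₂ - B) * gfun m t B₁ q + (B - B₁) * gfun m t B₂ q := by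
  have hB : 0 < B := lt_of_lt_of_le hB₁ h1
  have hB₂ : 0 < B₂ := lt_of_lt_of_le hB h2
  set D := 16 - 8 * q with hD
  have hD0 : 0 ≤ D := by rw [hD]; linarith
  have e : (B₂ - B) * gfun m t B₁ q + (B - B₁) * gfun m t B₂ q - (B₂ - B₁) * gfun m t B q =
      ((B - B₁) * (B₂ - B) * (B₂ - B₁)) * ((B ^ 2 + B * (B₁ + B₂) + B₁ ^ 2 + B₁ * B₂ + B₂ ^ 2) / (2 * m)
        + (2 * D + m ^ 2) / (2 * m) + (63 * (B + B₁ + B₂) - 96 * t)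
        + 72 * q ^ 2 / (B * B₁ * B₂)) := by
    unfold gfun
    rw [hD]
    field_simp
    ring
  have h3 : 0 ≤ (B ^ 2 + B * (B₁ + B₂) + B₁ ^ 2 + B₁ * B₂ + B₂ ^ 2) / (2 * m) := by positivity
  have h4 : 0 ≤ (2 * D + m ^ 2) / (2 * m) := by positivity
  have h5 : 0 ≤ 63 * (B + B₁ + B₂) - 96 * t := by nlinarith
  have h6 : 0 ≤ 72 * q ^ 2 / (B * B₁ * B₂) := by positivity
  have h7 : 0 ≤ (B - B₁) * (B₂ - B) * (B₂ - B₁) :=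
    mul_nonneg (mul_nonneg (by linarith) (by linarith)) (by linarith)
  have h8 := mul_nonneg h7 (add_nonneg (add_nonneg (add_nonneg h3 h4) h5) h6)
  linarith

/-- Four corners bound the box. -/
theorem box_bound {m t B₁ B₂ q₁ q₂ B q : ℝ} (hm : 0 < m) (ht : 0 < t) (hB₁ : 0 < B₁)
    (h1 : B₁ ≤ B) (h2 : B ≤ B₂) (h3 : q₁ ≤ q) (h4 : q ≤ q₂) (hq2 : q ≤ 2)
    (htB : 96 * t ≤ 189 * B₁)
    (c11 : gfun m t B₁ q₁ ≤ 45) (c12 : gfun m t B₁ q₂ ≤ 45)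
    (c21 : gfun m t B₂ q₁ ≤ 45) (c22 : gfun m t B₂ q₂ ≤ 45) :
    ∃ m t : ℝ, 0 < m ∧ 0 < t ∧ gfun m t B q ≤ 45 := by
  refine ⟨m, t, hm, ht, ?_⟩
  have hB₂ : 0 < B₂ := by linarith
  have hq : ∀ B' : ℝ, 0 < B' → gfun m t B' q₁ ≤ 45 → gfun m t B' q₂ ≤ 45 → gfun m t B' q ≤ 45 := by
    intro B' hB' h5 h6
    rw [gfun_quad m t B' q hm hB']
    rw [gfun_quad m t B' q₁ hm hB'] at h5
    rw [gfun_quad m t B' q₂ hm hB'] at h6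
    exact quad_le_of_ends (by positivity) h3 h4 h5 h6
  have e1 := hq B₁ hB₁ c11 c12
  have e2 := hq B₂ hB₂ c21 c22
  rcases eq_or_lt_of_le (h1.trans h2) with h | h
  · have e3 : B = B₁ := le_antisymm (by rw [h]; exact h2) h1
    rw [e3]; exact e1
  have hw : 0 < B₂ - B₁ := by linarith
  have key := gfun_chord hm hB₁ h1 h2 hq2 htB
  have e5 := mul_le_mul_of_nonneg_left e1 (by linarith : 0 ≤ B₂ - B)
  have e6 := mul_le_mul_of_nonneg_left e2 (by linarith : 0 ≤ B - B₁)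
  have : (B₂ - B₁) * gfun m t B q ≤ (B₂ - B₁) * 45 := by nlinarith
  exact le_of_mul_le_mul_left this hw

lemma leaf_0 (B q : ℝ) (a1 : (707/500:ℝ) ≤ B) (a2 : B ≤ (149/100:ℝ)) (a3 : (1:ℝ) ≤ q) (a4 : q ≤ (53/50:ℝ))
    (h4 : q ≤ (2 : ℝ)) : ∃ m t : ℝ, 0 < m ∧ 0 < t ∧ gfun m t B q ≤ 45 :=
  box_bound (B₁ := (707/500:ℝ)) (B₂ := (149/100:ℝ)) (q₁ := (1:ℝ)) (q₂ := (53/50:ℝ)) (m := (25/8:ℝ)) (t := (1:ℝ)) (by norm_num) (by norm_num) (by norm_num) a1 a2 a3 a4 h4 (by norm_num) (by norm_num [gfun]) (by norm_num [gfun]) (by norm_num [gfun]) (by norm_num [gfun])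

lemma leaf_1 (B q : ℝ) (a1 : (707/500:ℝ) ≤ B) (a2 : B ≤ (149/100:ℝ)) (a3 : (53/50:ℝ) ≤ q) (a4 : q ≤ (28/25:ℝ))
    (h4 : q ≤ (2 : ℝ)) : ∃ m t : ℝ, 0 < m ∧ 0 < t ∧ gfun m t B q ≤ 45 :=
  box_bound (B₁ := (707/500:ℝ)) (B₂ := (149/100:ℝ)) (q₁ := (53/50:ℝ)) (q₂ := (28/25:ℝ)) (m := (49/16:ℝ)) (t := (15/16:ℝ)) (by norm_num) (by norm_num) (by norm_num) a1 a2 a3 a4 h4 (by norm_num) (by norm_num [gfun]) (by norm_num [gfun]) (by norm_num [gfun]) (by norm_num [gfun])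

lemma leaf_2 (B q : ℝ) (a1 : (149/100:ℝ) ≤ B) (a2 : B ≤ (157/100:ℝ)) (a3 : (1:ℝ) ≤ q) (a4 : q ≤ (28/25:ℝ))
    (h4 : q ≤ (2 : ℝ)) : ∃ m t : ℝ, 0 < m ∧ 0 < t ∧ gfun m t B q ≤ 45 :=
  box_bound (B₁ := (149/100:ℝ)) (B₂ := (157/100:ℝ)) (q₁ := (1:ℝ)) (q₂ := (28/25:ℝ)) (m := (25/8:ℝ)) (t := (9/8:ℝ)) (by norm_num) (by norm_num) (by norm_num) a1 a2 a3 a4 h4 (by norm_num) (by norm_num [gfun]) (by norm_num [gfun]) (by norm_num [gfun]) (by norm_num [gfun])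

lemma leaf_3 (B q : ℝ) (a1 : (707/500:ℝ) ≤ B) (a2 : B ≤ (149/100:ℝ)) (a3 : (28/25:ℝ) ≤ q) (a4 : q ≤ (5/4:ℝ))
    (h4 : q ≤ (2 : ℝ)) : ∃ m t : ℝ, 0 < m ∧ 0 < t ∧ gfun m t B q ≤ 45 :=
  box_bound (B₁ := (707/500:ℝ)) (B₂ := (149/100:ℝ)) (q₁ := (28/25:ℝ)) (q₂ := (5/4:ℝ)) (m := (47/16:ℝ)) (t := (7/8:ℝ)) (by norm_num) (by norm_num) (by norm_num) a1 a2 a3 a4 h4 (by norm_num) (by norm_num [gfun]) (by norm_num [gfun]) (by norm_num [gfun]) (by norm_num [gfun])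

lemma leaf_4 (B q : ℝ) (a1 : (149/100:ℝ) ≤ B) (a2 : B ≤ (157/100:ℝ)) (a3 : (28/25:ℝ) ≤ q) (a4 : q ≤ (5/4:ℝ))
    (h4 : q ≤ (2 : ℝ)) : ∃ m t : ℝ, 0 < m ∧ 0 < t ∧ gfun m t B q ≤ 45 :=
  box_bound (B₁ := (149/100:ℝ)) (B₂ := (157/100:ℝ)) (q₁ := (28/25:ℝ)) (q₂ := (5/4:ℝ)) (m := (3:ℝ)) (t := (1:ℝ)) (by norm_num) (by norm_num) (by norm_num) a1 a2 a3 a4 h4 (by norm_num) (by norm_num [gfun]) (by norm_num [gfun]) (by norm_num [gfun]) (by norm_num [gfun])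

lemma leaf_5 (B q : ℝ) (a1 : (157/100:ℝ) ≤ B) (a2 : B ≤ (173/100:ℝ)) (a3 : (1:ℝ) ≤ q) (a4 : q ≤ (5/4:ℝ))
    (h4 : q ≤ (2 : ℝ)) : ∃ m t : ℝ, 0 < m ∧ 0 < t ∧ gfun m t B q ≤ 45 :=
  box_bound (B₁ := (157/100:ℝ)) (B₂ := (173/100:ℝ)) (q₁ := (1:ℝ)) (q₂ := (5/4:ℝ)) (m := (25/8:ℝ)) (t := (19/16:ℝ)) (by norm_num) (by norm_num) (by norm_num) a1 a2 a3 a4 h4 (by norm_num) (by norm_num [gfun]) (by norm_num [gfun]) (by norm_num [gfun]) (by norm_num [gfun])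

lemma leaf_6 (B q : ℝ) (a1 : (707/500:ℝ) ≤ B) (a2 : B ≤ (157/100:ℝ)) (a3 : (5/4:ℝ) ≤ q) (a4 : q ≤ (69/50:ℝ))
    (h4 : q ≤ (2 : ℝ)) : ∃ m t : ℝ, 0 < m ∧ 0 < t ∧ gfun m t B q ≤ 45 :=
  box_bound (B₁ := (707/500:ℝ)) (B₂ := (157/100:ℝ)) (q₁ := (5/4:ℝ)) (q₂ := (69/50:ℝ)) (m := (11/4:ℝ)) (t := (3/4:ℝ)) (by norm_num) (by norm_num) (by norm_num) a1 a2 a3 a4 h4 (by norm_num) (by norm_num [gfun]) (by norm_num [gfun]) (by norm_num [gfun]) (by norm_num [gfun])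

lemma leaf_7 (B q : ℝ) (a1 : (707/500:ℝ) ≤ B) (a2 : B ≤ (157/100:ℝ)) (a3 : (69/50:ℝ) ≤ q) (a4 : q ≤ (3/2:ℝ))
    (h4 : q ≤ (2 : ℝ)) : ∃ m t : ℝ, 0 < m ∧ 0 < t ∧ gfun m t B q ≤ 45 :=
  box_bound (B₁ := (707/500:ℝ)) (B₂ := (157/100:ℝ)) (q₁ := (69/50:ℝ)) (q₂ := (3/2:ℝ)) (m := (41/16:ℝ)) (t := (9/16:ℝ)) (by norm_num) (by norm_num) (by norm_num) a1 a2 a3 a4 h4 (by norm_num) (by norm_num [gfun]) (by norm_num [gfun]) (by norm_num [gfun]) (by norm_num [gfun])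

lemma leaf_8 (B q : ℝ) (a1 : (157/100:ℝ) ≤ B) (a2 : B ≤ (173/100:ℝ)) (a3 : (5/4:ℝ) ≤ q) (a4 : q ≤ (3/2:ℝ))
    (h4 : q ≤ (2 : ℝ)) : ∃ m t : ℝ, 0 < m ∧ 0 < t ∧ gfun m t B q ≤ 45 :=
  box_bound (B₁ := (157/100:ℝ)) (B₂ := (173/100:ℝ)) (q₁ := (5/4:ℝ)) (q₂ := (3/2:ℝ)) (m := (11/4:ℝ)) (t := (1:ℝ)) (by norm_num) (by norm_num) (by norm_num) a1 a2 a3 a4 h4 (by norm_num) (by norm_num [gfun]) (by norm_num [gfun]) (by norm_num [gfun]) (by norm_num [gfun])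

lemma leaf_9 (B q : ℝ) (a1 : (173/100:ℝ) ≤ B) (a2 : B ≤ (47/25:ℝ)) (a3 : (1:ℝ) ≤ q) (a4 : q ≤ (5/4:ℝ))
    (h4 : q ≤ (2 : ℝ)) : ∃ m t : ℝ, 0 < m ∧ 0 < t ∧ gfun m t B q ≤ 45 :=
  box_bound (B₁ := (173/100:ℝ)) (B₂ := (47/25:ℝ)) (q₁ := (1:ℝ)) (q₂ := (5/4:ℝ)) (m := (51/16:ℝ)) (t := (23/16:ℝ)) (by norm_num) (by norm_num) (by norm_num) a1 a2 a3 a4 h4 (by norm_num) (by norm_num [gfun]) (by norm_num [gfun]) (by norm_num [gfun]) (by norm_num [gfun])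

lemma leaf_10 (B q : ℝ) (a1 : (47/25:ℝ) ≤ B) (a2 : B ≤ (51/25:ℝ)) (a3 : (1:ℝ) ≤ q) (a4 : q ≤ (5/4:ℝ))
    (h4 : q ≤ (2 : ℝ)) : ∃ m t : ℝ, 0 < m ∧ 0 < t ∧ gfun m t B q ≤ 45 :=
  box_bound (B₁ := (47/25:ℝ)) (B₂ := (51/25:ℝ)) (q₁ := (1:ℝ)) (q₂ := (5/4:ℝ)) (m := (53/16:ℝ)) (t := (13/8:ℝ)) (by norm_num) (by norm_num) (by norm_num) a1 a2 a3 a4 h4 (by norm_num) (by norm_num [gfun]) (by norm_num [gfun]) (by norm_num [gfun]) (by norm_num [gfun])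

lemma leaf_11 (B q : ℝ) (a1 : (173/100:ℝ) ≤ B) (a2 : B ≤ (47/25:ℝ)) (a3 : (5/4:ℝ) ≤ q) (a4 : q ≤ (3/2:ℝ))
    (h4 : q ≤ (2 : ℝ)) : ∃ m t : ℝ, 0 < m ∧ 0 < t ∧ gfun m t B q ≤ 45 :=
  box_bound (B₁ := (173/100:ℝ)) (B₂ := (47/25:ℝ)) (q₁ := (5/4:ℝ)) (q₂ := (3/2:ℝ)) (m := (23/8:ℝ)) (t := (5/4:ℝ)) (by norm_num) (by norm_num) (by norm_num) a1 a2 a3 a4 h4 (by norm_num) (by norm_num [gfun]) (by norm_num [gfun]) (by norm_num [gfun]) (by norm_num [gfun])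

lemma leaf_12 (B q : ℝ) (a1 : (47/25:ℝ) ≤ B) (a2 : B ≤ (51/25:ℝ)) (a3 : (5/4:ℝ) ≤ q) (a4 : q ≤ (3/2:ℝ))
    (h4 : q ≤ (2 : ℝ)) : ∃ m t : ℝ, 0 < m ∧ 0 < t ∧ gfun m t B q ≤ 45 :=
  box_bound (B₁ := (47/25:ℝ)) (B₂ := (51/25:ℝ)) (q₁ := (5/4:ℝ)) (q₂ := (3/2:ℝ)) (m := (3:ℝ)) (t := (23/16:ℝ)) (by norm_num) (by norm_num) (by norm_num) a1 a2 a3 a4 h4 (by norm_num) (by norm_num [gfun]) (by norm_num [gfun]) (by norm_num [gfun]) (by norm_num [gfun])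

lemma leaf_13 (B q : ℝ) (a1 : (707/500:ℝ) ≤ B) (a2 : B ≤ (157/100:ℝ)) (a3 : (3/2:ℝ) ≤ q) (a4 : q ≤ (81/50:ℝ))
    (h4 : q ≤ (2 : ℝ)) : ∃ m t : ℝ, 0 < m ∧ 0 < t ∧ gfun m t B q ≤ 45 :=
  box_bound (B₁ := (707/500:ℝ)) (B₂ := (157/100:ℝ)) (q₁ := (3/2:ℝ)) (q₂ := (81/50:ℝ)) (m := (19/8:ℝ)) (t := (5/16:ℝ)) (by norm_num) (by norm_num) (by norm_num) a1 a2 a3 a4 h4 (by norm_num) (by norm_num [gfun]) (by norm_num [gfun]) (by norm_num [gfun]) (by norm_num [gfun])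

lemma leaf_14 (B q : ℝ) (a1 : (707/500:ℝ) ≤ B) (a2 : B ≤ (157/100:ℝ)) (a3 : (81/50:ℝ) ≤ q) (a4 : q ≤ (7/4:ℝ))
    (h4 : q ≤ (2 : ℝ)) : ∃ m t : ℝ, 0 < m ∧ 0 < t ∧ gfun m t B q ≤ 45 :=
  box_bound (B₁ := (707/500:ℝ)) (B₂ := (157/100:ℝ)) (q₁ := (81/50:ℝ)) (q₂ := (7/4:ℝ)) (m := (35/16:ℝ)) (t := (1/8:ℝ)) (by norm_num) (by norm_num) (by norm_num) a1 a2 a3 a4 h4 (by norm_num) (by norm_num [gfun]) (by norm_num [gfun]) (by norm_num [gfun]) (by norm_num [gfun])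

lemma leaf_15 (B q : ℝ) (a1 : (157/100:ℝ) ≤ B) (a2 : B ≤ (173/100:ℝ)) (a3 : (3/2:ℝ) ≤ q) (a4 : q ≤ (7/4:ℝ))
    (h4 : q ≤ (2 : ℝ)) : ∃ m t : ℝ, 0 < m ∧ 0 < t ∧ gfun m t B q ≤ 45 :=
  box_bound (B₁ := (157/100:ℝ)) (B₂ := (173/100:ℝ)) (q₁ := (3/2:ℝ)) (q₂ := (7/4:ℝ)) (m := (19/8:ℝ)) (t := (11/16:ℝ)) (by norm_num) (by norm_num) (by norm_num) a1 a2 a3 a4 h4 (by norm_num) (by norm_num [gfun]) (by norm_num [gfun]) (by norm_num [gfun]) (by norm_num [gfun])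

lemma leaf_16 (B q : ℝ) (a1 : (707/500:ℝ) ≤ B) (a2 : B ≤ (173/100:ℝ)) (a3 : (7/4:ℝ) ≤ q) (a4 : q ≤ (2:ℝ))
    (h4 : q ≤ (2 : ℝ)) : ∃ m t : ℝ, 0 < m ∧ 0 < t ∧ gfun m t B q ≤ 45 :=
  box_bound (B₁ := (707/500:ℝ)) (B₂ := (173/100:ℝ)) (q₁ := (7/4:ℝ)) (q₂ := (2:ℝ)) (m := (15/8:ℝ)) (t := (1/8:ℝ)) (by norm_num) (by norm_num) (by norm_num) a1 a2 a3 a4 h4 (by norm_num) (by norm_num [gfun]) (by norm_num [gfun]) (by norm_num [gfun]) (by norm_num [gfun])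

lemma leaf_17 (B q : ℝ) (a1 : (173/100:ℝ) ≤ B) (a2 : B ≤ (47/25:ℝ)) (a3 : (3/2:ℝ) ≤ q) (a4 : q ≤ (7/4:ℝ))
    (h4 : q ≤ (2 : ℝ)) : ∃ m t : ℝ, 0 < m ∧ 0 < t ∧ gfun m t B q ≤ 45 :=
  box_bound (B₁ := (173/100:ℝ)) (B₂ := (47/25:ℝ)) (q₁ := (3/2:ℝ)) (q₂ := (7/4:ℝ)) (m := (5/2:ℝ)) (t := (1:ℝ)) (by norm_num) (by norm_num) (by norm_num) a1 a2 a3 a4 h4 (by norm_num) (by norm_num [gfun]) (by norm_num [gfun]) (by norm_num [gfun]) (by norm_num [gfun])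

lemma leaf_18 (B q : ℝ) (a1 : (47/25:ℝ) ≤ B) (a2 : B ≤ (51/25:ℝ)) (a3 : (3/2:ℝ) ≤ q) (a4 : q ≤ (7/4:ℝ))
    (h4 : q ≤ (2 : ℝ)) : ∃ m t : ℝ, 0 < m ∧ 0 < t ∧ gfun m t B q ≤ 45 :=
  box_bound (B₁ := (47/25:ℝ)) (B₂ := (51/25:ℝ)) (q₁ := (3/2:ℝ)) (q₂ := (7/4:ℝ)) (m := (21/8:ℝ)) (t := (5/4:ℝ)) (by norm_num) (by norm_num) (by norm_num) a1 a2 a3 a4 h4 (by norm_num) (by norm_num [gfun]) (by norm_num [gfun]) (by norm_num [gfun]) (by norm_num [gfun])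

lemma leaf_19 (B q : ℝ) (a1 : (173/100:ℝ) ≤ B) (a2 : B ≤ (51/25:ℝ)) (a3 : (7/4:ℝ) ≤ q) (a4 : q ≤ (2:ℝ))
    (h4 : q ≤ (2 : ℝ)) : ∃ m t : ℝ, 0 < m ∧ 0 < t ∧ gfun m t B q ≤ 45 :=
  box_bound (B₁ := (173/100:ℝ)) (B₂ := (51/25:ℝ)) (q₁ := (7/4:ℝ)) (q₂ := (2:ℝ)) (m := (17/8:ℝ)) (t := (7/8:ℝ)) (by norm_num) (by norm_num) (by norm_num) a1 a2 a3 a4 h4 (by norm_num) (by norm_num [gfun]) (by norm_num [gfun]) (by norm_num [gfun]) (by norm_num [gfun])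

lemma leaf_20 (B q : ℝ) (a1 : (51/25:ℝ) ≤ B) (a2 : B ≤ (47/20:ℝ)) (a3 : (1:ℝ) ≤ q) (a4 : q ≤ (5/4:ℝ))
    (h4 : q ≤ (2 : ℝ)) : ∃ m t : ℝ, 0 < m ∧ 0 < t ∧ gfun m t B q ≤ 45 :=
  box_bound (B₁ := (51/25:ℝ)) (B₂ := (47/20:ℝ)) (q₁ := (1:ℝ)) (q₂ := (5/4:ℝ)) (m := (55/16:ℝ)) (t := (15/8:ℝ)) (by norm_num) (by norm_num) (by norm_num) a1 a2 a3 a4 h4 (by norm_num) (by norm_num [gfun]) (by norm_num [gfun]) (by norm_num [gfun]) (by norm_num [gfun])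

lemma leaf_21 (B q : ℝ) (a1 : (51/25:ℝ) ≤ B) (a2 : B ≤ (47/20:ℝ)) (a3 : (5/4:ℝ) ≤ q) (a4 : q ≤ (3/2:ℝ))
    (h4 : q ≤ (2 : ℝ)) : ∃ m t : ℝ, 0 < m ∧ 0 < t ∧ gfun m t B q ≤ 45 :=
  box_bound (B₁ := (51/25:ℝ)) (B₂ := (47/20:ℝ)) (q₁ := (5/4:ℝ)) (q₂ := (3/2:ℝ)) (m := (25/8:ℝ)) (t := (7/4:ℝ)) (by norm_num) (by norm_num) (by norm_num) a1 a2 a3 a4 h4 (by norm_num) (by norm_num [gfun]) (by norm_num [gfun]) (by norm_num [gfun]) (by norm_num [gfun])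

lemma leaf_22 (B q : ℝ) (a1 : (47/20:ℝ) ≤ B) (a2 : B ≤ (133/50:ℝ)) (a3 : (1:ℝ) ≤ q) (a4 : q ≤ (5/4:ℝ))
    (h4 : q ≤ (2 : ℝ)) : ∃ m t : ℝ, 0 < m ∧ 0 < t ∧ gfun m t B q ≤ 45 :=
  box_bound (B₁ := (47/20:ℝ)) (B₂ := (133/50:ℝ)) (q₁ := (1:ℝ)) (q₂ := (5/4:ℝ)) (m := (29/8:ℝ)) (t := (9/4:ℝ)) (by norm_num) (by norm_num) (by norm_num) a1 a2 a3 a4 h4 (by norm_num) (by norm_num [gfun]) (by norm_num [gfun]) (by norm_num [gfun]) (by norm_num [gfun])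

lemma leaf_23 (B q : ℝ) (a1 : (47/20:ℝ) ≤ B) (a2 : B ≤ (133/50:ℝ)) (a3 : (5/4:ℝ) ≤ q) (a4 : q ≤ (3/2:ℝ))
    (h4 : q ≤ (2 : ℝ)) : ∃ m t : ℝ, 0 < m ∧ 0 < t ∧ gfun m t B q ≤ 45 :=
  box_bound (B₁ := (47/20:ℝ)) (B₂ := (133/50:ℝ)) (q₁ := (5/4:ℝ)) (q₂ := (3/2:ℝ)) (m := (27/8:ℝ)) (t := (17/8:ℝ)) (by norm_num) (by norm_num) (by norm_num) a1 a2 a3 a4 h4 (by norm_num) (by norm_num [gfun]) (by norm_num [gfun]) (by norm_num [gfun]) (by norm_num [gfun])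

lemma leaf_24 (B q : ℝ) (a1 : (51/25:ℝ) ≤ B) (a2 : B ≤ (47/20:ℝ)) (a3 : (3/2:ℝ) ≤ q) (a4 : q ≤ (7/4:ℝ))
    (h4 : q ≤ (2 : ℝ)) : ∃ m t : ℝ, 0 < m ∧ 0 < t ∧ gfun m t B q ≤ 45 :=
  box_bound (B₁ := (51/25:ℝ)) (B₂ := (47/20:ℝ)) (q₁ := (3/2:ℝ)) (q₂ := (7/4:ℝ)) (m := (45/16:ℝ)) (t := (13/8:ℝ)) (by norm_num) (by norm_num) (by norm_num) a1 a2 a3 a4 h4 (by norm_num) (by norm_num [gfun]) (by norm_num [gfun]) (by norm_num [gfun]) (by norm_num [gfun])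

lemma leaf_25 (B q : ℝ) (a1 : (51/25:ℝ) ≤ B) (a2 : B ≤ (47/20:ℝ)) (a3 : (7/4:ℝ) ≤ q) (a4 : q ≤ (2:ℝ))
    (h4 : q ≤ (2 : ℝ)) : ∃ m t : ℝ, 0 < m ∧ 0 < t ∧ gfun m t B q ≤ 45 :=
  box_bound (B₁ := (51/25:ℝ)) (B₂ := (47/20:ℝ)) (q₁ := (7/4:ℝ)) (q₂ := (2:ℝ)) (m := (39/16:ℝ)) (t := (23/16:ℝ)) (by norm_num) (by norm_num) (by norm_num) a1 a2 a3 a4 h4 (by norm_num) (by norm_num [gfun]) (by norm_num [gfun]) (by norm_num [gfun]) (by norm_num [gfun])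

lemma leaf_26 (B q : ℝ) (a1 : (47/20:ℝ) ≤ B) (a2 : B ≤ (133/50:ℝ)) (a3 : (3/2:ℝ) ≤ q) (a4 : q ≤ (7/4:ℝ))
    (h4 : q ≤ (2 : ℝ)) : ∃ m t : ℝ, 0 < m ∧ 0 < t ∧ gfun m t B q ≤ 45 :=
  box_bound (B₁ := (47/20:ℝ)) (B₂ := (133/50:ℝ)) (q₁ := (3/2:ℝ)) (q₂ := (7/4:ℝ)) (m := (49/16:ℝ)) (t := (2:ℝ)) (by norm_num) (by norm_num) (by norm_num) a1 a2 a3 a4 h4 (by norm_num) (by norm_num [gfun]) (by norm_num [gfun]) (by norm_num [gfun]) (by norm_num [gfun])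

lemma leaf_27 (B q : ℝ) (a1 : (47/20:ℝ) ≤ B) (a2 : B ≤ (133/50:ℝ)) (a3 : (7/4:ℝ) ≤ q) (a4 : q ≤ (2:ℝ))
    (h4 : q ≤ (2 : ℝ)) : ∃ m t : ℝ, 0 < m ∧ 0 < t ∧ gfun m t B q ≤ 45 :=
  box_bound (B₁ := (47/20:ℝ)) (B₂ := (133/50:ℝ)) (q₁ := (7/4:ℝ)) (q₂ := (2:ℝ)) (m := (43/16:ℝ)) (t := (15/8:ℝ)) (by norm_num) (by norm_num) (by norm_num) a1 a2 a3 a4 h4 (by norm_num) (by norm_num [gfun]) (by norm_num [gfun]) (by norm_num [gfun]) (by norm_num [gfun])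

lemma leaf_28 (B q : ℝ) (a1 : (133/50:ℝ) ≤ B) (a2 : B ≤ (297/100:ℝ)) (a3 : (1:ℝ) ≤ q) (a4 : q ≤ (5/4:ℝ))
    (h4 : q ≤ (2 : ℝ)) : ∃ m t : ℝ, 0 < m ∧ 0 < t ∧ gfun m t B q ≤ 45 :=
  box_bound (B₁ := (133/50:ℝ)) (B₂ := (297/100:ℝ)) (q₁ := (1:ℝ)) (q₂ := (5/4:ℝ)) (m := (31/8:ℝ)) (t := (41/16:ℝ)) (by norm_num) (by norm_num) (by norm_num) a1 a2 a3 a4 h4 (by norm_num) (by norm_num [gfun]) (by norm_num [gfun]) (by norm_num [gfun]) (by norm_num [gfun])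

lemma leaf_29 (B q : ℝ) (a1 : (133/50:ℝ) ≤ B) (a2 : B ≤ (297/100:ℝ)) (a3 : (5/4:ℝ) ≤ q) (a4 : q ≤ (3/2:ℝ))
    (h4 : q ≤ (2 : ℝ)) : ∃ m t : ℝ, 0 < m ∧ 0 < t ∧ gfun m t B q ≤ 45 :=
  box_bound (B₁ := (133/50:ℝ)) (B₂ := (297/100:ℝ)) (q₁ := (5/4:ℝ)) (q₂ := (3/2:ℝ)) (m := (29/8:ℝ)) (t := (5/2:ℝ)) (by norm_num) (by norm_num) (by norm_num) a1 a2 a3 a4 h4 (by norm_num) (by norm_num [gfun]) (by norm_num [gfun]) (by norm_num [gfun]) (by norm_num [gfun])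

lemma leaf_30 (B q : ℝ) (a1 : (297/100:ℝ) ≤ B) (a2 : B ≤ (82/25:ℝ)) (a3 : (1:ℝ) ≤ q) (a4 : q ≤ (3/2:ℝ))
    (h4 : q ≤ (2 : ℝ)) : ∃ m t : ℝ, 0 < m ∧ 0 < t ∧ gfun m t B q ≤ 45 :=
  box_bound (B₁ := (297/100:ℝ)) (B₂ := (82/25:ℝ)) (q₁ := (1:ℝ)) (q₂ := (3/2:ℝ)) (m := (4:ℝ)) (t := (23/8:ℝ)) (by norm_num) (by norm_num) (by norm_num) a1 a2 a3 a4 h4 (by norm_num) (by norm_num [gfun]) (by norm_num [gfun]) (by norm_num [gfun]) (by norm_num [gfun])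

lemma leaf_31 (B q : ℝ) (a1 : (133/50:ℝ) ≤ B) (a2 : B ≤ (297/100:ℝ)) (a3 : (3/2:ℝ) ≤ q) (a4 : q ≤ (2:ℝ))
    (h4 : q ≤ (2 : ℝ)) : ∃ m t : ℝ, 0 < m ∧ 0 < t ∧ gfun m t B q ≤ 45 :=
  box_bound (B₁ := (133/50:ℝ)) (B₂ := (297/100:ℝ)) (q₁ := (3/2:ℝ)) (q₂ := (2:ℝ)) (m := (25/8:ℝ)) (t := (37/16:ℝ)) (by norm_num) (by norm_num) (by norm_num) a1 a2 a3 a4 h4 (by norm_num) (by norm_num [gfun]) (by norm_num [gfun]) (by norm_num [gfun]) (by norm_num [gfun])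

lemma leaf_32 (B q : ℝ) (a1 : (297/100:ℝ) ≤ B) (a2 : B ≤ (82/25:ℝ)) (a3 : (3/2:ℝ) ≤ q) (a4 : q ≤ (2:ℝ))
    (h4 : q ≤ (2 : ℝ)) : ∃ m t : ℝ, 0 < m ∧ 0 < t ∧ gfun m t B q ≤ 45 :=
  box_bound (B₁ := (297/100:ℝ)) (B₂ := (82/25:ℝ)) (q₁ := (3/2:ℝ)) (q₂ := (2:ℝ)) (m := (55/16:ℝ)) (t := (43/16:ℝ)) (by norm_num) (by norm_num) (by norm_num) a1 a2 a3 a4 h4 (by norm_num) (by norm_num [gfun]) (by norm_num [gfun]) (by norm_num [gfun]) (by norm_num [gfun])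

lemma leaf_33 (B q : ℝ) (a1 : (82/25:ℝ) ≤ B) (a2 : B ≤ (18/5:ℝ)) (a3 : (1:ℝ) ≤ q) (a4 : q ≤ (3/2:ℝ))
    (h4 : q ≤ (2 : ℝ)) : ∃ m t : ℝ, 0 < m ∧ 0 < t ∧ gfun m t B q ≤ 45 :=
  box_bound (B₁ := (82/25:ℝ)) (B₂ := (18/5:ℝ)) (q₁ := (1:ℝ)) (q₂ := (3/2:ℝ)) (m := (17/4:ℝ)) (t := (51/16:ℝ)) (by norm_num) (by norm_num) (by norm_num) a1 a2 a3 a4 h4 (by norm_num) (by norm_num [gfun]) (by norm_num [gfun]) (by norm_num [gfun]) (by norm_num [gfun])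

lemma leaf_34 (B q : ℝ) (a1 : (18/5:ℝ) ≤ B) (a2 : B ≤ (391/100:ℝ)) (a3 : (1:ℝ) ≤ q) (a4 : q ≤ (3/2:ℝ))
    (h4 : q ≤ (2 : ℝ)) : ∃ m t : ℝ, 0 < m ∧ 0 < t ∧ gfun m t B q ≤ 45 :=
  box_bound (B₁ := (18/5:ℝ)) (B₂ := (391/100:ℝ)) (q₁ := (1:ℝ)) (q₂ := (3/2:ℝ)) (m := (9/2:ℝ)) (t := (57/16:ℝ)) (by norm_num) (by norm_num) (by norm_num) a1 a2 a3 a4 h4 (by norm_num) (by norm_num [gfun]) (by norm_num [gfun]) (by norm_num [gfun]) (by norm_num [gfun])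

lemma leaf_35 (B q : ℝ) (a1 : (82/25:ℝ) ≤ B) (a2 : B ≤ (18/5:ℝ)) (a3 : (3/2:ℝ) ≤ q) (a4 : q ≤ (2:ℝ))
    (h4 : q ≤ (2 : ℝ)) : ∃ m t : ℝ, 0 < m ∧ 0 < t ∧ gfun m t B q ≤ 45 :=
  box_bound (B₁ := (82/25:ℝ)) (B₂ := (18/5:ℝ)) (q₁ := (3/2:ℝ)) (q₂ := (2:ℝ)) (m := (15/4:ℝ)) (t := (49/16:ℝ)) (by norm_num) (by norm_num) (by norm_num) a1 a2 a3 a4 h4 (by norm_num) (by norm_num [gfun]) (by norm_num [gfun]) (by norm_num [gfun]) (by norm_num [gfun])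

lemma leaf_36 (B q : ℝ) (a1 : (18/5:ℝ) ≤ B) (a2 : B ≤ (391/100:ℝ)) (a3 : (3/2:ℝ) ≤ q) (a4 : q ≤ (2:ℝ))
    (h4 : q ≤ (2 : ℝ)) : ∃ m t : ℝ, 0 < m ∧ 0 < t ∧ gfun m t B q ≤ 45 :=
  box_bound (B₁ := (18/5:ℝ)) (B₂ := (391/100:ℝ)) (q₁ := (3/2:ℝ)) (q₂ := (2:ℝ)) (m := (4:ℝ)) (t := (27/8:ℝ)) (by norm_num) (by norm_num) (by norm_num) a1 a2 a3 a4 h4 (by norm_num) (by norm_num [gfun]) (by norm_num [gfun]) (by norm_num [gfun]) (by norm_num [gfun])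

lemma leaf_37 (B q : ℝ) (a1 : (391/100:ℝ) ≤ B) (a2 : B ≤ (211/50:ℝ)) (a3 : (1:ℝ) ≤ q) (a4 : q ≤ (3/2:ℝ))
    (h4 : q ≤ (2 : ℝ)) : ∃ m t : ℝ, 0 < m ∧ 0 < t ∧ gfun m t B q ≤ 45 :=
  box_bound (B₁ := (391/100:ℝ)) (B₂ := (211/50:ℝ)) (q₁ := (1:ℝ)) (q₂ := (3/2:ℝ)) (m := (19/4:ℝ)) (t := (31/8:ℝ)) (by norm_num) (by norm_num) (by norm_num) a1 a2 a3 a4 h4 (by norm_num) (by norm_num [gfun]) (by norm_num [gfun]) (by norm_num [gfun]) (by norm_num [gfun])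

lemma leaf_38 (B q : ℝ) (a1 : (211/50:ℝ) ≤ B) (a2 : B ≤ (227/50:ℝ)) (a3 : (1:ℝ) ≤ q) (a4 : q ≤ (3/2:ℝ))
    (h4 : q ≤ (2 : ℝ)) : ∃ m t : ℝ, 0 < m ∧ 0 < t ∧ gfun m t B q ≤ 45 :=
  box_bound (B₁ := (211/50:ℝ)) (B₂ := (227/50:ℝ)) (q₁ := (1:ℝ)) (q₂ := (3/2:ℝ)) (m := (5:ℝ)) (t := (67/16:ℝ)) (by norm_num) (by norm_num) (by norm_num) a1 a2 a3 a4 h4 (by norm_num) (by norm_num [gfun]) (by norm_num [gfun]) (by norm_num [gfun]) (by norm_num [gfun])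

lemma leaf_39 (B q : ℝ) (a1 : (391/100:ℝ) ≤ B) (a2 : B ≤ (211/50:ℝ)) (a3 : (3/2:ℝ) ≤ q) (a4 : q ≤ (2:ℝ))
    (h4 : q ≤ (2 : ℝ)) : ∃ m t : ℝ, 0 < m ∧ 0 < t ∧ gfun m t B q ≤ 45 :=
  box_bound (B₁ := (391/100:ℝ)) (B₂ := (211/50:ℝ)) (q₁ := (3/2:ℝ)) (q₂ := (2:ℝ)) (m := (69/16:ℝ)) (t := (15/4:ℝ)) (by norm_num) (by norm_num) (by norm_num) a1 a2 a3 a4 h4 (by norm_num) (by norm_num [gfun]) (by norm_num [gfun]) (by norm_num [gfun]) (by norm_num [gfun])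

lemma leaf_40 (B q : ℝ) (a1 : (211/50:ℝ) ≤ B) (a2 : B ≤ (227/50:ℝ)) (a3 : (3/2:ℝ) ≤ q) (a4 : q ≤ (2:ℝ))
    (h4 : q ≤ (2 : ℝ)) : ∃ m t : ℝ, 0 < m ∧ 0 < t ∧ gfun m t B q ≤ 45 :=
  box_bound (B₁ := (211/50:ℝ)) (B₂ := (227/50:ℝ)) (q₁ := (3/2:ℝ)) (q₂ := (2:ℝ)) (m := (37/8:ℝ)) (t := (65/16:ℝ)) (by norm_num) (by norm_num) (by norm_num) a1 a2 a3 a4 h4 (by norm_num) (by norm_num [gfun]) (by norm_num [gfun]) (by norm_num [gfun]) (by norm_num [gfun])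

lemma leaf_41 (B q : ℝ) (a1 : (227/50:ℝ) ≤ B) (a2 : B ≤ (97/20:ℝ)) (a3 : (1:ℝ) ≤ q) (a4 : q ≤ (3/2:ℝ))
    (h4 : q ≤ (2 : ℝ)) : ∃ m t : ℝ, 0 < m ∧ 0 < t ∧ gfun m t B q ≤ 45 :=
  box_bound (B₁ := (227/50:ℝ)) (B₂ := (97/20:ℝ)) (q₁ := (1:ℝ)) (q₂ := (3/2:ℝ)) (m := (85/16:ℝ)) (t := (73/16:ℝ)) (by norm_num) (by norm_num) (by norm_num) a1 a2 a3 a4 h4 (by norm_num) (by norm_num [gfun]) (by norm_num [gfun]) (by norm_num [gfun]) (by norm_num [gfun])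

lemma leaf_42 (B q : ℝ) (a1 : (97/20:ℝ) ≤ B) (a2 : B ≤ (129/25:ℝ)) (a3 : (1:ℝ) ≤ q) (a4 : q ≤ (3/2:ℝ))
    (h4 : q ≤ (2 : ℝ)) : ∃ m t : ℝ, 0 < m ∧ 0 < t ∧ gfun m t B q ≤ 45 :=
  box_bound (B₁ := (97/20:ℝ)) (B₂ := (129/25:ℝ)) (q₁ := (1:ℝ)) (q₂ := (3/2:ℝ)) (m := (89/16:ℝ)) (t := (39/8:ℝ)) (by norm_num) (by norm_num) (by norm_num) a1 a2 a3 a4 h4 (by norm_num) (by norm_num [gfun]) (by norm_num [gfun]) (by norm_num [gfun]) (by norm_num [gfun])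

lemma leaf_43 (B q : ℝ) (a1 : (227/50:ℝ) ≤ B) (a2 : B ≤ (97/20:ℝ)) (a3 : (3/2:ℝ) ≤ q) (a4 : q ≤ (2:ℝ))
    (h4 : q ≤ (2 : ℝ)) : ∃ m t : ℝ, 0 < m ∧ 0 < t ∧ gfun m t B q ≤ 45 :=
  box_bound (B₁ := (227/50:ℝ)) (B₂ := (97/20:ℝ)) (q₁ := (3/2:ℝ)) (q₂ := (2:ℝ)) (m := (39/8:ℝ)) (t := (71/16:ℝ)) (by norm_num) (by norm_num) (by norm_num) a1 a2 a3 a4 h4 (by norm_num) (by norm_num [gfun]) (by norm_num [gfun]) (by norm_num [gfun]) (by norm_num [gfun])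

lemma leaf_44 (B q : ℝ) (a1 : (97/20:ℝ) ≤ B) (a2 : B ≤ (129/25:ℝ)) (a3 : (3/2:ℝ) ≤ q) (a4 : q ≤ (2:ℝ))
    (h4 : q ≤ (2 : ℝ)) : ∃ m t : ℝ, 0 < m ∧ 0 < t ∧ gfun m t B q ≤ 45 :=
  box_bound (B₁ := (97/20:ℝ)) (B₂ := (129/25:ℝ)) (q₁ := (3/2:ℝ)) (q₂ := (2:ℝ)) (m := (83/16:ℝ)) (t := (19/4:ℝ)) (by norm_num) (by norm_num) (by norm_num) a1 a2 a3 a4 h4 (by norm_num) (by norm_num [gfun]) (by norm_num [gfun]) (by norm_num [gfun]) (by norm_num [gfun])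

lemma leaf_45 (B q : ℝ) (a1 : (129/25:ℝ) ≤ B) (a2 : B ≤ (547/100:ℝ)) (a3 : (1:ℝ) ≤ q) (a4 : q ≤ (3/2:ℝ))
    (h4 : q ≤ (2 : ℝ)) : ∃ m t : ℝ, 0 < m ∧ 0 < t ∧ gfun m t B q ≤ 45 :=
  box_bound (B₁ := (129/25:ℝ)) (B₂ := (547/100:ℝ)) (q₁ := (1:ℝ)) (q₂ := (3/2:ℝ)) (m := (47/8:ℝ)) (t := (83/16:ℝ)) (by norm_num) (by norm_num) (by norm_num) a1 a2 a3 a4 h4 (by norm_num) (by norm_num [gfun]) (by norm_num [gfun]) (by norm_num [gfun]) (by norm_num [gfun])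

lemma leaf_46 (B q : ℝ) (a1 : (547/100:ℝ) ≤ B) (a2 : B ≤ (289/50:ℝ)) (a3 : (1:ℝ) ≤ q) (a4 : q ≤ (3/2:ℝ))
    (h4 : q ≤ (2 : ℝ)) : ∃ m t : ℝ, 0 < m ∧ 0 < t ∧ gfun m t B q ≤ 45 :=
  box_bound (B₁ := (547/100:ℝ)) (B₂ := (289/50:ℝ)) (q₁ := (1:ℝ)) (q₂ := (3/2:ℝ)) (m := (49/8:ℝ)) (t := (11/2:ℝ)) (by norm_num) (by norm_num) (by norm_num) a1 a2 a3 a4 h4 (by norm_num) (by norm_num [gfun]) (by norm_num [gfun]) (by norm_num [gfun]) (by norm_num [gfun])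

lemma leaf_47 (B q : ℝ) (a1 : (129/25:ℝ) ≤ B) (a2 : B ≤ (547/100:ℝ)) (a3 : (3/2:ℝ) ≤ q) (a4 : q ≤ (2:ℝ))
    (h4 : q ≤ (2 : ℝ)) : ∃ m t : ℝ, 0 < m ∧ 0 < t ∧ gfun m t B q ≤ 45 :=
  box_bound (B₁ := (129/25:ℝ)) (B₂ := (547/100:ℝ)) (q₁ := (3/2:ℝ)) (q₂ := (2:ℝ)) (m := (11/2:ℝ)) (t := (81/16:ℝ)) (by norm_num) (by norm_num) (by norm_num) a1 a2 a3 a4 h4 (by norm_num) (by norm_num [gfun]) (by norm_num [gfun]) (by norm_num [gfun]) (by norm_num [gfun])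

lemma leaf_48 (B q : ℝ) (a1 : (547/100:ℝ) ≤ B) (a2 : B ≤ (289/50:ℝ)) (a3 : (3/2:ℝ) ≤ q) (a4 : q ≤ (2:ℝ))
    (h4 : q ≤ (2 : ℝ)) : ∃ m t : ℝ, 0 < m ∧ 0 < t ∧ gfun m t B q ≤ 45 :=
  box_bound (B₁ := (547/100:ℝ)) (B₂ := (289/50:ℝ)) (q₁ := (3/2:ℝ)) (q₂ := (2:ℝ)) (m := (93/16:ℝ)) (t := (43/8:ℝ)) (by norm_num) (by norm_num) (by norm_num) a1 a2 a3 a4 h4 (by norm_num) (by norm_num [gfun]) (by norm_num [gfun]) (by norm_num [gfun]) (by norm_num [gfun])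

lemma leaf_49 (B q : ℝ) (a1 : (289/50:ℝ) ≤ B) (a2 : B ≤ (609/100:ℝ)) (a3 : (1:ℝ) ≤ q) (a4 : q ≤ (3/2:ℝ))
    (h4 : q ≤ (2 : ℝ)) : ∃ m t : ℝ, 0 < m ∧ 0 < t ∧ gfun m t B q ≤ 45 :=
  box_bound (B₁ := (289/50:ℝ)) (B₂ := (609/100:ℝ)) (q₁ := (1:ℝ)) (q₂ := (3/2:ℝ)) (m := (103/16:ℝ)) (t := (93/16:ℝ)) (by norm_num) (by norm_num) (by norm_num) a1 a2 a3 a4 h4 (by norm_num) (by norm_num [gfun]) (by norm_num [gfun]) (by norm_num [gfun]) (by norm_num [gfun])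

lemma leaf_50 (B q : ℝ) (a1 : (609/100:ℝ) ≤ B) (a2 : B ≤ (32/5:ℝ)) (a3 : (1:ℝ) ≤ q) (a4 : q ≤ (3/2:ℝ))
    (h4 : q ≤ (2 : ℝ)) : ∃ m t : ℝ, 0 < m ∧ 0 < t ∧ gfun m t B q ≤ 45 :=
  box_bound (B₁ := (609/100:ℝ)) (B₂ := (32/5:ℝ)) (q₁ := (1:ℝ)) (q₂ := (3/2:ℝ)) (m := (107/16:ℝ)) (t := (49/8:ℝ)) (by norm_num) (by norm_num) (by norm_num) a1 a2 a3 a4 h4 (by norm_num) (by norm_num [gfun]) (by norm_num [gfun]) (by norm_num [gfun]) (by norm_num [gfun])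

lemma leaf_51 (B q : ℝ) (a1 : (289/50:ℝ) ≤ B) (a2 : B ≤ (609/100:ℝ)) (a3 : (3/2:ℝ) ≤ q) (a4 : q ≤ (2:ℝ))
    (h4 : q ≤ (2 : ℝ)) : ∃ m t : ℝ, 0 < m ∧ 0 < t ∧ gfun m t B q ≤ 45 :=
  box_bound (B₁ := (289/50:ℝ)) (B₂ := (609/100:ℝ)) (q₁ := (3/2:ℝ)) (q₂ := (2:ℝ)) (m := (49/8:ℝ)) (t := (23/4:ℝ)) (by norm_num) (by norm_num) (by norm_num) a1 a2 a3 a4 h4 (by norm_num) (by norm_num [gfun]) (by norm_num [gfun]) (by norm_num [gfun]) (by norm_num [gfun])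

lemma leaf_52 (B q : ℝ) (a1 : (609/100:ℝ) ≤ B) (a2 : B ≤ (32/5:ℝ)) (a3 : (3/2:ℝ) ≤ q) (a4 : q ≤ (2:ℝ))
    (h4 : q ≤ (2 : ℝ)) : ∃ m t : ℝ, 0 < m ∧ 0 < t ∧ gfun m t B q ≤ 45 :=
  box_bound (B₁ := (609/100:ℝ)) (B₂ := (32/5:ℝ)) (q₁ := (3/2:ℝ)) (q₂ := (2:ℝ)) (m := (51/8:ℝ)) (t := (97/16:ℝ)) (by norm_num) (by norm_num) (by norm_num) a1 a2 a3 a4 h4 (by norm_num) (by norm_num [gfun]) (by norm_num [gfun]) (by norm_num [gfun]) (by norm_num [gfun])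


/-- Every point of the rectangle lies in a box with a certificate. -/
theorem exists_gfun (B q : ℝ) (h1 : (1414 / 1000 : ℝ) ≤ B) (h2 : B ≤ (32 / 5 : ℝ)) (h3 : (1 : ℝ) ≤ q)
    (h4 : q ≤ (2 : ℝ)) : ∃ m t : ℝ, 0 < m ∧ 0 < t ∧ gfun m t B q ≤ 45 := by
  rcases le_total B (391/100:ℝ) with c1 | c1
  · rcases le_total B (133/50:ℝ) with c2 | c2
    · rcases le_total B (51/25:ℝ) with c3 | c3
      · rcases le_total q (3/2:ℝ) with c4 | c4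
        · rcases le_total B (173/100:ℝ) with c5 | c5
          · rcases le_total q (5/4:ℝ) with c6 | c6
            · rcases le_total B (157/100:ℝ) with c7 | c7
              · rcases le_total q (28/25:ℝ) with c8 | c8
                · rcases le_total B (149/100:ℝ) with c9 | c9
                  · rcases le_total q (53/50:ℝ) with c10 | c10
                    · exact leaf_0 B q (by linarith) (by linarith) (by linarith) (by linarith) h4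
                    · exact leaf_1 B q (by linarith) (by linarith) (by linarith) (by linarith) h4
                  · exact leaf_2 B q (by linarith) (by linarith) (by linarith) (by linarith) h4
                · rcases le_total B (149/100:ℝ) with c9 | c9
                  · exact leaf_3 B q (by linarith) (by linarith) (by linarith) (by linarith) h4
                  · exact leaf_4 B q (by linarith) (by linarith) (by linarith) (by linarith) h4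
              · exact leaf_5 B q (by linarith) (by linarith) (by linarith) (by linarith) h4
            · rcases le_total B (157/100:ℝ) with c7 | c7
              · rcases le_total q (69/50:ℝ) with c8 | c8
                · exact leaf_6 B q (by linarith) (by linarith) (by linarith) (by linarith) h4
                · exact leaf_7 B q (by linarith) (by linarith) (by linarith) (by linarith) h4
              · exact leaf_8 B q (by linarith) (by linarith) (by linarith) (by linarith) h4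
          · rcases le_total q (5/4:ℝ) with c6 | c6
            · rcases le_total B (47/25:ℝ) with c7 | c7
              · exact leaf_9 B q (by linarith) (by linarith) (by linarith) (by linarith) h4
              · exact leaf_10 B q (by linarith) (by linarith) (by linarith) (by linarith) h4
            · rcases le_total B (47/25:ℝ) with c7 | c7
              · exact leaf_11 B q (by linarith) (by linarith) (by linarith) (by linarith) h4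
              · exact leaf_12 B q (by linarith) (by linarith) (by linarith) (by linarith) h4
        · rcases le_total B (173/100:ℝ) with c5 | c5
          · rcases le_total q (7/4:ℝ) with c6 | c6
            · rcases le_total B (157/100:ℝ) with c7 | c7
              · rcases le_total q (81/50:ℝ) with c8 | c8
                · exact leaf_13 B q (by linarith) (by linarith) (by linarith) (by linarith) h4
                · exact leaf_14 B q (by linarith) (by linarith) (by linarith) (by linarith) h4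
              · exact leaf_15 B q (by linarith) (by linarith) (by linarith) (by linarith) h4
            · exact leaf_16 B q (by linarith) (by linarith) (by linarith) (by linarith) h4
          · rcases le_total q (7/4:ℝ) with c6 | c6
            · rcases le_total B (47/25:ℝ) with c7 | c7
              · exact leaf_17 B q (by linarith) (by linarith) (by linarith) (by linarith) h4
              · exact leaf_18 B q (by linarith) (by linarith) (by linarith) (by linarith) h4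
            · exact leaf_19 B q (by linarith) (by linarith) (by linarith) (by linarith) h4
      · rcases le_total q (3/2:ℝ) with c4 | c4
        · rcases le_total B (47/20:ℝ) with c5 | c5
          · rcases le_total q (5/4:ℝ) with c6 | c6
            · exact leaf_20 B q (by linarith) (by linarith) (by linarith) (by linarith) h4
            · exact leaf_21 B q (by linarith) (by linarith) (by linarith) (by linarith) h4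
          · rcases le_total q (5/4:ℝ) with c6 | c6
            · exact leaf_22 B q (by linarith) (by linarith) (by linarith) (by linarith) h4
            · exact leaf_23 B q (by linarith) (by linarith) (by linarith) (by linarith) h4
        · rcases le_total B (47/20:ℝ) with c5 | c5
          · rcases le_total q (7/4:ℝ) with c6 | c6
            · exact leaf_24 B q (by linarith) (by linarith) (by linarith) (by linarith) h4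
            · exact leaf_25 B q (by linarith) (by linarith) (by linarith) (by linarith) h4
          · rcases le_total q (7/4:ℝ) with c6 | c6
            · exact leaf_26 B q (by linarith) (by linarith) (by linarith) (by linarith) h4
            · exact leaf_27 B q (by linarith) (by linarith) (by linarith) (by linarith) h4
    · rcases le_total B (82/25:ℝ) with c3 | c3
      · rcases le_total q (3/2:ℝ) with c4 | c4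
        · rcases le_total B (297/100:ℝ) with c5 | c5
          · rcases le_total q (5/4:ℝ) with c6 | c6
            · exact leaf_28 B q (by linarith) (by linarith) (by linarith) (by linarith) h4
            · exact leaf_29 B q (by linarith) (by linarith) (by linarith) (by linarith) h4
          · exact leaf_30 B q (by linarith) (by linarith) (by linarith) (by linarith) h4
        · rcases le_total B (297/100:ℝ) with c5 | c5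
          · exact leaf_31 B q (by linarith) (by linarith) (by linarith) (by linarith) h4
          · exact leaf_32 B q (by linarith) (by linarith) (by linarith) (by linarith) h4
      · rcases le_total q (3/2:ℝ) with c4 | c4
        · rcases le_total B (18/5:ℝ) with c5 | c5
          · exact leaf_33 B q (by linarith) (by linarith) (by linarith) (by linarith) h4
          · exact leaf_34 B q (by linarith) (by linarith) (by linarith) (by linarith) h4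
        · rcases le_total B (18/5:ℝ) with c5 | c5
          · exact leaf_35 B q (by linarith) (by linarith) (by linarith) (by linarith) h4
          · exact leaf_36 B q (by linarith) (by linarith) (by linarith) (by linarith) h4
  · rcases le_total B (129/25:ℝ) with c2 | c2
    · rcases le_total B (227/50:ℝ) with c3 | c3
      · rcases le_total q (3/2:ℝ) with c4 | c4
        · rcases le_total B (211/50:ℝ) with c5 | c5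
          · exact leaf_37 B q (by linarith) (by linarith) (by linarith) (by linarith) h4
          · exact leaf_38 B q (by linarith) (by linarith) (by linarith) (by linarith) h4
        · rcases le_total B (211/50:ℝ) with c5 | c5
          · exact leaf_39 B q (by linarith) (by linarith) (by linarith) (by linarith) h4
          · exact leaf_40 B q (by linarith) (by linarith) (by linarith) (by linarith) h4
      · rcases le_total q (3/2:ℝ) with c4 | c4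
        · rcases le_total B (97/20:ℝ) with c5 | c5
          · exact leaf_41 B q (by linarith) (by linarith) (by linarith) (by linarith) h4
          · exact leaf_42 B q (by linarith) (by linarith) (by linarith) (by linarith) h4
        · rcases le_total B (97/20:ℝ) with c5 | c5
          · exact leaf_43 B q (by linarith) (by linarith) (by linarith) (by linarith) h4
          · exact leaf_44 B q (by linarith) (by linarith) (by linarith) (by linarith) h4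
    · rcases le_total B (289/50:ℝ) with c3 | c3
      · rcases le_total q (3/2:ℝ) with c4 | c4
        · rcases le_total B (547/100:ℝ) with c5 | c5
          · exact leaf_45 B q (by linarith) (by linarith) (by linarith) (by linarith) h4
          · exact leaf_46 B q (by linarith) (by linarith) (by linarith) (by linarith) h4
        · rcases le_total B (547/100:ℝ) with c5 | c5
          · exact leaf_47 B q (by linarith) (by linarith) (by linarith) (by linarith) h4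
          · exact leaf_48 B q (by linarith) (by linarith) (by linarith) (by linarith) h4
      · rcases le_total q (3/2:ℝ) with c4 | c4
        · rcases le_total B (609/100:ℝ) with c5 | c5
          · exact leaf_49 B q (by linarith) (by linarith) (by linarith) (by linarith) h4
          · exact leaf_50 B q (by linarith) (by linarith) (by linarith) (by linarith) h4
        · rcases le_total B (609/100:ℝ) with c5 | c5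
          · exact leaf_51 B q (by linarith) (by linarith) (by linarith) (by linarith) h4
          · exact leaf_52 B q (by linarith) (by linarith) (by linarith) (by linarith) h4

end Vale.Agent.Lib.P226
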