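import Vale.Agent.Lib.P226.X.Stein
import Vale.Agent.Lib.P226.X.JBoxes

/-!
Closed form for the cubic moment of a linear form on a half-space.
-/

open MeasureTheory ProbabilityTheory Real Set Filter Topology
open scoped RealInnerProductSpace ENNReal NNReal

namespace Vale.Agent.Lib.P226

section OneDimJ

lemma Qf_zero : Qf 0 = 1 / 2 := by
  have h := integral_Ioi_gauss 0 le_rfl
  have e : Qf 0 = cG * ∫ y in Ioi (0 : ℝ), rexp (-(y ^ 2 / 2)) := by
    unfold Qf phi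
    rw [integral_const_mul]
  rw [e, h]
  simp only [intervalIntegral.integral_same, sub_zero]
  have := cG_mul_sqrt
  linarith

lemma hasDerivAt_phi (t : ℝ) : HasDerivAt phi (-t * phi t) t := by
  have h1 : HasDerivAt (fun y : ℝ => -(y ^ 2 / 2)) (-t) t := by
    have := ((hasDerivAt_id t).pow 2).div_const 2 |>.neg
    refine this.congr_deriv ?_
    simp
  have h2 := (h1.exp).const_mul cG
  refine h2.congr_deriv ?_
  unfold phi
  ring

lemma phi_neg (t : ℝ) : phi (-t) = phi t := by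
  unfold phi
  rw [neg_sq]

lemma integrable_pow_gauss (n : ℕ) {b : ℝ} (hb : 0 < b) :
    Integrable (fun t : ℝ => t ^ n * rexp (-b * t ^ 2)) := by
  have h := integrable_rpow_mul_exp_neg_mul_sq hb (s := n) (by
    have : (0 : ℝ) ≤ n := Nat.cast_nonneg n
    linarith)
  refine h.congr (Eventually.of_forall fun y => ?_)
  simp only [rpow_natCast]

lemma integrable_pow_phi (n : ℕ) : Integrable (fun t : ℝ => t ^ n * phi t) := by
  have h := (integrable_pow_gauss n (b := 1 / 2) (by norm_num)).const_mul cG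
  refine h.congr (Eventually.of_forall fun y => ?_)
  simp only [phi]
  have : -(1 / 2 : ℝ) * y ^ 2 = -(y ^ 2 / 2) := by ring
  rw [this]
  ring

lemma tendsto_poly_phi : Tendsto (fun t : ℝ => (t ^ 2 + 2) * phi t) atTop (𝓝 0) := by
  have h1 : Tendsto (fun y : ℝ => y ^ 2 / 2) atTop atTop :=
    (tendsto_pow_atTop (by norm_num)).atTop_div_const (by norm_num)
  have h2 := (tendsto_pow_mul_exp_neg_atTop_nhds_zero 1).comp h1
  have h3 := Real.tendsto_exp_neg_atTop_nhds_zero.comp h1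
  have h4 := ((h2.const_mul (2 : ℝ)).add (h3.const_mul (2 : ℝ))).const_mul cG
  simp only [mul_zero, add_zero] at h4
  refine h4.congr fun t => ?_
  simp only [Function.comp, phi]
  ring

/-- The Gaussian integral on the half line, at rate `c ^ 2 / 2`. -/
lemma integral_gauss_c {c : ℝ} (hc : 0 < c) :
    ∫ t in Ioi (0 : ℝ), rexp (-(c ^ 2 / 2) * t ^ 2) = √(2 * π) / (2 * c) := by
  rw [integral_gaussian_Ioi]
  have e : π / (c ^ 2 / 2) = (2 * π) / c ^ 2 := by field_simp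
  rw [e, Real.sqrt_div (by positivity), Real.sqrt_sq hc.le]
  field_simp

/-- The second moment on the half line, at rate `c ^ 2 / 2`. -/
lemma integral_sq_gauss_c {c : ℝ} (hc : 0 < c) :
    ∫ t in Ioi (0 : ℝ), t ^ 2 * rexp (-(c ^ 2 / 2) * t ^ 2) = √(2 * π) / (2 * c) / c ^ 2 := by
  have hb : 0 < c ^ 2 / 2 := by positivity
  have hderiv : ∀ x ∈ Ici (0 : ℝ), HasDerivAt
      (fun y : ℝ => -(y / c ^ 2) * rexp (-(c ^ 2 / 2) * y ^ 2))
      (x ^ 2 * rexp (-(c ^ 2 / 2) * x ^ 2) - (1 / c ^ 2) * rexp (-(c ^ 2 / 2) * x ^ 2)) x := by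
    intro x _
    have h1 : HasDerivAt (fun y : ℝ => -(c ^ 2 / 2) * y ^ 2) (-(c ^ 2) * x) x := by
      have := ((hasDerivAt_id x).pow 2).const_mul (-(c ^ 2 / 2))
      refine this.congr_deriv ?_
      simp
      ring
    have h2 : HasDerivAt (fun y : ℝ => -(y / c ^ 2)) (-(1 / c ^ 2)) x :=
      ((hasDerivAt_id x).div_const _).neg
    have h3 := h2.mul h1.exp
    refine h3.congr_deriv ?_
    field_simp
    ring
  have hint : IntegrableOn (fun x : ℝ => x ^ 2 * rexp (-(c ^ 2 / 2) * x ^ 2)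
      - (1 / c ^ 2) * rexp (-(c ^ 2 / 2) * x ^ 2)) (Ioi 0) := by
    have h1 := (integrable_pow_gauss 2 hb).integrableOn (s := Ioi (0 : ℝ))
    have h2 := ((integrable_exp_neg_mul_sq hb).const_mul (1 / c ^ 2)).integrableOn (s := Ioi (0 : ℝ))
    exact h1.sub h2
  have hlim : Tendsto (fun y : ℝ => -(y / c ^ 2) * rexp (-(c ^ 2 / 2) * y ^ 2)) atTop (𝓝 0) := by
    have hbig : Tendsto (fun y : ℝ => (c ^ 2 / 2) * y ^ 2) atTop atTop :=
      (tendsto_pow_atTop (by norm_num)).const_mul_atTop hb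
    have h3 : Tendsto (fun y : ℝ => y * rexp (-(c ^ 2 / 2) * y ^ 2)) atTop (𝓝 0) := by
      have h4 := (tendsto_pow_mul_exp_neg_atTop_nhds_zero 1).comp hbig
      have h5 := Real.tendsto_exp_neg_atTop_nhds_zero.comp hbig
      -- `y e^{-b y^2} ≤ (y^2 + 1) e^{-b y^2}` is controlled by the two limits above
      have h6 : Tendsto (fun y : ℝ => (1 / (c ^ 2 / 2)) * (((c ^ 2 / 2) * y ^ 2) ^ 1
          * rexp (-((c ^ 2 / 2) * y ^ 2))) + rexp (-((c ^ 2 / 2) * y ^ 2))) atTop (𝓝 0) := by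
        have := (h4.const_mul (1 / (c ^ 2 / 2))).add h5
        simpa using this
      refine squeeze_zero' ?_ ?_ h6
      · filter_upwards [eventually_ge_atTop 0] with y hy
        positivity
      · filter_upwards [eventually_ge_atTop 0] with y hy
        have e1 : -(c ^ 2 / 2) * y ^ 2 = -((c ^ 2 / 2) * y ^ 2) := by ring
        rw [e1]
        have hexp := exp_pos (-((c ^ 2 / 2) * y ^ 2))
        have : 1 / (c ^ 2 / 2) * ((c ^ 2 / 2) * y ^ 2) ^ 1 = y ^ 2 := by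
          field_simp
        rw [← mul_assoc, this]
        nlinarith [sq_nonneg (y - 1)]
    have h4 := (h3.const_mul (-(1 / c ^ 2)))
    simp only [mul_zero] at h4
    refine h4.congr fun y => ?_
    field_simp
  have h := integral_Ioi_of_hasDerivAt_of_tendsto' hderiv hint hlim
  have h1 := (integrable_pow_gauss 2 hb).integrableOn (s := Ioi (0 : ℝ))
  have h2 := ((integrable_exp_neg_mul_sq hb).const_mul (1 / c ^ 2)).integrableOn (s := Ioi (0 : ℝ))
  rw [integral_sub h1 h2, integral_const_mul, integral_gauss_c hc] at h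
  simp only [neg_zero, zero_div, zero_mul, sub_zero] at h
  have : ∫ t in Ioi (0 : ℝ), t ^ 2 * rexp (-(c ^ 2 / 2) * t ^ 2) =
      (1 / c ^ 2) * (√(2 * π) / (2 * c)) := by linarith
  rw [this]
  field_simp

/-- The product of two Gaussian densities. -/
lemma phi_mul_phi (w t : ℝ) :
    phi t * phi (w * t) = cG ^ 2 * rexp (-((√(1 + w ^ 2)) ^ 2 / 2) * t ^ 2) := by
  have hs : (√(1 + w ^ 2)) ^ 2 = 1 + w ^ 2 := Real.sq_sqrt (by positivity)
  rw [hs]
  unfold phi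
  have : rexp (-(t ^ 2 / 2)) * rexp (-((w * t) ^ 2 / 2)) = rexp (-((1 + w ^ 2) / 2) * t ^ 2) := by
    rw [← exp_add]
    congr 1
    ring
  calc cG * rexp (-(t ^ 2 / 2)) * (cG * rexp (-((w * t) ^ 2 / 2)))
      = cG ^ 2 * (rexp (-(t ^ 2 / 2)) * rexp (-((w * t) ^ 2 / 2))) := by ring
    _ = _ := by rw [this]

/-- The key one-dimensional integral. -/
theorem integral_cube_phi_Q (w : ℝ) :
    ∫ t in Ioi (0 : ℝ), t ^ 3 * phi t * Qf (-(w * t)) =
      cG * (1 + w / (2 * √(1 + w ^ 2)) * (1 / (√(1 + w ^ 2)) ^ 2 + 2)) := by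
  set c := √(1 + w ^ 2) with hc_def
  have hc : 0 < c := Real.sqrt_pos.mpr (by positivity)
  have hb : 0 < c ^ 2 / 2 := by positivity
  -- derivative of the composite tail
  have hR : ∀ t : ℝ, HasDerivAt (fun s : ℝ => Qf (-(w * s))) (w * phi (w * t)) t := by
    intro t
    have h1 : HasDerivAt (fun s : ℝ => -(w * s)) (-w) t := by
      have := ((hasDerivAt_id t).const_mul w).fun_neg
      simpa using this
    have h2 := (hasDerivAt_Qf (-(w * t))).comp t h1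
    refine h2.congr_deriv ?_
    rw [phi_neg]
    ring
  -- the antiderivative
  have hderiv : ∀ x ∈ Ici (0 : ℝ), HasDerivAt
      (fun t : ℝ => -((t ^ 2 + 2) * phi t) * Qf (-(w * t)))
      (x ^ 3 * phi x * Qf (-(w * x)) - (x ^ 2 + 2) * (w * (phi x * phi (w * x)))) x := by
    intro x _
    have h1 : HasDerivAt (fun t : ℝ => t ^ 2 + 2) (2 * x) x := by
      have := ((hasDerivAt_id x).pow 2).add_const 2
      simpa using this
    have h2 := ((h1.fun_mul (hasDerivAt_phi x)).fun_neg).fun_mul (hR x)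
    refine h2.congr_deriv ?_
    ring
  have hQ_bound : ∀ t : ℝ, ‖Qf (-(w * t))‖ ≤ 1 := fun t => by
    rw [Real.norm_of_nonneg (Qf_nonneg _)]
    exact Qf_le_one _
  have hcontQ : Continuous (fun t : ℝ => Qf (-(w * t))) := continuous_Qf.comp (by fun_prop)
  have hi1 : Integrable (fun x : ℝ => x ^ 3 * phi x * Qf (-(w * x))) := by
    refine (integrable_pow_phi 3).mul_bdd (c := 1) ?_ ?_
    · exact hcontQ.aestronglyMeasurable
    · exact ae_of_all _ hQ_bound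
  have hee : ∀ x : ℝ, phi x * phi (w * x) = cG ^ 2 * rexp (-(c ^ 2 / 2) * x ^ 2) := phi_mul_phi w
  have hi2 : Integrable (fun x : ℝ => (x ^ 2 + 2) * (w * (phi x * phi (w * x)))) := by
    have h1 := ((integrable_pow_gauss 2 hb).const_mul (w * cG ^ 2)).add
      ((integrable_exp_neg_mul_sq hb).const_mul (2 * (w * cG ^ 2)))
    refine h1.congr (Eventually.of_forall fun x => ?_)
    simp only [Pi.add_apply]
    rw [hee]
    ring
  have hint := (hi1.sub hi2).integrableOn (s := Ioi (0 : ℝ))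
  have hlim : Tendsto (fun t : ℝ => -((t ^ 2 + 2) * phi t) * Qf (-(w * t))) atTop (𝓝 0) := by
    refine squeeze_zero_norm (a := fun t : ℝ => (t ^ 2 + 2) * phi t) (fun t => ?_) tendsto_poly_phi
    rw [norm_mul, norm_neg, Real.norm_of_nonneg (mul_nonneg (by positivity) (phi_nonneg t))]
    exact mul_le_of_le_one_right (mul_nonneg (by positivity) (phi_nonneg t)) (hQ_bound t)
  have h := integral_Ioi_of_hasDerivAt_of_tendsto' hderiv hint hlim
  rw [integral_sub hi1.integrableOn hi2.integrableOn] at h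
  have hval0 : -(((0 : ℝ) ^ 2 + 2) * phi 0) * Qf (-(w * 0)) = -cG := by
    have : phi 0 = cG := by unfold phi; simp
    rw [this]
    simp only [mul_zero, neg_zero, Qf_zero]
    ring
  rw [hval0] at h
  -- second integral
  have hsecond : ∫ x in Ioi (0 : ℝ), (x ^ 2 + 2) * (w * (phi x * phi (w * x))) =
      cG * (w / (2 * c) * (1 / c ^ 2 + 2)) := by
    have h1 : ∀ x : ℝ, (x ^ 2 + 2) * (w * (phi x * phi (w * x))) =
        (w * cG ^ 2) * (x ^ 2 * rexp (-(c ^ 2 / 2) * x ^ 2))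
          + (2 * (w * cG ^ 2)) * rexp (-(c ^ 2 / 2) * x ^ 2) := by
      intro x
      rw [hee]
      ring
    simp_rw [h1]
    rw [integral_add (((integrable_pow_gauss 2 hb).const_mul _).integrableOn)
      (((integrable_exp_neg_mul_sq hb).const_mul _).integrableOn), integral_const_mul,
      integral_const_mul, integral_sq_gauss_c hc, integral_gauss_c hc]
    have hk := cG_mul_sqrt
    have e : cG ^ 2 * √(2 * π) = cG := by
      calc cG ^ 2 * √(2 * π) = cG * (cG * √(2 * π)) := by ring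
        _ = cG := by rw [hk, mul_one]
    have e2 : w * cG ^ 2 * (√(2 * π) / (2 * c) / c ^ 2) =
        (cG ^ 2 * √(2 * π)) * (w / (2 * c) * (1 / c ^ 2)) := by
      field_simp
    have e3 : 2 * (w * cG ^ 2) * (√(2 * π) / (2 * c)) =
        (cG ^ 2 * √(2 * π)) * (w / (2 * c) * 2) := by
      field_simp
    rw [e2, e3, e]
    ring
  rw [hsecond] at h
  have : ∫ t in Ioi (0 : ℝ), t ^ 3 * phi t * Qf (-(w * t)) =
      cG + cG * (w / (2 * c) * (1 / c ^ 2 + 2)) := by linarith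
  rw [this]
  ring

end OneDimJ

section EForm

variable {E : Type*} [NormedAddCommGroup E] [InnerProductSpace ℝ E] [FiniteDimensional ℝ E]
  [MeasurableSpace E] [BorelSpace E]

lemma integral_ite_gauss (u : ℝ) :
    ∫ t, (if u < t then (1 : ℝ) else 0) ∂(gaussianReal 0 1) = Qf u := by
  rw [integral_gaussianReal_eq_integral_smul one_ne_zero]
  unfold Qf
  rw [← integral_indicator measurableSet_Ioi]
  congr 1
  ext t
  by_cases h : u < t
  · simp [indicator, h, phi_eq_pdf]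
  · simp [indicator, h]

lemma integrable_cube_pos (α : E) :
    Integrable (fun x : E => (max ⟪α, x⟫ 0) ^ 3) (stdGaussian E) := by
  by_cases hα : α = 0
  · subst hα
    simp
  have hν : 0 < ‖α‖ := norm_pos_iff.mpr hα
  set e : E := ‖α‖⁻¹ • α with he_def
  have he : ‖e‖ = 1 := by
    rw [he_def, norm_smul, Real.norm_of_nonneg (by positivity)]
    field_simp
  have hαx : ∀ x : E, ⟪α, x⟫ = ‖α‖ * ⟪e, x⟫ := by
    intro x
    rw [he_def, inner_smul_left]
    simp only [conj_trivial]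
    field_simp
  have h0 := (integrable_exp_inner e he ‖α‖).const_mul 6
  refine h0.mono' ?_ ?_
  · have : Continuous (fun x : E => (max ⟪α, x⟫ 0) ^ 3) := by fun_prop
    exact this.aestronglyMeasurable
  · refine ae_of_all _ fun x => ?_
    rw [← hαx x, Real.norm_of_nonneg (by positivity)]
    rcases le_total ⟪α, x⟫ 0 with h | h
    · rw [max_eq_right h]
      have := exp_pos ⟪α, x⟫
      norm_num
      linarith
    · rw [max_eq_left h]
      have := Real.pow_div_factorial_le_exp ⟪α, x⟫ h 3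
      norm_num [Nat.factorial] at this
      linarith

/-- Closed form for `E[⟪α,x⟫₊³ ; ⟪b,x⟫>0]`. -/
theorem J_formula (α b : E) (hb : b ≠ 0) (hαb : ⟪α, b⟫ ^ 2 < ‖α‖ ^ 2 * ‖b‖ ^ 2) :
    ∫ x in {x : E | 0 < ⟪b, x⟫}, (max ⟪α, x⟫ 0) ^ 3 ∂(stdGaussian E) =
      cG * (‖α‖ ^ 3 + (3 / 2) * ‖α‖ ^ 2 * (⟪α, b⟫ / ‖b‖) - (1 / 2) * (⟪α, b⟫ / ‖b‖) ^ 3) := by
  have hα : α ≠ 0 := by
    rintro rfl
    simp at hαb
  have hν : 0 < ‖α‖ := norm_pos_iff.mpr hα
  have hβ : 0 < ‖b‖ := norm_pos_iff.mpr hb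
  set ν := ‖α‖ with hν_def
  set β := ‖b‖ with hβ_def
  obtain ⟨e, he_def⟩ : ∃ e : E, e = ν⁻¹ • α := ⟨_, rfl⟩
  have he : ‖e‖ = 1 := by
    rw [he_def, norm_smul, Real.norm_of_nonneg (by positivity), ← hν_def]
    field_simp
  have hαe : ⟪α, e⟫ = ν := by
    rw [he_def, inner_smul_right, real_inner_self_eq_norm_sq, ← hν_def]
    field_simp
  have hαx : ∀ x : E, ⟪α, x⟫ = ν * ⟪e, x⟫ := by
    intro x
    rw [he_def, inner_smul_left]
    simp only [conj_trivial]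
    field_simp
  obtain ⟨κ, hκ_def⟩ : ∃ κ : ℝ, κ = ⟪b, e⟫ := ⟨_, rfl⟩
  have hκ : κ = ⟪α, b⟫ / ν := by
    rw [hκ_def, he_def, inner_smul_right, real_inner_comm]
    field_simp
  obtain ⟨b₁, hb₁_def⟩ : ∃ b₁ : E, b₁ = b - κ • e := ⟨_, rfl⟩
  have hee : ⟪e, e⟫ = 1 := by rw [real_inner_self_eq_norm_sq, he]; norm_num
  have hb₁sq : ‖b₁‖ ^ 2 = β ^ 2 - κ ^ 2 := by
    rw [hb₁_def, @norm_sub_sq_real, norm_smul, he, inner_smul_right, ← hκ_def, ← hβ_def]
    simp only [Real.norm_eq_abs, mul_one, sq_abs]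
    ring
  have hκlt : κ ^ 2 < β ^ 2 := by
    rw [hκ, div_pow, div_lt_iff₀ (by positivity)]
    linarith
  have hμpos : 0 < ‖b₁‖ := by
    have : 0 < ‖b₁‖ ^ 2 := by rw [hb₁sq]; linarith
    have h0 : ‖b₁‖ ≠ 0 := by
      intro h
      rw [h] at this
      norm_num at this
    exact lt_of_le_of_ne (norm_nonneg _) (Ne.symm h0)
  obtain ⟨μ, hμ_def⟩ : ∃ μ : ℝ, μ = ‖b₁‖ := ⟨_, rfl⟩
  rw [← hμ_def] at hb₁sq hμpos
  obtain ⟨f, hf_def⟩ : ∃ f : E, f = μ⁻¹ • b₁ := ⟨_, rfl⟩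
  have hf : ‖f‖ = 1 := by
    rw [hf_def, norm_smul, Real.norm_of_nonneg (by positivity), ← hμ_def]
    field_simp
  have hαb₁ : ⟪α, b₁⟫ = 0 := by
    rw [hb₁_def, inner_sub_right, inner_smul_right, hαe, hκ]
    field_simp
    ring
  have hαf : ⟪α, f⟫ = 0 := by
    rw [hf_def, inner_smul_right, hαb₁, mul_zero]
  have hbdecomp : b = κ • e + μ • f := by
    rw [hf_def, smul_smul, mul_inv_cancel₀ hμpos.ne', one_smul, hb₁_def]
    abel
  have hef : ⟪e, b₁⟫ = 0 := by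
    rw [hb₁_def, inner_sub_right, inner_smul_right, hee, real_inner_comm, ← hκ_def]
    ring
  have hef' : ⟪f, e⟫ = 0 := by
    rw [real_inner_comm, hf_def, inner_smul_right, hef, mul_zero]
  have hff : ⟪f, f⟫ = 1 := by rw [real_inner_self_eq_norm_sq, hf]; norm_num
  have hbf : ⟪b, f⟫ = μ := by
    conv_lhs => rw [hbdecomp]
    rw [inner_add_left, inner_smul_left, inner_smul_left, hff, real_inner_comm f e, hef'] 
    simp
  have hbx : ∀ x : E, ⟪b, x⟫ = κ * ⟪e, x⟫ + μ * ⟪f, x⟫ := by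
    intro x
    conv_lhs => rw [hbdecomp]
    rw [inner_add_left, inner_smul_left, inner_smul_left]
    simp
  set F : E → ℝ := fun x => if 0 < ⟪b, x⟫ then (max ⟪α, x⟫ 0) ^ 3 else 0 with hF_def
  have hset : MeasurableSet {x : E | 0 < ⟪b, x⟫} := measurableSet_lt measurable_const (by fun_prop)
  have hFind : F = ({x : E | 0 < ⟪b, x⟫}).indicator (fun x => (max ⟪α, x⟫ 0) ^ 3) := by
    ext x
    simp [hF_def, indicator]
  have hFint : Integrable F (stdGaussian E) := by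
    rw [hFind]
    exact (integrable_cube_pos α).indicator hset
  have hstart : ∫ x in {x : E | 0 < ⟪b, x⟫}, (max ⟪α, x⟫ 0) ^ 3 ∂(stdGaussian E) =
      ∫ x, F x ∂(stdGaussian E) := by
    rw [hFind, integral_indicator hset]
  set w := κ / μ with hw_def
  have hinner : ∀ y : E, ∫ t, F (splitMap f (t, y)) ∂(gaussianReal 0 1) =
      (max ⟪α, y⟫ 0) ^ 3 * Qf (-(w * ⟪e, y⟫)) := by
    intro y
    rw [← integral_ite_gauss, ← integral_const_mul]
    apply integral_congr_ae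
    refine ae_of_all _ fun t => ?_
    have h1 : ⟪α, splitMap f (t, y)⟫ = ⟪α, y⟫ := by
      rw [inner_splitMap, hαf]
      ring
    have h2 : ⟪b, splitMap f (t, y)⟫ = κ * ⟪e, y⟫ + μ * t := by
      rw [inner_splitMap, hbf, hbx y]
      ring
    have h3 : (0 < κ * ⟪e, y⟫ + μ * t) ↔ (-(w * ⟪e, y⟫) < t) := by
      have h4 : κ * ⟪e, y⟫ + μ * t = μ * (t + w * ⟪e, y⟫) := by
        rw [hw_def]
        field_simp
        ring
      rw [h4]
      constructor
      · intro h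
        have := (mul_pos_iff_of_pos_left hμpos).mp h
        linarith
      · intro h
        exact mul_pos hμpos (by linarith)
    simp only [hF_def, h1, h2, h3]
    split_ifs <;> simp
  have hmain : ∫ x, F x ∂(stdGaussian E) =
      ν ^ 3 * ∫ s in Ioi (0 : ℝ), s ^ 3 * phi s * Qf (-(w * s)) := by
    rw [integral_split f hf F hFint]
    simp_rw [hinner]
    set G : ℝ → ℝ := fun s => (max (ν * s) 0) ^ 3 * Qf (-(w * s)) with hG_def
    have hGc : Continuous G := by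
      have : Continuous (fun s : ℝ => Qf (-(w * s))) := continuous_Qf.comp (by fun_prop)
      rw [hG_def]
      fun_prop
    have e1 : ∫ y, (max ⟪α, y⟫ 0) ^ 3 * Qf (-(w * ⟪e, y⟫)) ∂(stdGaussian E) =
        ∫ y, G (innerSL ℝ e y) ∂(stdGaussian E) := by
      apply integral_congr_ae
      refine ae_of_all _ fun y => ?_
      simp only [hG_def, innerSL_apply_apply]
      rw [hαx y]
    rw [e1, ← integral_map (φ := innerSL ℝ e) (by fun_prop) hGc.aestronglyMeasurable,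
      map_inner_unit e he, integral_gaussianReal_eq_integral_smul one_ne_zero,
      ← setIntegral_eq_integral_of_forall_compl_eq_zero (s := Ioi (0 : ℝ)), ← integral_const_mul]
    · apply setIntegral_congr_fun measurableSet_Ioi
      intro s hs
      have hs' : (0 : ℝ) < s := hs
      simp only [hG_def, smul_eq_mul, ← phi_eq_pdf]
      rw [max_eq_left (by positivity)]
      ring
    · intro s hs
      have hs' : s ≤ 0 := not_lt.mp hs
      simp only [hG_def, smul_eq_mul]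
      rw [max_eq_right (mul_nonpos_of_nonneg_of_nonpos hν.le hs')]
      simp
  rw [hstart, hmain, integral_cube_phi_Q]
  -- algebra
  have hc : √(1 + w ^ 2) = β / μ := by
    have h1 : 1 + w ^ 2 = (β / μ) ^ 2 := by
      rw [hw_def, div_pow, div_pow, hb₁sq]
      have : β ^ 2 - κ ^ 2 ≠ 0 := by
        have : 0 < β ^ 2 - κ ^ 2 := by linarith
        exact this.ne'
      field_simp
      ring
    rw [h1, Real.sqrt_sq (by positivity)]
  rw [hc]
  set η := ⟪α, b⟫ / β with hη_def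
  have hκη : κ / β = η / ν := by
    rw [hκ, hη_def]
    field_simp
  have e1 : w / (2 * (β / μ)) = (1 / 2) * (κ / β) := by
    rw [hw_def]
    field_simp
  have e2 : 1 / (β / μ) ^ 2 = 1 - (κ / β) ^ 2 := by
    have : μ ^ 2 = β ^ 2 - κ ^ 2 := hb₁sq
    rw [div_pow, div_pow, one_div_div, this]
    field_simp
  rw [e1, e2, hκη]
  field_simp
  ring

end EForm

section TNum

/-- From the tangents to the bound by `gfun`. -/
lemma le_gfun {B q ν u m t : ℝ} (hu : 0 ≤ u) (hm : 0 < m) (ht : 0 < t)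
    (hν2 : ν ^ 2 = B ^ 2 + 16 - 8 * q) (hu2 : u ^ 2 = B ^ 2 + 1 - 2 * q) :
    ν ^ 3 - 64 * u ^ 3 + 63 * B ^ 3 - 180 * q * B + 72 * B + 72 * q ^ 2 / B ≤ gfun m t B q := by
  have h1 : ν ^ 3 ≤ (B ^ 2 + 16 - 8 * q) * ((B ^ 2 + 16 - 8 * q) + m ^ 2) / (2 * m) := by
    rw [← hν2, le_div_iff₀ (by positivity)]
    have : 0 ≤ ν ^ 2 * (ν - m) ^ 2 := by positivity
    nlinarith
  have h2 : (3 / 2) * t * (B ^ 2 + 1 - 2 * q) - t ^ 3 / 2 ≤ u ^ 3 := by
    rw [← hu2]
    have : 0 ≤ (u - t) ^ 2 * (u + t / 2) := by positivity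
    nlinarith
  unfold gfun
  linarith

/-- The numerical heart of the two-term bound. -/
theorem T_num {B q ν u : ℝ} (hB : 0 < B) (hq1 : 1 ≤ q) (hq2 : q ≤ 2) (hBq : 2 * q ≤ B ^ 2)
    (hu : 0 ≤ u) (hν2 : ν ^ 2 = B ^ 2 + 16 - 8 * q)
    (hu2 : u ^ 2 = B ^ 2 + 1 - 2 * q) :
    ν ^ 3 - 64 * u ^ 3 + 63 * B ^ 3 - 180 * q * B + 72 * B + 72 * q ^ 2 / B ≤ 45 := by
  rcases le_total B (32 / 5) with hle | hle
  · have hB1 : (1414 / 1000 : ℝ) ≤ B := by nlinarith
    obtain ⟨m, t, hm, ht, hg⟩ := exists_gfun B q hB1 hle hq1 hq2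
    exact (le_gfun hu hm ht hν2 hu2).trans hg
  · -- large `B`
    have hD : 0 ≤ 8 - 4 * q := by linarith
    set m := B + (8 - 4 * q) / B with hm_def
    have hm0 : 0 ≤ m := by positivity
    have hνm : ν ≤ m := by
      have : ν ^ 2 ≤ m ^ 2 := by
        rw [hν2, hm_def]
        have e : (B + (8 - 4 * q) / B) ^ 2 = B ^ 2 + 16 - 8 * q + ((8 - 4 * q) / B) ^ 2 := by
          field_simp
          ring
        rw [e]
        nlinarith [sq_nonneg ((8 - 4 * q) / B)]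
      exact abs_le_of_sq_le_sq' this hm0 |>.2
    have h1 : ν ^ 3 ≤ m * (B ^ 2 + 16 - 8 * q) := by
      have e : ν ^ 3 = ν * ν ^ 2 := by ring
      rw [e, hν2]
      exact mul_le_mul_of_nonneg_right hνm (by rw [← hν2]; positivity)
    have h2 : (3 / 2) * B * (B ^ 2 + 1 - 2 * q) - B ^ 3 / 2 ≤ u ^ 3 := by
      rw [← hu2]
      have : 0 ≤ (u - B) ^ 2 * (u + B / 2) := by positivity
      nlinarith
    have h3 : m * (B ^ 2 + 16 - 8 * q) - 64 * ((3 / 2) * B * (B ^ 2 + 1 - 2 * q) - B ^ 3 / 2)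
        + 63 * B ^ 3 - 180 * q * B + 72 * B + 72 * q ^ 2 / B
        = (32 * (2 - q) ^ 2 + 72 * q ^ 2) / B := by
      rw [hm_def]
      field_simp
      ring
    have h4 : (32 * (2 - q) ^ 2 + 72 * q ^ 2) / B ≤ 45 := by
      rw [div_le_iff₀ hB]
      nlinarith [mul_nonneg (by linarith : 0 ≤ q - 1) (by linarith : 0 ≤ 2 - q)]
    linarith

end TNum

section TBound

variable {E : Type*} [NormedAddCommGroup E] [InnerProductSpace ℝ E] [FiniteDimensional ℝ E]
  [MeasurableSpace E] [BorelSpace E]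

/-- The two-term bound: with `a = u_l`, `b = u₄`, `⟪a,b⟫≤0`, `‖a‖≤‖b‖`. -/
theorem T_bound (a b : E) (hab : ⟪a, b⟫ ≤ 0) (hab1 : -⟪a, b⟫ ≤ ‖a‖ ^ 2) (hle : ‖a‖ ≤ ‖b‖) (ha : a ≠ 0)
    (hind : ⟪a, b⟫ ^ 2 < ‖a‖ ^ 2 * ‖b‖ ^ 2) :
    (∫ x in {x : E | ⟪b, x⟫ < ⟪a, x⟫}, (max (3 * ⟪a, x⟫ + ⟪b, x⟫) 0) ^ 3 ∂(stdGaussian E))
      - (∫ x in {x : E | ⟪b, x⟫ < ⟪a, x⟫}, (max (4 * ⟪b, x⟫) 0) ^ 3 ∂(stdGaussian E))
      ≤ 45 * cG * ‖a‖ ^ 3 := by
  have hA : 0 < ‖a‖ := norm_pos_iff.mpr ha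
  obtain ⟨A, hA_def⟩ : ∃ A : ℝ, A = ‖a‖ := ⟨_, rfl⟩
  obtain ⟨L, hL_def⟩ : ∃ L : ℝ, L = ‖b‖ := ⟨_, rfl⟩
  obtain ⟨C, hC_def⟩ : ∃ C : ℝ, C = -⟪a, b⟫ := ⟨_, rfl⟩
  rw [← hA_def] at hA hle hab1 hind ⊢
  rw [← hL_def] at hle hind
  have hiab : ⟪a, b⟫ = -C := by rw [hC_def]; ring
  rw [hiab] at hind hab1 hab
  have hC0 : 0 ≤ C := by linarith
  have hL0 : 0 < L := lt_of_lt_of_le hA hle
  have hCsq : C ^ 2 < A ^ 2 * L ^ 2 := by nlinarith
  -- the vectors
  obtain ⟨b', hb'⟩ : ∃ b' : E, b' = a - b := ⟨_, rfl⟩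
  obtain ⟨α, hα⟩ : ∃ α : E, α = (3 : ℝ) • a + b := ⟨_, rfl⟩
  obtain ⟨α₂, hα₂⟩ : ∃ α₂ : E, α₂ = (4 : ℝ) • b := ⟨_, rfl⟩
  have haa : ⟪a, a⟫ = A ^ 2 := by rw [real_inner_self_eq_norm_sq, hA_def]
  have hbb : ⟪b, b⟫ = L ^ 2 := by rw [real_inner_self_eq_norm_sq, hL_def]
  have hba : ⟪b, a⟫ = -C := by rw [real_inner_comm, hiab]
  have nb' : ‖b'‖ ^ 2 = A ^ 2 + L ^ 2 + 2 * C := by
    rw [← real_inner_self_eq_norm_sq, hb', inner_sub_left, inner_sub_right, inner_sub_right, haa, hbb,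
      hiab, hba]
    ring
  have nα : ‖α‖ ^ 2 = 9 * A ^ 2 + L ^ 2 - 6 * C := by
    rw [← real_inner_self_eq_norm_sq, hα, inner_add_left, inner_add_right, inner_add_right,
      inner_smul_left, inner_smul_right, inner_smul_left, inner_smul_right, haa, hbb, hiab, hba]
    simp only [conj_trivial]
    ring
  have nα₂ : ‖α₂‖ = 4 * L := by
    rw [hα₂, norm_smul, ← hL_def]
    norm_num
  have iα : ⟪α, b'⟫ = 3 * A ^ 2 + 2 * C - L ^ 2 := by
    rw [hα, hb']
    simp only [inner_add_left, inner_sub_right, inner_smul_left, conj_trivial]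
    rw [haa, hbb, hiab, hba]
    ring
  have iα₂ : ⟪α₂, b'⟫ = -4 * C - 4 * L ^ 2 := by
    rw [hα₂, hb', inner_smul_left, inner_sub_right, hbb, hba]
    simp only [conj_trivial]
    ring
  have hD2pos : 0 < ‖b'‖ ^ 2 := by rw [nb']; positivity
  have hb'ne : b' ≠ 0 := by
    rintro h
    rw [h] at hD2pos
    simp at hD2pos
  have hD : 0 < ‖b'‖ := norm_pos_iff.mpr hb'ne
  obtain ⟨D, hD_def⟩ : ∃ D : ℝ, D = ‖b'‖ := ⟨_, rfl⟩
  rw [← hD_def] at nb' hD2pos hD
  obtain ⟨N, hN_def⟩ : ∃ N : ℝ, N = ‖α‖ := ⟨_, rfl⟩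
  rw [← hN_def] at nα
  have hN0 : 0 ≤ N := by rw [hN_def]; exact norm_nonneg _
  -- rewriting the integrals
  have s1 : {x : E | ⟪b, x⟫ < ⟪a, x⟫} = {x : E | 0 < ⟪b', x⟫} := by
    ext x
    simp only [Set.mem_ofPred_eq, hb', inner_sub_left]
    constructor <;> intro h <;> linarith
  have f1 : ∀ x : E, 3 * ⟪a, x⟫ + ⟪b, x⟫ = ⟪α, x⟫ := by
    intro x
    rw [hα, inner_add_left, inner_smul_left]
    simp
  have f2 : ∀ x : E, 4 * ⟪b, x⟫ = ⟪α₂, x⟫ := by
    intro x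
    rw [hα₂, inner_smul_left]
    simp
  simp_rw [s1, f1, f2]
  have g1 : ⟪α, b'⟫ ^ 2 < ‖α‖ ^ 2 * ‖b'‖ ^ 2 := by
    rw [← hN_def, ← hD_def, nα, nb', iα]
    nlinarith
  have g2 : ⟪α₂, b'⟫ ^ 2 < ‖α₂‖ ^ 2 * ‖b'‖ ^ 2 := by
    rw [nα₂, ← hD_def, nb', iα₂]
    nlinarith
  rw [J_formula α b' hb'ne g1, J_formula α₂ b' hb'ne g2, nα₂, iα, iα₂, ← hN_def, ← hD_def]
  -- normalisation
  have hA2 : 0 < A ^ 2 := by positivity
  obtain ⟨B, hB_def⟩ : ∃ B : ℝ, B = D / A := ⟨_, rfl⟩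
  obtain ⟨q, hq_def⟩ : ∃ q : ℝ, q = 1 + C / A ^ 2 := ⟨_, rfl⟩
  obtain ⟨u, hu_def⟩ : ∃ u : ℝ, u = L / A := ⟨_, rfl⟩
  obtain ⟨ν, hν_def⟩ : ∃ ν : ℝ, ν = N / A := ⟨_, rfl⟩
  have hBpos : 0 < B := by rw [hB_def]; positivity
  have hB2 : B ^ 2 = 1 + (L / A) ^ 2 + 2 * (C / A ^ 2) := by
    rw [hB_def, div_pow, nb']
    field_simp
  have hu2 : u ^ 2 = B ^ 2 + 1 - 2 * q := by
    rw [hu_def, hB2, hq_def]
    ring
  have hν2 : ν ^ 2 = B ^ 2 + 16 - 8 * q := by
    rw [hν_def, div_pow, nα, hB2, hq_def]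
    field_simp
    ring
  have hq1 : 1 ≤ q := by
    rw [hq_def]
    have : 0 ≤ C / A ^ 2 := by positivity
    linarith
  have hq2 : q ≤ 2 := by
    rw [hq_def]
    have : C / A ^ 2 ≤ 1 := by
      rw [div_le_one hA2]
      linarith
    linarith
  have hu1 : 1 ≤ u := by
    rw [hu_def, one_le_div hA]
    exact hle
  have hBq : 2 * q ≤ B ^ 2 := by nlinarith
  have hnum := T_num hBpos hq1 hq2 hBq (by linarith) hν2 hu2
  have cG0 := cG_pos
  have eN : N = A * ν := by rw [hν_def]; field_simp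
  have eL : L = A * u := by rw [hu_def]; field_simp
  have eD : D = A * B := by rw [hB_def]; field_simp
  have eC : C = A ^ 2 * (q - 1) := by rw [hq_def]; field_simp; ring
  have e1 : (3 * A ^ 2 + 2 * C - L ^ 2) / D = A * ((4 * q - B ^ 2) / B) := by
    rw [eD, eC, eL, show (A * u) ^ 2 = A ^ 2 * u ^ 2 by ring, hu2]
    field_simp
    ring
  have e2 : (-4 * C - 4 * L ^ 2) / D = A * ((4 * q - 4 * B ^ 2) / B) := by
    rw [eD, eC, eL, show (A * u) ^ 2 = A ^ 2 * u ^ 2 by ring, hu2]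
    field_simp
    ring
  rw [e1, e2, eN, eL]
  have hfinal : (A * ν) ^ 3 + 3 / 2 * (A * ν) ^ 2 * (A * ((4 * q - B ^ 2) / B))
        - 1 / 2 * (A * ((4 * q - B ^ 2) / B)) ^ 3
      - ((4 * (A * u)) ^ 3 + 3 / 2 * (4 * (A * u)) ^ 2 * (A * ((4 * q - 4 * B ^ 2) / B))
        - 1 / 2 * (A * ((4 * q - 4 * B ^ 2) / B)) ^ 3) =
      A ^ 3 * (ν ^ 3 - 64 * u ^ 3 + 63 * B ^ 3 - 180 * q * B + 72 * B + 72 * q ^ 2 / B) := by
    have e3 : (A * ν) ^ 2 = A ^ 2 * (B ^ 2 + 16 - 8 * q) := by rw [mul_pow, hν2]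
    have e4 : (4 * (A * u)) ^ 2 = 16 * A ^ 2 * (B ^ 2 + 1 - 2 * q) := by
      rw [show (4 * (A * u)) ^ 2 = 16 * A ^ 2 * u ^ 2 by ring, hu2]
    rw [e3, e4]
    field_simp
    ring
  have hA3 : 0 < A ^ 3 := by positivity
  have := mul_le_mul_of_nonneg_left hnum hA3.le
  calc _ = cG * (A ^ 3 * (ν ^ 3 - 64 * u ^ 3 + 63 * B ^ 3 - 180 * q * B + 72 * B + 72 * q ^ 2 / B)) := by
        rw [← hfinal]
        ring
    _ ≤ cG * (A ^ 3 * 45) := mul_le_mul_of_nonneg_left this cG0.le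
    _ = 45 * cG * A ^ 3 := by ring

end TBound

end Vale.Agent.Lib.P226
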