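import Vale.Agent.Lib.P226.X.Criteria
import Vale.Agent.Lib.P226.X.JForm

/-!
The triple criterion.
-/

open MeasureTheory ProbabilityTheory Real Set Filter
open scoped RealInnerProductSpace ENNReal

namespace Vale.Agent.Lib.P226

variable {E : Type*} [NormedAddCommGroup E] [InnerProductSpace ℝ E] [FiniteDimensional ℝ E]
  [MeasurableSpace E] [BorelSpace E]

variable {S : Finset ℕ} {u : ℕ → E} {i j r t : ℕ}

/-- `∫_{0 < w < B} (1/2) (A - 3 w)₊²`. -/
lemma hasDerivAt_V1 (A w : ℝ) :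
    HasDerivAt (fun w : ℝ => -((max (A - 3 * w) 0) ^ 3 / 18))
      ((1 / 2) * (max (A - 3 * w) 0) ^ 2) w := by
  have h1 : HasDerivAt (fun w : ℝ => A - 3 * w) (-3) w := by
    have := ((hasDerivAt_id w).const_mul 3).const_sub A
    simpa using this
  have h2 := (hasDerivAt_maxpow 1 (A - 3 * w)).comp w h1
  have h3 := (h2.div_const 18).neg
  refine h3.congr_deriv ?_
  push_cast
  ring

lemma continuous_V1 (A : ℝ) : Continuous fun w : ℝ => (1 / 2) * (max (A - 3 * w) 0) ^ 2 := by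
  fun_prop

lemma integrableOn_V1 (A B : ℝ) :
    IntegrableOn (fun w : ℝ => if w < B then (1 / 2) * (max (A - 3 * w) 0) ^ 2 else 0) (Ioi 0) := by
  have hf : (fun w : ℝ => if w < B then (1 / 2) * (max (A - 3 * w) 0) ^ 2 else 0)
      = (Iio B).indicator fun w => (1 / 2) * (max (A - 3 * w) 0) ^ 2 := by
    ext w
    simp [Set.indicator_apply]
  rw [hf, IntegrableOn, integrable_indicator_iff measurableSet_Iio, IntegrableOn,
    Measure.restrict_restrict measurableSet_Iio]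
  have hc := (continuous_V1 A).continuousOn (s := Icc 0 B)
  have := hc.integrableOn_compact isCompact_Icc (μ := volume)
  refine this.mono_set ?_
  intro w hw
  exact ⟨le_of_lt hw.2, le_of_lt hw.1⟩

lemma integral_V1 (A B : ℝ) :
    ∫ w in Ioi (0 : ℝ), (if w < B then (1 / 2) * (max (A - 3 * w) 0) ^ 2 else 0)
      = if 0 < B then ((max A 0) ^ 3 - (max (A - 3 * B) 0) ^ 3) / 18 else 0 := by
  have hf : (fun w : ℝ => if w < B then (1 / 2) * (max (A - 3 * w) 0) ^ 2 else 0)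
      = (Iio B).indicator fun w => (1 / 2) * (max (A - 3 * w) 0) ^ 2 := by
    ext w
    simp [Set.indicator_apply]
  rw [hf, setIntegral_indicator measurableSet_Iio]
  split_ifs with hB
  · have hset : Ioi (0 : ℝ) ∩ Iio B = Ioo 0 B := rfl
    rw [hset, ← integral_Ioc_eq_integral_Ioo, ← intervalIntegral.integral_of_le hB.le,
      intervalIntegral.integral_eq_sub_of_hasDerivAt (fun w _ => hasDerivAt_V1 A w)
        ((continuous_V1 A).intervalIntegrable _ _)]
    simp only [mul_zero, sub_zero]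
    ring
  · have hset : Ioi (0 : ℝ) ∩ Iio B = ∅ := by
      ext w
      simp only [mem_inter_iff, mem_Ioi, mem_Iio, mem_empty_iff_false, iff_false, not_and, not_lt]
      intro hw
      linarith [not_lt.mp hB]
    rw [hset]
    simp

/-- Strict Cauchy-Schwarz for two vectors of a critical configuration. -/
lemma strict_cs (h : Crit S u) {a b c : ℕ} (ha : a ∈ S) (hb : b ∈ S) (hc : c ∈ S) (hab : a ≠ b)
    (hac : a ≠ c) (hbc : b ≠ c) : ⟪u a, u b⟫ ^ 2 < ‖u a‖ ^ 2 * ‖u b‖ ^ 2 := by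
  classical
  have hcs : ⟪u a, u b⟫ ^ 2 ≤ ‖u a‖ ^ 2 * ‖u b‖ ^ 2 := by
    have := abs_real_inner_le_norm (u a) (u b)
    rw [← sq_abs, ← mul_pow]
    exact pow_le_pow_left₀ (abs_nonneg _) this 2
  refine lt_of_le_of_ne hcs fun heq => ?_
  have hb0 : 0 < ‖u b‖ := norm_pos_iff.mpr (u_ne h hb hc hbc)
  set x := ‖u b‖ ^ 2 with hx
  set y := -⟪u a, u b⟫ with hy
  have hw : x • u a + y • u b = 0 := by
    rw [← norm_eq_zero, ← sq_eq_zero_iff, norm_add_sq_real, inner_smul_left, inner_smul_right,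
      norm_smul, norm_smul, mul_pow, mul_pow, Real.norm_eq_abs, Real.norm_eq_abs, sq_abs, sq_abs]
    simp only [conj_trivial]
    rw [hx, hy]
    nlinarith
  set p : ℕ → ℝ := fun l => (if l = a then x else 0) + (if l = b then y else 0) with hp
  have hsum : ∑ l ∈ S, p l • u l = 0 := by
    have h1 : ∀ l ∈ S, p l • u l = (if l = a then x • u l else 0) + (if l = b then y • u l else 0) := by
      intro l _
      simp only [hp, add_smul]
      congr 1 <;> split_ifs <;> simp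
    rw [Finset.sum_congr rfl h1, Finset.sum_add_distrib, Finset.sum_ite_eq' _ a,
      Finset.sum_ite_eq' _ b, if_pos ha, if_pos hb]
    exact hw
  have hcc := h.coeff_const p hsum ha hc
  have pa : p a = x := by simp [hp, hab]
  have pc : p c = 0 := by simp [hp, hac.symm, hbc.symm]
  rw [pa, pc] at hcc
  have : 0 < x := by positivity
  linarith

/-- The per-cell bound for the triple criterion. -/
lemma V1_cell (h : Crit S u) (hi : i ∈ S) (hj : j ∈ S) (hr : r ∈ S) (ht : t ∈ S)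
    (hij : i ≠ j) (hir : i ≠ r) (hit : i ≠ t) (hjr : j ≠ r) (hjt : j ≠ t) (hrt : r ≠ t)
    (hB : ({i, j, r, t} : Finset ℕ).Nonempty) {l : ℕ} (hl : l ∈ S \ {i, j, r, t}) {R : ℝ}
    (hR : 0 < R) (hR2 : R ^ 2 = ⟪u i, u j⟫ * ⟪u i, u r⟫ + ⟪u i, u j⟫ * ⟪u j, u r⟫
      + ⟪u i, u r⟫ * ⟪u j, u r⟫) (hlt : ‖u l‖ ≤ ‖u t‖) :
    ∫ x, max (⟪u l, x⟫ - mx {i, j, r, t} hB
      (fun a => u a + (if a = t then (0 : ℝ) else 1 / 3) • ∑ b ∈ S \ {i, j, r, t}, u b) x) 0
        ∂(stdGaussian E) ≤ cG ^ 2 / R * ((45 * cG * ‖u l‖ ^ 3) / 18) := by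
  classical
  have hBS := four_sub hi hj hr ht
  set n := ∑ b ∈ S \ {i, j, r, t}, u b with hn
  have hSne : S.Nonempty := ⟨i, hi⟩
  have hsum0 : u i + (u j + (u r + u t)) + n = 0 := by
    have := h.sum_eq_zero hSne
    rw [← Finset.sum_sdiff hBS, sum_four hij hir hit hjr hjt hrt] at this
    rw [← this, hn]
    abel
  have hlS := (Finset.mem_sdiff.mp hl).1
  have hlB := (Finset.mem_sdiff.mp hl).2
  have hlt' : l ≠ t := by
    rintro rfl
    exact hlB (by simp)
  have hli : l ≠ i := by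
    rintro rfl
    exact hlB (by simp)
  have hti : t ≠ i := hit.symm
  have c12 := c_pos h hi hj hij
  have c13 := c_pos h hi hr hir
  have c14 := c_pos h hi ht hit
  have c23 := c_pos h hj hr hjr
  have c24 := c_pos h hj ht hjt
  have c34 := c_pos h hr ht hrt
  set p₁ := u i + (1 / 3 : ℝ) • n with hp₁
  set p₂ := u j + (1 / 3 : ℝ) • n with hp₂
  have hform : ∀ (ξ₁ ξ₂ : ℝ), ∀ w ∈ Submodule.span ℝ {u l, u t},
      (-⟪u i, u j⟫ + -⟪u i, u r⟫) * ξ₁ ^ 2 + 2 * (- -⟪u i, u j⟫) * (ξ₁ * ξ₂)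
        + (-⟪u i, u j⟫ + -⟪u j, u r⟫) * ξ₂ ^ 2 ≤ ‖ξ₁ • p₁ + ξ₂ • p₂ + w‖ ^ 2 := by
    intro ξ₁ ξ₂ w hw
    obtain ⟨a, b, rfl⟩ := Submodule.mem_span_pair.mp hw
    have h1 := pot_bound h hi hj hr ht hij hir hit hjr hjt hrt hl ξ₁ ξ₂ 0 b ((ξ₁ + ξ₂) / 3) a
    have h2 : ξ₁ • u i + ξ₂ • u j + (0 : ℝ) • u r + b • u t + ((ξ₁ + ξ₂) / 3) • n + a • u l
        = ξ₁ • p₁ + ξ₂ • p₂ + (a • u l + b • u t) := by
      rw [hp₁, hp₂]
      module
    rw [← hn, h2] at h1
    refine le_trans ?_ h1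
    have e1 : 0 ≤ (-⟪u i, u t⟫) * (ξ₁ - b) ^ 2 := by positivity
    have e2 : 0 ≤ (-⟪u j, u t⟫) * (ξ₂ - b) ^ 2 := by positivity
    have e3 : 0 ≤ (-⟪u r, u t⟫) * (0 - b) ^ 2 := by positivity
    nlinarith
  have hdeteq : (-⟪u i, u j⟫ + -⟪u i, u r⟫) * (-⟪u i, u j⟫ + -⟪u j, u r⟫) - (- -⟪u i, u j⟫) ^ 2
      = R ^ 2 := by
    rw [hR2]
    ring
  obtain ⟨e₁, e₂, α, β, γ', he₁, he₂, h12, hW, h11, h12', h21, h22, hα, hγ', hdetle⟩ :=
    exists_frame (Submodule.span ℝ {u l, u t}) p₁ p₂ (by positivity)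
      (by rw [hdeteq]; positivity) hform
  rw [hdeteq] at hdetle
  have hρ : R ≤ α * γ' :=
    (pow_le_pow_iff_left₀ hR.le (by positivity) (by norm_num)).mp hdetle
  have horth : ∀ y ∈ Submodule.span ℝ {u l, u t}, ∀ (a b : ℝ), ∀ x : E,
      ⟪y, x + a • e₁ + b • e₂⟫ = ⟪y, x⟫ := by
    intro y hy a b x
    obtain ⟨w1, w2⟩ := hW y hy
    rw [inner_add_right, inner_add_right, inner_smul_right, inner_smul_right,
      real_inner_comm e₁, real_inner_comm e₂, w1, w2]
    ring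
  have hul := horth (u l) (Submodule.subset_span (by simp))
  have hut := horth (u t) (Submodule.subset_span (by simp))
  set ρ : ℕ → ℝ := fun a => if a = t then (0 : ℝ) else 1 / 3 with hρdef
  have hX : Integrable (fun x => ⟪u l, x⟫ - mx {i, j, r, t} hB (fun a => u a + ρ a • n) x)
      (stdGaussian E) := (integrable_inner _).sub (integrable_mx hB _)
  have hc := cG_pos
  have hK : 0 ≤ cG ^ 2 / R := by positivity
  have hA : ∀ c : ℝ, Integrable (fun x : E => (max (3 * ⟪u l, x⟫ + ⟪u t, x⟫ - c) 0) ^ 2)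
      (stdGaussian E) := by
    intro c
    refine (integrable_pos_pow ((3 : ℝ) • u l + u t) c 2 (by norm_num)).congr
      (Eventually.of_forall fun x => ?_)
    simp only [inner_add_left, inner_smul_left, conj_trivial]
  have hA3 : Integrable (fun x : E => (max (3 * ⟪u l, x⟫ + ⟪u t, x⟫) 0) ^ 3)
      (stdGaussian E) := by
    refine (integrable_pos_pow ((3 : ℝ) • u l + u t) 0 3 (by norm_num)).congr
      (Eventually.of_forall fun x => ?_)
    simp only [inner_add_left, inner_smul_left, conj_trivial, sub_zero]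
  have hT3 : Integrable (fun x : E => (max (4 * ⟪u t, x⟫) 0) ^ 3)
      (stdGaussian E) := by
    refine (integrable_pos_pow ((4 : ℝ) • u t) 0 3 (by norm_num)).congr
      (Eventually.of_forall fun x => ?_)
    simp only [inner_smul_left, conj_trivial, sub_zero]
  have hCm : MeasurableSet {x : E | ⟪u t, x⟫ < ⟪u l, x⟫} :=
    measurableSet_lt (by fun_prop) (by fun_prop)
  have hG : Integrable (fun x : E => if ⟪u t, x⟫ < ⟪u l, x⟫ then
      ((max (3 * ⟪u l, x⟫ + ⟪u t, x⟫) 0) ^ 3 - (max (4 * ⟪u t, x⟫) 0) ^ 3) / 18 else 0)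
      (stdGaussian E) := by
    have h1 : Integrable (fun x : E =>
        ((max (3 * ⟪u l, x⟫ + ⟪u t, x⟫) 0) ^ 3 - (max (4 * ⟪u t, x⟫) 0) ^ 3) / 18)
        (stdGaussian E) := (hA3.sub hT3).div_const 18
    refine (h1.indicator hCm).congr (Eventually.of_forall fun x => ?_)
    simp [Set.indicator_apply]
  have hlayer := layer_bound
    (g := fun p : ℝ × E => if p.1 < ⟪u l, p.2⟫ - ⟪u t, p.2⟫ then
      (1 / 2) * (max (3 * ⟪u l, p.2⟫ + ⟪u t, p.2⟫ - 3 * p.1) 0) ^ 2 else 0)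
    (G := fun x => if ⟪u t, x⟫ < ⟪u l, x⟫ then
      ((max (3 * ⟪u l, x⟫ + ⟪u t, x⟫) 0) ^ 3 - (max (4 * ⟪u t, x⟫) 0) ^ 3) / 18 else 0)
    hX
    (by
      refine Measurable.ite (measurableSet_lt (by fun_prop) (by fun_prop)) (by fun_prop)
        measurable_const)
    (fun p => by
      split_ifs
      · have := maxpow_nonneg 2 (3 * ⟪u l, p.2⟫ + ⟪u t, p.2⟫ - 3 * p.1)
        positivity
      · exact le_rfl)
    hG
    (fun x => integrableOn_V1 (3 * ⟪u l, x⟫ + ⟪u t, x⟫) (⟪u l, x⟫ - ⟪u t, x⟫))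
    (fun x => by
      simp only
      rw [integral_V1 (3 * ⟪u l, x⟫ + ⟪u t, x⟫) (⟪u l, x⟫ - ⟪u t, x⟫)]
      have e1 : 3 * ⟪u l, x⟫ + ⟪u t, x⟫ - 3 * (⟪u l, x⟫ - ⟪u t, x⟫) = 4 * ⟪u t, x⟫ := by ring
      rw [e1]
      simp only [sub_pos])
    hK
    (fun w hw => by
      set τ : E → ℝ := fun x => ⟪u l, x⟫ - w with hτ
      set τ₃ : E → ℝ := fun x => τ x + ⟪u t, x⟫ with hτ₃
      set C : Set E := {x | ⟪u t, x⟫ < τ x} with hC
      have hCmeas : MeasurableSet C := measurableSet_lt (by fun_prop) (by fun_prop)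
      have hsub : {x | w < ⟪u l, x⟫ - mx {i, j, r, t} hB (fun a => u a + ρ a • n) x}
          ⊆ {x | x ∈ C ∧ ⟪p₁, x⟫ < τ x ∧ ⟪p₂, x⟫ < τ x ∧ -τ₃ x < ⟪p₁, x⟫ + ⟪p₂, x⟫} := by
        intro x hx
        have hx' : w < ⟪u l, x⟫ - mx {i, j, r, t} hB (fun a => u a + ρ a • n) x := hx
        have hv : ∀ a ∈ ({i, j, r, t} : Finset ℕ), ⟪u a, x⟫ + ρ a * ⟪n, x⟫ < τ x := by
          intro a ha
          have h0 : ⟪u a + ρ a • n, x⟫ ≤ mx {i, j, r, t} hB
              (fun a => u a + ρ a • n) x := le_mx hB (fun a => u a + ρ a • n) x ha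
          rw [inner_add_left, inner_smul_left] at h0
          simp only [conj_trivial] at h0
          simp only [hτ]
          linarith
        have h1 := hv i (by simp)
        have h2 := hv j (by simp)
        have h3 := hv r (by simp)
        have h4 := hv t (by simp)
        have ei : ρ i = 1 / 3 := by simp [hρdef, hit]
        have ej : ρ j = 1 / 3 := by simp [hρdef, hjt]
        have er : ρ r = 1 / 3 := by simp [hρdef, hrt]
        have et : ρ t = 0 := by simp [hρdef]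
        rw [ei] at h1
        rw [ej] at h2
        rw [er] at h3
        rw [et, zero_mul, add_zero] at h4
        have hs : ⟪u i, x⟫ + (⟪u j, x⟫ + (⟪u r, x⟫ + ⟪u t, x⟫)) + ⟪n, x⟫ = 0 := by
          have h5 : ⟪u i + (u j + (u r + u t)) + n, x⟫ = 0 := by rw [hsum0, inner_zero_left]
          simpa only [inner_add_left] using h5
        have e1 : ⟪p₁, x⟫ = ⟪u i, x⟫ + (1 / 3) * ⟪n, x⟫ := by
          rw [hp₁, inner_add_left, inner_smul_left]
          simp
        have e2 : ⟪p₂, x⟫ = ⟪u j, x⟫ + (1 / 3) * ⟪n, x⟫ := by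
          rw [hp₂, inner_add_left, inner_smul_left]
          simp
        refine ⟨h4, ?_, ?_, ?_⟩
        · rw [e1]; exact h1
        · rw [e2]; exact h2
        · rw [e1, e2]
          simp only [hτ₃]
          linarith
      have i₁ : Inv2 e₁ e₂ τ := fun x a b => by
        simp only [hτ]
        rw [hul a b x]
      have i₃ : Inv2 e₁ e₂ τ₃ := fun x a b => by
        simp only [hτ₃, hτ]
        rw [hul a b x, hut a b x]
      have hint : Integrable (fun x => (max (τ x + τ x + τ₃ x) 0) ^ 2) (stdGaussian E) := by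
        refine (hA (3 * w)).congr (Eventually.of_forall fun x => ?_)
        simp only [hτ₃, hτ]
        congr 2
        ring
      have hball := tri_ball he₁ he₂ h12 hα hγ' h11 h12' h21 h22 (τ₁ := τ) (τ₂ := τ) (τ₃ := τ₃)
        (by simp only [hτ]; fun_prop) (by simp only [hτ]; fun_prop)
        (by simp only [hτ₃, hτ]; fun_prop) i₁ i₁ i₃ hCmeas
        (fun x a b => by
          simp only [hC, Set.mem_ofPred_eq, hτ]
          rw [hul a b x, hut a b x]) hint
      refine (measureReal_mono hsub).trans (hball.trans ?_)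
      have hI : ∫ x in C, (1 / 2) * (max (τ x + τ x + τ₃ x) 0) ^ 2 ∂(stdGaussian E)
          = ∫ x, (if w < ⟪u l, x⟫ - ⟪u t, x⟫ then
            (1 / 2) * (max (3 * ⟪u l, x⟫ + ⟪u t, x⟫ - 3 * w) 0) ^ 2 else 0) ∂(stdGaussian E) := by
        rw [← integral_indicator hCmeas]
        refine integral_congr_ae (Eventually.of_forall fun x => ?_)
        have hiff : x ∈ C ↔ w < ⟪u l, x⟫ - ⟪u t, x⟫ := by
          simp only [hC, Set.mem_ofPred_eq, hτ]
          constructor <;> intro h <;> linarith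
        simp only [Set.indicator_apply, hiff]
        split_ifs
        · simp only [hτ₃, hτ]
          congr 3
          ring
        · rfl
      rw [hI]
      have hI0 : 0 ≤ ∫ x, (if w < ⟪u l, x⟫ - ⟪u t, x⟫ then
            (1 / 2) * (max (3 * ⟪u l, x⟫ + ⟪u t, x⟫ - 3 * w) 0) ^ 2 else 0) ∂(stdGaussian E) := by
        refine integral_nonneg fun x => ?_
        simp only
        split_ifs
        · have := maxpow_nonneg 2 (3 * ⟪u l, x⟫ + ⟪u t, x⟫ - 3 * w)
          positivity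
        · exact le_rfl
      refine mul_le_mul_of_nonneg_right ?_ hI0
      exact div_le_div_of_nonneg_left (by positivity) hR hρ)
  refine hlayer.trans (mul_le_mul_of_nonneg_left ?_ hK)
  -- the main integral
  have hT := T_bound (u l) (u t) (h.neg l hlS t ht hlt').le
    (by
      rw [h.degree hlS]
      exact Finset.single_le_sum (f := fun b => -⟪u l, u b⟫)
        (fun b hb => (c_pos h hlS (Finset.mem_of_mem_erase hb)
          (Finset.ne_of_mem_erase hb).symm).le)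
        (Finset.mem_erase.mpr ⟨hlt'.symm, ht⟩))
    hlt (u_ne h hlS hi hli) (strict_cs h hlS ht hi hlt' hli hti)
  have hGeq : ∫ x, (if ⟪u t, x⟫ < ⟪u l, x⟫ then
      ((max (3 * ⟪u l, x⟫ + ⟪u t, x⟫) 0) ^ 3 - (max (4 * ⟪u t, x⟫) 0) ^ 3) / 18 else 0)
        ∂(stdGaussian E)
      = ((∫ x in {x : E | ⟪u t, x⟫ < ⟪u l, x⟫}, (max (3 * ⟪u l, x⟫ + ⟪u t, x⟫) 0) ^ 3
            ∂(stdGaussian E))
          - (∫ x in {x : E | ⟪u t, x⟫ < ⟪u l, x⟫}, (max (4 * ⟪u t, x⟫) 0) ^ 3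
            ∂(stdGaussian E))) / 18 := by
    rw [← integral_sub hA3.integrableOn hT3.integrableOn, ← integral_div,
      ← integral_indicator hCm]
    refine integral_congr_ae (Eventually.of_forall fun x => ?_)
    simp [Set.indicator_apply]
  rw [hGeq]
  exact div_le_div_of_nonneg_right hT (by norm_num)

/-- Criterion V1 (triple and fourth vertex `t`), all tail cells no larger than `u t`. -/
theorem crit_V1 (hP : PB E 4) (h : Crit S u) {i j r t : ℕ} (hi : i ∈ S) (hj : j ∈ S) (hr : r ∈ S)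
    (ht : t ∈ S) (hij : i ≠ j) (hir : i ≠ r) (hit : i ≠ t) (hjr : j ≠ r) (hjt : j ≠ t)
    (hrt : r ≠ t) (hS4 : (S \ {i, j, r, t}).Nonempty) {ς : ℝ}
    (hς : ∀ l ∈ S \ {i, j, r, t}, ‖u l‖ ≤ ς) (hς4 : ∀ l ∈ S \ {i, j, r, t}, ‖u l‖ ≤ ‖u t‖)
    (hsm : ∑ l ∈ S \ {i, j, r, t}, ‖u l‖ ^ 2 ≤ 1 / 4) :
    ⟪u i, u j⟫ * ⟪u i, u r⟫ + ⟪u i, u j⟫ * ⟪u j, u r⟫ + ⟪u i, u r⟫ * ⟪u j, u r⟫
      ≤ ((15 / 2) * cG ^ 3 * ς) ^ 2 := by
  by_contra hcon
  rw [not_le] at hcon
  have hB : ({i, j, r, t} : Finset ℕ).Nonempty := ⟨i, by simp⟩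
  set T := ⟪u i, u j⟫ * ⟪u i, u r⟫ + ⟪u i, u j⟫ * ⟪u j, u r⟫ + ⟪u i, u r⟫ * ⟪u j, u r⟫ with hT_def
  have hT : 0 < T := lt_of_le_of_lt (sq_nonneg _) hcon
  set R := √T with hR_def
  have hR : 0 < R := Real.sqrt_pos.mpr hT
  have hR2 : R ^ 2 = T := Real.sq_sqrt hT.le
  have hlt : (15 / 2) * cG ^ 3 * ς < R := by
    refine lt_of_pow_lt_pow_left₀ 2 hR.le ?_
    rw [hR2]
    exact hcon
  have hc := cG_pos
  refine V1_false hP h hi hj hr ht hij hir hit hjr hjt hrt hS4 hsm hB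
    (K := cG ^ 2 / R * ((45 * cG * ς) / 18)) ?_ ?_
  · rw [div_mul_eq_mul_div, div_lt_iff₀ hR]
    nlinarith
  · intro l hl
    refine (V1_cell h hi hj hr ht hij hir hit hjr hjt hrt hB hl hR hR2 (hς4 l hl)).trans ?_
    have h2 : ‖u l‖ ^ 3 ≤ ς * ‖u l‖ ^ 2 := by
      have : ‖u l‖ ^ 3 = ‖u l‖ * ‖u l‖ ^ 2 := by ring
      rw [this]
      exact mul_le_mul_of_nonneg_right (hς l hl) (by positivity)
    have hK : 0 ≤ cG ^ 2 / R := by positivity
    have hK2 : 0 ≤ cG := hc.le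
    calc cG ^ 2 / R * ((45 * cG * ‖u l‖ ^ 3) / 18)
        ≤ cG ^ 2 / R * ((45 * cG * (ς * ‖u l‖ ^ 2)) / 18) := by
          refine mul_le_mul_of_nonneg_left ?_ hK
          refine div_le_div_of_nonneg_right ?_ (by norm_num)
          exact mul_le_mul_of_nonneg_left h2 (by positivity)
      _ = cG ^ 2 / R * ((45 * cG * ς) / 18) * ‖u l‖ ^ 2 := by ring

end Vale.Agent.Lib.P226
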