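import Vale.Agent.Lib.P226.X.ClosureDefs

/-!
Soundness of the scanning checks `capOK`, `chordOK` (pure real arithmetic).
-/

open Real

namespace Vale.Agent.Lib.P226

private lemma capOK_aux {p Qp Qm h l : ℕ} {a x : ℝ} (h1 : a ≤ 1)
    (hl : (l : ℝ) / 10 ^ 7 ≤ x) (hh : x ≤ (h : ℝ) / 10 ^ 7) :
    ∀ (nodes : List (ℕ × ℕ)) (prev : ℕ), Tb nodes a x → (prev : ℝ) / 10 ^ 5 ≤ a →
      (100000 ≤ prev → (prev : ℝ) / 10 ^ 5 < a) → capOK p Qp Qm h l prev nodes = true →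
      x - (p : ℝ) / 100 * a ≤ ((Qp : ℝ) - Qm) / 10 ^ 7 := by
  have hp0 : (0 : ℝ) ≤ p := Nat.cast_nonneg _
  -- the key estimate
  have key : ∀ (prev z : ℕ), (prev : ℝ) / 10 ^ 5 ≤ a → x ≤ (z : ℝ) / 10 ^ 7 →
      z + Qm ≤ p * prev + Qp → x - (p : ℝ) / 100 * a ≤ ((Qp : ℝ) - Qm) / 10 ^ 7 := by
    intro prev z hprev hz hle
    have hle' : (z : ℝ) + Qm ≤ p * prev + Qp := by exact_mod_cast hle
    have h2 : (p : ℝ) / 100 * ((prev : ℝ) / 10 ^ 5) ≤ (p : ℝ) / 100 * a :=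
      mul_le_mul_of_nonneg_left hprev (by positivity)
    have h3 : (p : ℝ) / 100 * ((prev : ℝ) / 10 ^ 5) = (p * prev : ℝ) / 10 ^ 7 := by ring
    rw [h3] at h2
    have h4 : ((z : ℝ) + Qm) / 10 ^ 7 ≤ (p * prev + Qp : ℝ) / 10 ^ 7 := by
      apply div_le_div_of_nonneg_right hle' (by positivity)
    have h5 : ((z : ℝ) + Qm) / 10 ^ 7 = (z : ℝ) / 10 ^ 7 + (Qm : ℝ) / 10 ^ 7 := by ring
    have h6 : (p * prev + Qp : ℝ) / 10 ^ 7 = (p * prev : ℝ) / 10 ^ 7 + (Qp : ℝ) / 10 ^ 7 := by ring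
    have h7 : ((Qp : ℝ) - Qm) / 10 ^ 7 = (Qp : ℝ) / 10 ^ 7 - (Qm : ℝ) / 10 ^ 7 := by ring
    rw [h7]
    linarith
  intro nodes
  induction nodes with
  | nil =>
    intro prev _ hp hlt hc
    have hc' : 100000 ≤ prev := by
      simpa [capOK, Nat.ble_eq] using hc
    have h2 := hlt hc'
    have h3 : (100000 : ℝ) ≤ prev := by exact_mod_cast hc'
    exfalso
    have h4 : (1 : ℝ) ≤ (prev : ℝ) / 10 ^ 5 := by
      rw [le_div_iff₀ (by positivity)]
      norm_num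
      linarith
    linarith
  | cons n ns ih =>
    intro prev hT hp hlt hc
    simp only [capOK, Bool.or_eq_true, Bool.and_eq_true, Nat.ble_eq, Nat.blt_eq] at hc
    rcases hc with hc | ⟨hc1, hc2⟩
    · exact key prev h hp hh hc
    · by_cases han : a ≤ (n.1 : ℝ) / 10 ^ 5
      · have hx : x ≤ (n.2 : ℝ) / 10 ^ 7 := hT n (by simp) han
        rcases hc1 with hc1 | hc1
        · exfalso
          have h3 : (n.2 : ℝ) + 1 ≤ l := by exact_mod_cast hc1
          have h4 : (n.2 : ℝ) / 10 ^ 7 < (l : ℝ) / 10 ^ 7 := by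
            apply div_lt_div_of_pos_right _ (by positivity)
            linarith
          linarith
        · apply key prev (min n.2 h) hp _ hc1
          rcases le_total n.2 h with hle | hle
          · rw [min_eq_left hle]; exact hx
          · rw [min_eq_right hle]; exact hh
      · push Not at han
        have hT' : Tb ns a x := fun m hm => hT m (by simp [hm])
        exact ih n.1 hT' han.le (fun _ => han) hc2

theorem capOK_sound {nodes : List (ℕ × ℕ)} {p Qp Qm h l : ℕ} {a x : ℝ} (hT : Tb nodes a x)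
    (h0 : 0 ≤ a) (h1 : a ≤ 1) (hl : (l : ℝ) / 10 ^ 7 ≤ x) (hh : x ≤ (h : ℝ) / 10 ^ 7)
    (hc : capOK p Qp Qm h l 0 nodes = true) :
    x - (p : ℝ) / 100 * a ≤ ((Qp : ℝ) - Qm) / 10 ^ 7 := by
  refine capOK_aux h1 hl hh nodes 0 hT (by simpa using h0) (fun h => ?_) hc
  omega

private lemma chordGo_aux {c yb : ℕ} {a x : ℝ} (h1 : a ≤ 1) (hy : x ≤ (yb : ℝ) / 10 ^ 7) :
    ∀ (nodes : List (ℕ × ℕ)) (prev : ℕ), Tb nodes a x → (prev : ℝ) / 10 ^ 5 < a →
      chordGo c yb prev nodes = true → (c : ℝ) / 100 * x ≤ a := by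
  intro nodes
  induction nodes with
  | nil =>
    intro prev _ hp hc
    have hc' : 100000 ≤ prev := by
      simpa [chordGo, Nat.ble_eq] using hc
    have h3 : (100000 : ℝ) ≤ prev := by exact_mod_cast hc'
    exfalso
    have h4 : (1 : ℝ) ≤ (prev : ℝ) / 10 ^ 5 := by
      rw [le_div_iff₀ (by positivity)]
      norm_num
      linarith
    linarith
  | cons n ns ih =>
    intro prev hT hp hc
    simp only [chordGo, Bool.and_eq_true, Nat.ble_eq] at hc
    obtain ⟨hc1, hc2⟩ := hc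
    by_cases han : a ≤ (n.1 : ℝ) / 10 ^ 5
    · have hx : x ≤ (n.2 : ℝ) / 10 ^ 7 := hT n (by simp) han
      have hxm : x ≤ ((min n.2 yb : ℕ) : ℝ) / 10 ^ 7 := by
        rcases le_total n.2 yb with hle | hle
        · rw [min_eq_left hle]; exact hx
        · rw [min_eq_right hle]; exact hy
      have hc0 : (0 : ℝ) ≤ c := Nat.cast_nonneg _
      have h3 : (c : ℝ) * ((min n.2 yb : ℕ) : ℝ) ≤ (prev : ℝ) * 10 ^ 4 := by exact_mod_cast hc1
      have h4 : (c : ℝ) / 100 * x ≤ (c : ℝ) / 100 * (((min n.2 yb : ℕ) : ℝ) / 10 ^ 7) :=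
        mul_le_mul_of_nonneg_left hxm (by positivity)
      have h5 : (c : ℝ) / 100 * (((min n.2 yb : ℕ) : ℝ) / 10 ^ 7)
          = ((c : ℝ) * ((min n.2 yb : ℕ) : ℝ)) / 10 ^ 9 := by ring
      have h6 : ((c : ℝ) * ((min n.2 yb : ℕ) : ℝ)) / 10 ^ 9 ≤ ((prev : ℝ) * 10 ^ 4) / 10 ^ 9 :=
        div_le_div_of_nonneg_right h3 (by positivity)
      have h7 : ((prev : ℝ) * 10 ^ 4) / 10 ^ 9 = (prev : ℝ) / 10 ^ 5 := by ring
      linarith
    · push Not at han
      have hT' : Tb ns a x := fun m hm => hT m (by simp [hm])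
      exact ih n.1 hT' han hc2

/-- `x ^ 2 ≤ 3 a ^ 3` is the input from `area_lower`. -/
theorem chordOK_sound {nodes : List (ℕ × ℕ)} {c yb : ℕ} {a x : ℝ} (hT : Tb nodes a x)
    (h0 : 0 ≤ a) (h1 : a ≤ 1) (hx0 : 0 ≤ x) (h3 : x ^ 2 ≤ 3 * a ^ 3) (hy : x ≤ (yb : ℝ) / 10 ^ 7)
    (hc : chordOK c yb nodes = true) :
    (c : ℝ) / 100 * x ≤ a := by
  cases nodes with
  | nil => simp [chordOK] at hc
  | cons n ns =>
    simp only [chordOK, Bool.and_eq_true, Nat.ble_eq] at hc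
    obtain ⟨hc1, hc2⟩ := hc
    by_cases han : a ≤ (n.1 : ℝ) / 10 ^ 5
    · have hc0 : (0 : ℝ) ≤ c := Nat.cast_nonneg _
      have h4 : 3 * (c : ℝ) * c * c * n.2 ≤ 10 ^ 13 := by exact_mod_cast hc1
      have hx : x ≤ (n.2 : ℝ) / 10 ^ 7 := hT n (by simp) han
      by_contra hlt
      push Not at hlt
      -- `a < (c / 100) x` and `x ^ 2 ≤ 3 a ^ 3` force `1 < 3 (c / 100) ^ 3 x`
      have hx_pos : 0 < x := by
        rcases hx0.lt_or_eq with h | h
        · exact h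
        · subst h
          simp at hlt
          linarith
      set b := (c : ℝ) / 100 * x with hb
      have hb3 : a ^ 3 ≤ b ^ 3 := pow_le_pow_left₀ h0 hlt.le 3
      have h5 : x ^ 2 ≤ 3 * b ^ 3 := by linarith
      have h6 : 3 * b ^ 3 = x ^ 2 * (3 * ((c : ℝ) * c * c) * x / 10 ^ 6) := by
        rw [hb]; ring
      have h7 : 3 * ((c : ℝ) * c * c) * x / 10 ^ 6 ≤ 1 := by
        rw [div_le_iff₀ (by positivity)]
        have h8 : 3 * ((c : ℝ) * c * c) * x ≤ 3 * ((c : ℝ) * c * c) * ((n.2 : ℝ) / 10 ^ 7) :=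
          mul_le_mul_of_nonneg_left hx (by positivity)
        have h9 : 3 * ((c : ℝ) * c * c) * ((n.2 : ℝ) / 10 ^ 7)
            = (3 * (c : ℝ) * c * c * n.2) / 10 ^ 7 := by ring
        have h10 : (3 * (c : ℝ) * c * c * n.2) / 10 ^ 7 ≤ 10 ^ 13 / 10 ^ 7 :=
          div_le_div_of_nonneg_right h4 (by positivity)
        norm_num at h10 ⊢
        linarith
      -- strictness from `a < b`
      have hb3' : a ^ 3 < b ^ 3 := pow_lt_pow_left₀ hlt h0 (by norm_num)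
      have h11 : x ^ 2 < 3 * b ^ 3 := by linarith
      rw [h6] at h11
      have h12 : x ^ 2 * (3 * ((c : ℝ) * c * c) * x / 10 ^ 6) ≤ x ^ 2 * 1 :=
        mul_le_mul_of_nonneg_left h7 (by positivity)
      linarith
    · push Not at han
      have hT' : Tb ns a x := fun m hm => hT m (by simp [hm])
      exact chordGo_aux h1 hy ns n.1 hT' han hc2

end Vale.Agent.Lib.P226
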