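import Vale.Agent.Lib.P226.X.ClosureDefs
import Vale.Agent.Lib.P226.X.Crit
import Vale.Agent.Lib.P226.X.Area
import Vale.Agent.Lib.P226.X.Criteria
import Vale.Agent.Lib.P226.X.CritV1
import Vale.Agent.Lib.P226.X.Scan

/-!
Construction of the configuration of numbers `Cfg` from a critical configuration with at least
five cells.
-/

open MeasureTheory ProbabilityTheory Real Set Filter
open scoped RealInnerProductSpace ENNReal

namespace Vale.Agent.Lib.P226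

/-- Selection of the four largest values and the fifth largest. -/
lemma exists_top5 {S : Finset ℕ} (hk : 5 ≤ S.card) (f : ℕ → ℝ) :
    ∃ i₁ i₂ i₃ i₄ l₅ : ℕ, i₁ ∈ S ∧ i₂ ∈ S ∧ i₃ ∈ S ∧ i₄ ∈ S ∧
      i₁ ≠ i₂ ∧ i₁ ≠ i₃ ∧ i₁ ≠ i₄ ∧ i₂ ≠ i₃ ∧ i₂ ≠ i₄ ∧ i₃ ≠ i₄ ∧
      l₅ ∈ S \ {i₁, i₂, i₃, i₄} ∧ f i₂ ≤ f i₁ ∧ f i₃ ≤ f i₂ ∧ f i₄ ≤ f i₃ ∧ f l₅ ≤ f i₄ ∧
      ∀ l ∈ S \ {i₁, i₂, i₃, i₄}, f l ≤ f l₅ := by
  classical
  have hne : ∀ (T : Finset ℕ), 0 < T.card → T.Nonempty := fun T h => Finset.card_pos.mp h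
  obtain ⟨i₁, hi₁, hm₁⟩ := S.exists_max_image f (hne _ (by omega))
  have c1 : (S.erase i₁).card = S.card - 1 := Finset.card_erase_of_mem hi₁
  obtain ⟨i₂, hi₂, hm₂⟩ := (S.erase i₁).exists_max_image f (hne _ (by omega))
  have c2 : ((S.erase i₁).erase i₂).card = (S.erase i₁).card - 1 := Finset.card_erase_of_mem hi₂
  obtain ⟨i₃, hi₃, hm₃⟩ := ((S.erase i₁).erase i₂).exists_max_image f (hne _ (by omega))
  have c3 : (((S.erase i₁).erase i₂).erase i₃).card = ((S.erase i₁).erase i₂).card - 1 :=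
    Finset.card_erase_of_mem hi₃
  obtain ⟨i₄, hi₄, hm₄⟩ :=
    (((S.erase i₁).erase i₂).erase i₃).exists_max_image f (hne _ (by omega))
  have c4 : ((((S.erase i₁).erase i₂).erase i₃).erase i₄).card =
      (((S.erase i₁).erase i₂).erase i₃).card - 1 := Finset.card_erase_of_mem hi₄
  obtain ⟨l₅, hl₅, hm₅⟩ :=
    ((((S.erase i₁).erase i₂).erase i₃).erase i₄).exists_max_image f (hne _ (by omega))
  have hsd : ∀ l, l ∈ S \ {i₁, i₂, i₃, i₄} ↔ l ∈ ((((S.erase i₁).erase i₂).erase i₃).erase i₄) := by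
    intro l
    simp only [Finset.mem_sdiff, Finset.mem_insert, Finset.mem_singleton, Finset.mem_erase]
    tauto
  have hl₅' := hl₅
  have hi₂' := hi₂
  have hi₃' := hi₃
  have hi₄' := hi₄
  simp only [Finset.mem_erase] at hi₂' hi₃' hi₄' hl₅'
  refine ⟨i₁, i₂, i₃, i₄, l₅, hi₁, hi₂'.2, hi₃'.2.2, hi₄'.2.2.2, ?_, ?_, ?_, ?_, ?_, ?_,
    (hsd _).2 hl₅, hm₁ _ hi₂'.2, hm₂ _ (Finset.mem_of_mem_erase hi₃), hm₃ _ (Finset.mem_of_mem_erase hi₄), hm₄ _ ?_, ?_⟩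
  · exact fun e => hi₂'.1 e.symm
  · exact fun e => hi₃'.2.1 e.symm
  · exact fun e => hi₄'.2.2.1 e.symm
  · exact fun e => hi₃'.1 e.symm
  · exact fun e => hi₄'.2.1 e.symm
  · exact fun e => hi₄'.1 e.symm
  · exact Finset.mem_of_mem_erase hl₅
  · intro l hl
    exact hm₅ l ((hsd l).1 hl)

lemma cG_sixth : cG ^ 6 = 1 / (8 * π ^ 3) := by
  have hpi := Real.pi_pos
  have h2 : cG ^ 2 = 1 / (2 * π) := by
    unfold cG
    rw [inv_pow, Real.sq_sqrt (by positivity), one_div]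
  have : cG ^ 6 = (cG ^ 2) ^ 3 := by ring
  rw [this, h2]
  field_simp
  ring

lemma cG_sixth_le : cG ^ 6 ≤ 4031445 / 10 ^ 9 := by
  have hpi := Real.pi_pos
  have h6 : (3.141592 : ℝ) < π := Real.pi_gt_d6
  have h3 : (3.141592 : ℝ) ^ 3 ≤ π ^ 3 := pow_le_pow_left₀ (by norm_num) h6.le 3
  rw [cG_sixth, div_le_iff₀ (by positivity)]
  norm_num at h3 ⊢
  linarith

variable {E : Type*} [NormedAddCommGroup E] [InnerProductSpace ℝ E] [FiniteDimensional ℝ E]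
  [MeasurableSpace E] [BorelSpace E]

lemma area_le_one {S : Finset ℕ} {u : ℕ → E} (m : ℕ) : area S u m ≤ 1 := by
  unfold area
  exact measureReal_le_one

theorem exists_cfg {S : Finset ℕ} {u : ℕ → E} (h : Crit S u) (hk : 5 ≤ S.card) (hP : PB E 4)
    {nodes : List (ℕ × ℕ)} (htb : ∀ m ∈ S, Tb nodes (area S u m) (‖u m‖ ^ 2)) :
    Nonempty (Cfg nodes) := by
  classical
  obtain ⟨i₁, i₂, i₃, i₄, l₅, hi₁, hi₂, hi₃, hi₄, h12, h13, h14, h23, h24, h34, hl₅, o12, o23, o34,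
    o45, omax⟩ := exists_top5 hk (fun l => ‖u l‖)
  set R : Finset ℕ := S \ {i₁, i₂, i₃, i₄} with hR
  have hS : S.Nonempty := Finset.card_pos.mp (by omega)
  have hRS : R ⊆ S := Finset.sdiff_subset
  have hsub := four_sub (S := S) hi₁ hi₂ hi₃ hi₄
  have hl₅S : l₅ ∈ S := hRS hl₅
  have hl₅notin : l₅ ∉ ({i₁, i₂, i₃, i₄} : Finset ℕ) := (Finset.mem_sdiff.mp hl₅).2
  have hsplit : ∀ (f : ℕ → ℝ),
      ∑ l ∈ S, f l = ∑ l ∈ R, f l + (f i₁ + (f i₂ + (f i₃ + f i₄))) := by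
    intro f
    rw [← Finset.sum_sdiff hsub, sum_four h12 h13 h14 h23 h24 h34]
  have hsplitE : ∀ (f : ℕ → E),
      ∑ l ∈ S, f l = ∑ l ∈ R, f l + (f i₁ + (f i₂ + (f i₃ + f i₄))) := by
    intro f
    rw [← Finset.sum_sdiff hsub, sum_four h12 h13 h14 h23 h24 h34]
  -- the zero sum identities
  have hz0 : ∑ l ∈ S, u l = 0 := h.sum_eq_zero hS
  have hz : ∀ a, ∑ l ∈ R, ⟪u a, u l⟫ + (⟪u a, u i₁⟫ + (⟪u a, u i₂⟫ + (⟪u a, u i₃⟫ + ⟪u a, u i₄⟫)))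
      = 0 := by
    intro a
    rw [← hsplit (fun l => ⟪u a, u l⟫), ← inner_sum, hz0, inner_zero_right]
  -- names for the tail sums
  have hself : ∀ a, ⟪u a, u a⟫ = ‖u a‖ ^ 2 := fun a => real_inner_self_eq_norm_sq _
  have hcomm : ∀ a b, ⟪u a, u b⟫ = ⟪u b, u a⟫ := fun a b => real_inner_comm _ _
  -- the tail is small: norms
  have hnn : ∀ l, 0 ≤ ‖u l‖ ^ 2 := fun l => by positivity
  have hRle : ∀ l ∈ R, ‖u l‖ ^ 2 ≤ ‖u l₅‖ ^ 2 := fun l hl =>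
    pow_le_pow_left₀ (norm_nonneg _) (omax l hl) 2
  -- splitting the tail at `l₅`
  have hsumT : ∑ l ∈ R, ‖u l‖ ^ 2 = ‖u l₅‖ ^ 2 + ∑ l ∈ R.erase l₅, ‖u l‖ ^ 2 :=
    (Finset.add_sum_erase R _ hl₅).symm
  have hsumA : ∑ l ∈ R, area S u l = area S u l₅ + ∑ l ∈ R.erase l₅, area S u l :=
    (Finset.add_sum_erase R _ hl₅).symm
  have hy_pos : 0 < ‖u l₅‖ ^ 2 := by
    have hne : l₅ ≠ i₁ := by
      intro e
      exact hl₅notin (by simp [e])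
    have := u_ne h hl₅S hi₁ hne
    have := norm_pos_iff.mpr this
    positivity
  have hTnn : 0 ≤ ∑ l ∈ R.erase l₅, ‖u l‖ ^ 2 := Finset.sum_nonneg fun l _ => hnn l
  have hc6 := cG_sixth_le
  have hc0 : 0 ≤ cG := cG_pos.le
  have hR4 : (S \ {i₁, i₃, i₂, i₄} : Finset ℕ) = R := by
    ext l
    simp only [hR, Finset.mem_sdiff, Finset.mem_insert, Finset.mem_singleton]
    tauto
  have hR5 : (S \ {i₁, i₄, i₂, i₃} : Finset ℕ) = R := by
    ext l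
    simp only [hR, Finset.mem_sdiff, Finset.mem_insert, Finset.mem_singleton]
    tauto
  have hRne : R.Nonempty := ⟨l₅, hl₅⟩
  -- the leak
  have hleak : ∑ l ∈ R, (-⟪u i₁, u l⟫) + ∑ l ∈ R, (-⟪u i₂, u l⟫) + ∑ l ∈ R, (-⟪u i₃, u l⟫)
      + ∑ l ∈ R, (-⟪u i₄, u l⟫) ≤ ∑ l ∈ R, ‖u l‖ ^ 2 := by
    have h1 := h.norm_sum_sq_le R hRS
    refine le_trans (le_of_eq ?_) h1
    have hw : ∑ l ∈ R, u l + (u i₁ + (u i₂ + (u i₃ + u i₄))) = 0 := by
      rw [← hsplitE u]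
      exact hz0
    have hw' : ∑ l ∈ R, u l = -(u i₁ + (u i₂ + (u i₃ + u i₄))) := eq_neg_of_add_eq_zero_left hw
    rw [← real_inner_self_eq_norm_sq]
    nth_rewrite 2 [hw']
    rw [inner_neg_right, inner_add_right, inner_add_right, inner_add_right]
    simp only [sum_inner, Finset.sum_neg_distrib]
    simp only [real_inner_comm]
    ring
  refine ⟨{
    x₁ := ‖u i₁‖ ^ 2
    x₂ := ‖u i₂‖ ^ 2
    x₃ := ‖u i₃‖ ^ 2
    x₄ := ‖u i₄‖ ^ 2
    y := ‖u l₅‖ ^ 2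
    T := ∑ l ∈ R, ‖u l‖ ^ 2
    a₁ := area S u i₁
    a₂ := area S u i₂
    a₃ := area S u i₃
    a₄ := area S u i₄
    a₅ := area S u l₅
    aR := ∑ l ∈ R.erase l₅, area S u l
    c12 := -⟪u i₁, u i₂⟫
    c13 := -⟪u i₁, u i₃⟫
    c14 := -⟪u i₁, u i₄⟫
    c23 := -⟪u i₂, u i₃⟫
    c24 := -⟪u i₂, u i₄⟫
    c34 := -⟪u i₃, u i₄⟫
    i1 := ∑ l ∈ R, (-⟪u i₁, u l⟫)
    i2 := ∑ l ∈ R, (-⟪u i₂, u l⟫)
    i3 := ∑ l ∈ R, (-⟪u i₃, u l⟫)
    i4 := ∑ l ∈ R, (-⟪u i₄, u l⟫)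
    y_pos := hy_pos
    y_le := pow_le_pow_left₀ (norm_nonneg _) o45 2
    o34 := pow_le_pow_left₀ (norm_nonneg _) o34 2
    o23 := pow_le_pow_left₀ (norm_nonneg _) o23 2
    o12 := pow_le_pow_left₀ (norm_nonneg _) o12 2
    y_le_T := by linarith
    a₁_nn := measureReal_nonneg
    a₂_nn := measureReal_nonneg
    a₃_nn := measureReal_nonneg
    a₄_nn := measureReal_nonneg
    a₅_nn := measureReal_nonneg
    aR_nn := Finset.sum_nonneg fun l _ => measureReal_nonneg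
    a_sum := by
      have h1 := h.sum_area hS
      rw [hsplit, hsumA] at h1
      linarith
    tb₁ := htb _ hi₁
    tb₂ := htb _ hi₂
    tb₃ := htb _ hi₃
    tb₄ := htb _ hi₄
    tb₅ := htb _ hl₅S
    chord := by
      intro c yb hc hy
      have e1 : ∑ l ∈ R, ‖u l‖ ^ 2 - ‖u l₅‖ ^ 2 = ∑ l ∈ R.erase l₅, ‖u l‖ ^ 2 := by linarith
      rw [e1, Finset.mul_sum]
      refine Finset.sum_le_sum fun l hl => ?_
      have hlR : l ∈ R := Finset.mem_of_mem_erase hl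
      refine chordOK_sound (htb l (hRS hlR)) measureReal_nonneg (area_le_one l) (hnn l) ?_
        ((hRle l hlR).trans hy) hc
      have := area_lower h (hRS hlR)
      calc (‖u l‖ ^ 2) ^ 2 = ‖u l‖ ^ 4 := by ring
        _ ≤ _ := this
    energy := by
      have h1 := h.big
      rw [hsplit] at h1
      linarith
    c12_nn := (c_pos h hi₁ hi₂ h12).le
    c13_nn := (c_pos h hi₁ hi₃ h13).le
    c14_nn := (c_pos h hi₁ hi₄ h14).le
    c23_nn := (c_pos h hi₂ hi₃ h23).le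
    c24_nn := (c_pos h hi₂ hi₄ h24).le
    c34_nn := (c_pos h hi₃ hi₄ h34).le
    i1_nn := Finset.sum_nonneg fun l hl => (c_pos h hi₁ (hRS hl) (fun e => by
      rw [e] at hi₁ ; exact (Finset.mem_sdiff.mp hl).2 (by simp [e]))).le
    i2_nn := Finset.sum_nonneg fun l hl => (c_pos h hi₂ (hRS hl) (fun e => by
      exact (Finset.mem_sdiff.mp hl).2 (by simp [e]))).le
    i3_nn := Finset.sum_nonneg fun l hl => (c_pos h hi₃ (hRS hl) (fun e => by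
      exact (Finset.mem_sdiff.mp hl).2 (by simp [e]))).le
    i4_nn := Finset.sum_nonneg fun l hl => (c_pos h hi₄ (hRS hl) (fun e => by
      exact (Finset.mem_sdiff.mp hl).2 (by simp [e]))).le
    deg1 := by
      have h1 := hz i₁
      rw [hself i₁] at h1
      rw [Finset.sum_neg_distrib]
      linarith
    deg2 := by
      have h1 := hz i₂
      rw [hself i₂, hcomm i₂ i₁] at h1
      rw [Finset.sum_neg_distrib]
      linarith
    deg3 := by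
      have h1 := hz i₃
      rw [hself i₃, hcomm i₃ i₁, hcomm i₃ i₂] at h1
      rw [Finset.sum_neg_distrib]
      linarith
    deg4 := by
      have h1 := hz i₄
      rw [hself i₄, hcomm i₄ i₁, hcomm i₄ i₂, hcomm i₄ i₃] at h1
      rw [Finset.sum_neg_distrib]
      linarith
    leak := hleak
    v1 := by
      intro hT
      have h1 := crit_V1 hP h hi₁ hi₂ hi₃ hi₄ h12 h13 h14 h23 h24 h34 hRne (ς := ‖u l₅‖) omax
        (fun l hl => (omax l hl).trans o45) hT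
      have e1 : ((15 / 2) * cG ^ 3 * ‖u l₅‖) ^ 2 = (225 / 4) * cG ^ 6 * ‖u l₅‖ ^ 2 := by ring
      rw [e1] at h1
      have h2 : (225 / 4) * cG ^ 6 * ‖u l₅‖ ^ 2 ≤ 22677 / 100000 * ‖u l₅‖ ^ 2 := by
        refine mul_le_mul_of_nonneg_right ?_ hy_pos.le
        linarith
      nlinarith
    v4a := by
      intro hT
      have h1 := crit_V4 hP h hi₁ hi₂ hi₃ hi₄ h12 h13 h14 h23 h24 h34 hRne (ς := ‖u l₅‖) omax hT
      have e1 : ((64 / 9) * cG ^ 3 * ‖u l₅‖) ^ 2 = (4096 / 81) * cG ^ 6 * ‖u l₅‖ ^ 2 := by ring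
      rw [e1] at h1
      have h2 : (4096 / 81) * cG ^ 6 * ‖u l₅‖ ^ 2 ≤ 20387 / 100000 * ‖u l₅‖ ^ 2 := by
        refine mul_le_mul_of_nonneg_right ?_ hy_pos.le
        linarith
      linarith
    v4b := by
      intro hT
      have h1 := crit_V4 hP h hi₁ hi₃ hi₂ hi₄ h13 h12 h14 h23.symm h34 h24
        (by rw [hR4]; exact hRne) (ς := ‖u l₅‖) (by rw [hR4]; exact omax)
        (by rw [hR4]; exact hT)
      have e1 : ((64 / 9) * cG ^ 3 * ‖u l₅‖) ^ 2 = (4096 / 81) * cG ^ 6 * ‖u l₅‖ ^ 2 := by ring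
      rw [e1] at h1
      have h2 : (4096 / 81) * cG ^ 6 * ‖u l₅‖ ^ 2 ≤ 20387 / 100000 * ‖u l₅‖ ^ 2 := by
        refine mul_le_mul_of_nonneg_right ?_ hy_pos.le
        linarith
      linarith
    v4c := by
      intro hT
      have h1 := crit_V4 hP h hi₁ hi₄ hi₂ hi₃ h14 h12 h13 h24.symm h34.symm h23
        (by rw [hR5]; exact hRne) (ς := ‖u l₅‖) (by rw [hR5]; exact omax)
        (by rw [hR5]; exact hT)
      have e1 : ((64 / 9) * cG ^ 3 * ‖u l₅‖) ^ 2 = (4096 / 81) * cG ^ 6 * ‖u l₅‖ ^ 2 := by ring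
      rw [e1] at h1
      have h2 : (4096 / 81) * cG ^ 6 * ‖u l₅‖ ^ 2 ≤ 20387 / 100000 * ‖u l₅‖ ^ 2 := by
        refine mul_le_mul_of_nonneg_right ?_ hy_pos.le
        linarith
      linarith
    v6 := by
      intro hT
      have h1 := crit_V6 hP h hi₁ hi₂ hi₃ hi₄ h12 h13 h14 h23 h24 h34 hRne (ς := ‖u l₅‖) omax hT
      have e1 : ((32 / 3) * cG ^ 3 * ‖u l₅‖ ^ 2) ^ 2 = (1024 / 9) * cG ^ 6 * (‖u l₅‖ ^ 2) ^ 2 := by
        ring
      rw [e1] at h1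
      have h2 : (1024 / 9) * cG ^ 6 * (‖u l₅‖ ^ 2) ^ 2 ≤ 45869 / 100000 * (‖u l₅‖ ^ 2) ^ 2 := by
        refine mul_le_mul_of_nonneg_right ?_ (by positivity)
        linarith
      linarith
  }⟩

end Vale.Agent.Lib.P226
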