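import Vale.Agent.Lib.P226.X.NumCertB

/-!
Numerical certificates (`Cert`) used for the table of upper bounds of the energy of a cell.
Generated data, checked by the verified checker of `NumCertB`.
-/

namespace Vale.Agent.Lib.P226.CD

open Vale.Agent.Lib.P226

/-- Table of values of the Gaussian density and tail. -/
def L : List Ent := [
  ⟨0, 997355701/2500000000, 39894228041/100000000000, 1/2, 1/2, 1⟩,
  ⟨1/8, 19791884347/50000000000, 7916753739/20000000000, 11256544379/25000000000, 45026177517/100000000000, 2⟩,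
  ⟨1/4, 241667573/625000000, 38666811681/100000000000, 40129367431/100000000000, 5016170929/12500000000, 3⟩,
  ⟨3/8, 18592754693/50000000000, 9296377347/25000000000, 8845755833/25000000000, 35383023333/100000000000, 3⟩,
  ⟨7/16, 4531653963/12500000000, 7250646341/20000000000, 8271859701/25000000000, 6617487761/20000000000, 3⟩,
  ⟨15/32, 35743497751/100000000000, 4467937219/12500000000, 31962417151/100000000000, 15606649/48828125, 4⟩,
  ⟨31/64, 35478329819/100000000000, 1773916491/5000000000, 15702993937/50000000000, 251247903/800000000, 4⟩,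
  ⟨1/2, 8801633169/25000000000, 35206532677/100000000000, 1928359617/6250000000, 30853753873/100000000000, 4⟩,
  ⟨33/64, 17464144649/50000000000, 34928289299/100000000000, 15152908651/50000000000, 30305817303/100000000000, 4⟩,
  ⟨17/32, 34643785937/100000000000, 17321892969/50000000000, 7440569359/25000000000, 29762277437/100000000000, 4⟩,
  ⟨9/16, 34056759431/100000000000, 4257094929/12500000000, 28688770181/100000000000, 14344385091/50000000000, 4⟩,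
  ⟨5/8, 6563219371/20000000000, 4102012107/12500000000, 3324819113/12500000000, 5319710581/20000000000, 4⟩,
  ⟨21/32, 16082833179/50000000000, 32165666359/100000000000, 12791582067/50000000000, 5116632827/20000000000, 4⟩,
  ⟨43/64, 31833641677/100000000000, 15916820839/50000000000, 12541581927/50000000000, 5016632771/20000000000, 4⟩,
  ⟨11/16, 15748676771/50000000000, 31497353543/100000000000, 12294192519/50000000000, 24588385039/100000000000, 4⟩,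
  ⟨45/64, 31157010309/100000000000, 3115701031/10000000000, 6024723169/25000000000, 24098892677/100000000000, 4⟩,
  ⟨23/32, 30812821059/100000000000, 30812821061/100000000000, 23614748497/100000000000, 11807374249/50000000000, 4⟩,
  ⟨3/4, 6022748643/20000000000, 1882108951/6250000000, 22662735237/100000000000, 11331367619/50000000000, 5⟩,
  ⟨25/32, 7350449813/25000000000, 29401799253/100000000000, 21732773567/100000000000, 339574587/1562500000, 5⟩,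
  ⟨13/16, 7169666689/25000000000, 28678666757/100000000000, 650788729/3125000000, 20825239329/100000000000, 5⟩,
  ⟨27/32, 27946015227/100000000000, 6986503807/25000000000, 19940456047/100000000000, 1246278503/6250000000, 5⟩,
  ⟨7/8, 27205499837/100000000000, 13602749919/50000000000, 3815739057/20000000000, 9539347643/50000000000, 5⟩,
  ⟨15/16, 12853695367/50000000000, 5141478147/20000000000, 4356267797/25000000000, 17425071189/100000000000, 5⟩,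
  ⟨31/32, 12476491467/50000000000, 4990596587/20000000000, 16633496949/100000000000, 332669939/2000000000, 5⟩,
  ⟨1, 24197072451/100000000000, 24197072453/100000000000, 15865525393/100000000000, 7932762697/50000000000, 5⟩,
  ⟨33/32, 5860289531/25000000000, 11720579063/50000000000, 1890147493/12500000000, 7560589973/50000000000, 5⟩,
  ⟨17/16, 2835836587/12500000000, 22686692697/100000000000, 144004379/1000000000, 14400437901/100000000000, 6⟩,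
  ⟨35/32, 21935078679/100000000000, 548376967/2500000000, 1370323193/10000000000, 13703231931/100000000000, 6⟩,
  ⟨9/8, 21187664577/100000000000, 10593832289/50000000000, 13029451713/100000000000, 6514725857/50000000000, 6⟩,
  ⟨37/32, 10222870753/50000000000, 20445741507/100000000000, 495157827/4000000000, 3094736419/25000000000, 6⟩,
  ⟨19/16, 19710540191/100000000000, 615954381/3125000000, 11751522829/100000000000, 1175152283/10000000000, 6⟩,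
  ⟨39/32, 18983228361/100000000000, 9491614181/50000000000, 2786738677/25000000000, 11146954709/100000000000, 6⟩,
  ⟨5/4, 9132454269/50000000000, 913245427/5000000000, 5282488683/50000000000, 10564977367/100000000000, 6⟩,
  ⟨41/32, 17556616221/100000000000, 8778308111/50000000000, 10005293447/100000000000, 1250661681/12500000000, 6⟩,
  ⟨21/16, 16859318451/100000000000, 16859318453/100000000000, 4733787151/50000000000, 9467574303/100000000000, 6⟩,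
  ⟨43/32, 16173912771/100000000000, 4043478193/25000000000, 34966649/390625000, 1790292429/20000000000, 7⟩,
  ⟨11/8, 3100245309/20000000000, 7750613273/50000000000, 1691314447/20000000000, 2114143059/25000000000, 7⟩,
  ⟨45/32, 3710504163/25000000000, 14842016653/100000000000, 3991247541/50000000000, 7982495083/100000000000, 7⟩,
  ⟨23/16, 177462119/1250000000, 14196969521/100000000000, 7528798641/100000000000, 3764399321/50000000000, 7⟩,
  ⟨47/32, 6783350751/50000000000, 13566701503/100000000000, 7095030513/100000000000, 3547515257/50000000000, 7⟩,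
  ⟨3/2, 6475879783/50000000000, 12951759567/100000000000, 3340360063/50000000000, 6680720127/100000000000, 7⟩,
  ⟨49/32, 12352622287/100000000000, 12352622289/100000000000, 1257076177/20000000000, 3142690443/50000000000, 7⟩,
  ⟨25/16, 5884850561/50000000000, 11769701123/100000000000, 5908512293/100000000000, 2954256147/50000000000, 7⟩,
  ⟨51/32, 5601670971/50000000000, 11203341943/100000000000, 2774801011/50000000000, 5549602023/100000000000, 8⟩,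
  ⟨13/8, 10653826813/100000000000, 5326913407/50000000000, 5208127941/100000000000, 2604063971/50000000000, 8⟩,
  ⟨53/32, 2024275197/20000000000, 5060687993/50000000000, 4883560073/100000000000, 2441780037/50000000000, 8⟩,
  ⟨27/16, 960615009/10000000000, 9606150091/100000000000, 71490039/1562500000, 4575362497/100000000000, 8⟩,
  ⟨55/32, 9108252507/100000000000, 2277063127/25000000000, 428299517/10000000000, 4282995171/100000000000, 8⟩,
  ⟨7/4, 4313865941/50000000000, 8627731883/100000000000, 2002957843/50000000000, 4005915687/100000000000, 8⟩,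
  ⟨57/32, 408229239/5000000000, 8164584781/100000000000, 467947617/12500000000, 3743580937/100000000000, 8⟩,
  ⟨29/16, 7718758443/100000000000, 1543751689/20000000000, 436931087/12500000000, 3495448697/100000000000, 8⟩,
  ⟨59/32, 3645076821/50000000000, 7290153643/100000000000, 3260979127/100000000000, 407622391/12500000000, 8⟩,
  ⟨15/8, 3439313791/50000000000, 6878627583/100000000000, 189977261/6250000000, 3039636177/100000000000, 9⟩,
  ⟨61/32, 810499609/12500000000, 6483996873/100000000000, 2830888897/100000000000, 1415444449/50000000000, 9⟩,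
  ⟨31/16, 763255063/12500000000, 1221208101/20000000000, 658553167/25000000000, 2634212669/100000000000, 9⟩,
  ⟨63/32, 114890057/2000000000, 5744502851/100000000000, 1224545163/50000000000, 2449090327/100000000000, 9⟩,
  ⟨2, 5399096651/100000000000, 1349774163/25000000000, 1137506597/50000000000, 455002639/20000000000, 9⟩,
  ⟨65/32, 1267376493/25000000000, 5069505973/100000000000, 2111482031/100000000000, 131967627/6250000000, 9⟩,
  ⟨33/16, 2377694563/50000000000, 4755389127/100000000000, 1958007877/100000000000, 979003939/50000000000, 9⟩,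
  ⟨67/32, 2228190767/50000000000, 139261923/3125000000, 113382051/6250000000, 1814112817/100000000000, 9⟩,
  ⟨17/8, 166883941/4000000000, 2086049263/50000000000, 419832661/25000000000, 335866129/20000000000, 10⟩,
  ⟨69/32, 975534513/25000000000, 3902138053/100000000000, 77660373/5000000000, 1553207461/100000000000, 10⟩,
  ⟨35/16, 3646083317/100000000000, 1823041659/50000000000, 17941277/1250000000, 1435302161/100000000000, 10⟩,
  ⟨71/32, 3403505301/100000000000, 1701752651/50000000000, 1325186867/100000000000, 331296717/25000000000, 10⟩,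
  ⟨9/4, 3173965183/100000000000, 24796603/781250000, 244489453/20000000000, 611223633/50000000000, 10⟩,
  ⟨73/32, 2957016649/100000000000, 2957016651/100000000000, 563341439/50000000000, 1126682879/100000000000, 10⟩,
  ⟨37/16, 34402601/1250000000, 2752208081/100000000000, 207501453/20000000000, 518753633/50000000000, 10⟩,
  ⟨75/32, 2559084613/100000000000, 1279542307/50000000000, 954548153/100000000000, 477274077/50000000000, 11⟩,
  ⟨19/8, 1188595041/50000000000, 594297521/25000000000, 877447509/100000000000, 87744751/10000000000, 11⟩,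
  ⟨77/32, 2206068829/100000000000, 220606883/10000000000, 50366347/6250000000, 805861553/100000000000, 11⟩,
  ⟨79/32, 1894335981/100000000000, 947167991/50000000000, 67792953/10000000000, 677929531/100000000000, 11⟩,
  ⟨5/2, 1752830049/100000000000, 35056601/2000000000, 155241633/25000000000, 620966533/100000000000, 11⟩,
  ⟨81/32, 1620311429/100000000000, 1620311431/100000000000, 142071009/25000000000, 568284037/100000000000, 11⟩,
  ⟨83/32, 1380522597/100000000000, 690261299/50000000000, 474677453/100000000000, 237338727/50000000000, 12⟩,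
  ⟨21/8, 1272418159/100000000000, 15905227/1250000000, 108311209/25000000000, 433244837/100000000000, 12⟩,
  ⟨85/32, 1171634311/100000000000, 146454289/12500000000, 197537533/50000000000, 395075067/100000000000, 12⟩,
  ⟨11/4, 145497/16000000, 909356251/100000000000, 297976323/100000000000, 74494081/25000000000, 12⟩,
  ⟨45/16, 764260581/100000000000, 382130291/50000000000, 245790117/100000000000, 122895059/50000000000, 13⟩,
  ⟨91/32, 699614801/100000000000, 349807401/50000000000, 222930081/100000000000, 111465041/50000000000, 13⟩,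
  ⟨23/8, 639812031/100000000000, 9997063/1562500000, 50503437/25000000000, 202013749/100000000000, 13⟩,
  ⟨93/32, 292275023/50000000000, 18267189/3125000000, 182894533/100000000000, 91447267/50000000000, 13⟩,
  ⟨47/16, 533539873/100000000000, 266769937/50000000000, 33087017/20000000000, 82717543/50000000000, 13⟩,
  ⟨3, 443184841/100000000000, 221592421/50000000000, 134989803/100000000000, 33747451/25000000000, 14⟩,
  ⟨97/32, 100831851/25000000000, 80665481/20000000000, 121771753/100000000000, 60885877/50000000000, 14⟩,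
  ⟨49/16, 183348117/50000000000, 73339247/20000000000, 109748237/100000000000, 54874119/50000000000, 14⟩,
  ⟨99/32, 20816661/6250000000, 166533289/50000000000, 98821977/100000000000, 49410989/50000000000, 14⟩,
  ⟨25/8, 302225803/100000000000, 75556451/25000000000, 88902529/100000000000, 8890253/10000000000, 14⟩,
  ⟨51/16, 248119083/100000000000, 62029771/25000000000, 17938557/25000000000, 71754229/100000000000, 15⟩,
  ⟨13/4, 40580961/20000000000, 101452403/50000000000, 7212813/12500000000, 11540501/20000000000, 15⟩,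
  ⟨27/8, 134111887/100000000000, 8381993/6250000000, 7381569/20000000000, 18453923/50000000000, 16⟩,
  ⟨7/2, 87268269/100000000000, 8726827/10000000000, 23262907/100000000000, 5815727/25000000000, 16⟩,
  ⟨57/16, 69985201/100000000000, 34992601/50000000000, 3673399/20000000000, 4591749/25000000000, 17⟩,
  ⟨29/8, 6988269/12500000000, 55906153/100000000000, 1806009/12500000000, 14448073/100000000000, 17⟩,
  ⟨15/4, 2203723/6250000000, 35259569/100000000000, 17269/195312500, 8841729/100000000000, 18⟩,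
  ⟨31/8, 21893163/100000000000, 4378633/20000000000, 2665617/50000000000, 1066247/20000000000, 18⟩,
  ⟨63/16, 17150611/100000000000, 4287653/25000000000, 2058373/50000000000, 4116747/100000000000, 19⟩,
  ⟨65/16, 10402371/100000000000, 2600593/25000000000, 2427497/100000000000, 1213749/50000000000, 20⟩,
  ⟨35/8, 2783403/100000000000, 556681/20000000000, 303581/50000000000, 607163/100000000000, 21⟩,
  ⟨147/32, 521821/50000000000, 260911/25000000000, 8707/4000000000, 54419/25000000000, 23⟩,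
  ⟨77/16, 373031/100000000000, 373033/100000000000, 37263/50000000000, 74527/100000000000, 24⟩,
  ⟨161/32, 127103/100000000000, 993/781250000, 6091/25000000000, 4873/20000000000, 26⟩,
  ⟨81/16, 54279/50000000000, 108559/100000000000, 20689/100000000000, 2069/10000000000, 26⟩,
  ⟨21/4, 10321/25000000000, 8257/20000000000, 1901/25000000000, 1521/20000000000, 28⟩,
  ⟨175/32, 12783/100000000000, 799/6250000000, 1133/50000000000, 2267/100000000000, 29⟩,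
  ⟨45/8, 5373/100000000000, 2687/50000000000, 927/100000000000, 29/3125000000, 31⟩,
  ⟨91/16, 3773/100000000000, 1887/50000000000, 161/25000000000, 129/20000000000, 31⟩,
  ⟨93/16, 919/50000000000, 23/1250000000, 307/100000000000, 77/25000000000, 32⟩,
  ⟨189/32, 1061/100000000000, 531/50000000000, 87/50000000000, 7/4000000000, 33⟩,
  ⟨6, 607/100000000000, 19/3125000000, 49/50000000000, 99/100000000000, 34⟩,
  ⟨49/8, 71/25000000000, 57/20000000000, 9/20000000000, 23/50000000000, 35⟩,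
  ⟨99/16, 193/100000000000, 39/20000000000, 3/10000000000, 31/100000000000, 35⟩,
  ⟨203/32, 9/12500000000, 73/100000000000, 11/100000000000, 3/25000000000, 37⟩,
  ⟨51/8, 59/100000000000, 3/5000000000, 9/100000000000, 1/10000000000, 37⟩,
  ⟨105/16, 17/100000000000, 9/50000000000, 1/50000000000, 3/100000000000, 39⟩,
  ⟨27/4, 1/25000000000, 3/50000000000, 0, 1/100000000000, 40⟩,
  ⟨217/32, 1/25000000000, 1/20000000000, 0, 1/100000000000, 41⟩,
  ⟨7, 0, 1/50000000000, 0, 1/100000000000, 43⟩,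
  ⟨57/8, 0, 1/100000000000, 0, 1/100000000000, 44⟩,
  ⟨231/32, 0, 1/100000000000, 0, 1/100000000000, 45⟩,
  ⟨119/16, 0, 1/100000000000, 0, 1/100000000000, 48⟩,
  ⟨15/2, 0, 1/100000000000, 0, 1/100000000000, 49⟩,
  ⟨251/32, 0, 1/100000000000, 0, 1/100000000000, 53⟩,
  ⟨63/8, 0, 1/100000000000, 0, 1/100000000000, 54⟩,
  ⟨255/32, 0, 1/100000000000, 0, 1/100000000000, 55⟩,
  ⟨8, 0, 1/100000000000, 0, 1/100000000000, 56⟩]

theorem L_ok : L.all Ent.ok = true := by decide +kernel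

/-- Table as a function. -/
def tb (i : ℕ) : Ent := tblOf L i

theorem tb_valid (i : ℕ) : (tb i).Valid := tblOf_valid L_ok i

/-- Passing from the rational parameter to `5 / 4`. -/
theorem cert54 {P : Par} (h : P.κ = 5 / 4) (hc : Cert (P.κ : ℝ) P.A P.B P.μa P.μm) :
    Cert (5 / 4) (P.A : ℝ) P.B P.μa P.μm := by
  rw [h] at hc
  have e : (((5 / 4 : ℚ)) : ℝ) = 5 / 4 := by norm_num
  rwa [e] at hc

/-- Parameters. -/
def P0 : Par := ⟨5 / 4, (-33163/100000), 6469/20000, 118549/100000, 49/100000⟩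

/-- Cells. -/
def T0 : CT :=
  (.su 52 (.su 21 (.su 3 (.su 1 (.ss (3/2) (.ss (5/4) (.leaf 38) (.leaf 26)) (.ss (7/4) (.leaf 17) (.leaf 4))) (.su 2 (.ss (3/2) (.ss (5/4) (.leaf 124) (.leaf 32)) (.ss (7/4) (.leaf 25) (.leaf 21))) (.ss (3/2) (.ss (5/4) (.leaf 124) (.leaf 40)) (.ss (7/4) (.leaf 30) (.leaf 25))))) (.su 11 (.su 7 (.su 4 (.ss (3/2) (.ss (5/4) (.leaf 124) (.leaf 64)) (.ss (7/4) (.leaf 35) (.leaf 29))) (.ss (3/2) (.ss (5/4) (.leaf 124) (.leaf 74)) (.ss (7/4) (.leaf 41) (.leaf 32)))) (.ss (3/2) (.ss (5/4) (.leaf 124) (.leaf 82)) (.ss (7/4) (.leaf 48) (.leaf 37)))) (.su 17 (.ss (3/2) (.ss (5/4) (.leaf 124) (.leaf 93)) (.ss (7/4) (.leaf 62) (.leaf 45))) (.ss (3/2) (.ss (5/4) (.leaf 124) (.leaf 124)) (.ss (7/4) (.leaf 74) (.leaf 56)))))) (.su 36 (.su 28 (.su 24 (.ss (3/2) (.ss (5/4) (.leaf 124) (.leaf 124)) (.ss (7/4) (.leaf 84) (.leaf 67))) (.ss (3/2) (.ss (5/4) (.leaf 124)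 (.leaf 124)) (.ss (7/4) (.leaf 114) (.leaf 75)))) (.su 32 (.ss (3/2) (.ss (5/4) (.leaf 124) (.leaf 124)) (.ss (7/4) (.leaf 120) (.leaf 83))) (.ss (3/2) (.ss (5/4) (.leaf 124) (.leaf 124)) (.ss (7/4) (.leaf 124) (.leaf 99))))) (.su 44 (.su 40 (.ss (3/2) (.ss (5/4) (.leaf 124) (.leaf 124)) (.ss (7/4) (.leaf 124) (.leaf 102))) (.ss (3/2) (.ss (5/4) (.leaf 124) (.leaf 124)) (.ss (7/4) (.leaf 124) (.leaf 105)))) (.su 48 (.ss (3/2) (.ss (5/4) (.leaf 124) (.leaf 124)) (.ss (7/4) (.leaf 124) (.leaf 109))) (.ss (3/2) (.ss (5/4) (.leaf 124) (.leaf 124)) (.ss (7/4) (.leaf 124) (.leaf 113))))))) (.su 79 (.su 68 (.su 60 (.su 56 (.ss (3/2) (.ss (5/4) (.leaf 124) (.leaf 124)) (.ss (7/4) (.leaf 124) (.leaf 116))) (.ss (3/2) (.ss (5/4) (.leaf 124) (.leaf 124)) (.ss (7/4) (.leaf 124) (.leaf 119)))) (.su 64 (.ss (3/2) (.ss (5/4) (.leaf 124) (.leaf 124)) (.ss (7/4) (.leaf 124) (.leaf 122))) (.ss (3/2)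 (.ss (5/4) (.leaf 124) (.leaf 124)) (.ss (7/4) (.leaf 124) (.leaf 124))))) (.su 74 (.su 71 (.ss (3/2) (.ss (5/4) (.leaf 124) (.leaf 124)) (.ss (7/4) (.leaf 124) (.leaf 124))) (.ss (3/2) (.ss (5/4) (.leaf 124) (.leaf 124)) (.ss (7/4) (.leaf 124) (.leaf 124)))) (.su 76 (.ss (3/2) (.ss (5/4) (.leaf 124) (.leaf 124)) (.ss (7/4) (.leaf 124) (.leaf 124))) (.ss (3/2) (.ss (5/4) (.leaf 124) (.leaf 124)) (.ss (7/4) (.leaf 124) (.leaf 124)))))) (.su 89 (.su 86 (.su 82 (.ss (3/2) (.ss (5/4) (.leaf 124) (.leaf 124)) (.ss (7/4) (.leaf 124) (.leaf 124))) (.ss (3/2) (.ss (5/4) (.leaf 124) (.leaf 124)) (.ss (7/4) (.leaf 124) (.leaf 124)))) (.su 88 (.ss (3/2) (.ss (5/4) (.leaf 124) (.leaf 124)) (.ss (7/4) (.leaf 124) (.leaf 124))) (.ss (3/2) (.ss (5/4) (.leaf 124) (.leaf 124)) (.ss (7/4) (.leaf 124) (.leaf 124))))) (.su 92 (.su 90 (.ss (3/2) (.ss (5/4) (.leaf 124) (.leaf 124)) (.ss (7/4) (.leaf 124)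 (.leaf 124))) (.ss (3/2) (.ss (5/4) (.leaf 124) (.leaf 124)) (.ss (7/4) (.leaf 124) (.leaf 124)))) (.su 93 (.ss (3/2) (.ss (5/4) (.leaf 124) (.leaf 124)) (.ss (7/4) (.leaf 124) (.leaf 124))) (.ss (3/2) (.ss (5/4) (.leaf 124) (.leaf 124)) (.ss (7/4) (.leaf 124) (.leaf 124))))))))

/-- Certificate. -/
theorem C0 : Cert (5 / 4) (P0.A : ℝ) P0.B P0.μa P0.μm :=
  cert54 (by decide +kernel) (cert_of_check' tb_valid T0 0 94 (by decide +kernel) (by decide +kernel)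
    (by decide +kernel) (by decide +kernel) (by decide +kernel) (by decide +kernel) (by decide +kernel))

/-- Parameters. -/
def P1 : Par := ⟨5 / 4, (-35211/100000), 6333/20000, 23993/20000, 81/100000⟩

/-- Cells. -/
def T1 : CT :=
  (.su 52 (.su 21 (.su 3 (.su 1 (.ss (3/2) (.ss (5/4) (.leaf 39) (.leaf 26)) (.ss (7/4) (.leaf 17) (.leaf 4))) (.su 2 (.ss (3/2) (.ss (5/4) (.leaf 124) (.leaf 32)) (.ss (7/4) (.leaf 25) (.leaf 21))) (.ss (3/2) (.ss (5/4) (.leaf 124) (.leaf 40)) (.ss (7/4) (.leaf 31) (.leaf 26))))) (.su 11 (.su 7 (.su 4 (.ss (3/2) (.ss (5/4) (.leaf 124) (.leaf 64)) (.ss (7/4) (.leaf 35) (.leaf 29))) (.ss (3/2) (.ss (5/4) (.leaf 124) (.leaf 74)) (.ss (7/4) (.leaf 41) (.leaf 32)))) (.ss (3/2) (.ss (5/4) (.leaf 124) (.leaf 82)) (.ss (7/4) (.leaf 48) (.leaf 37)))) (.su 17 (.ss (3/2) (.ss (5/4) (.leaf 124) (.leaf 93)) (.ss (7/4) (.leaf 62) (.leaf 45))) (.ss (3/2) (.ss (5/4)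 (.leaf 124) (.leaf 124)) (.ss (7/4) (.leaf 74) (.leaf 56)))))) (.su 36 (.su 28 (.su 24 (.ss (3/2) (.ss (5/4) (.leaf 124) (.leaf 124)) (.ss (7/4) (.leaf 84) (.leaf 67))) (.ss (3/2) (.ss (5/4) (.leaf 124) (.leaf 124)) (.ss (7/4) (.leaf 114) (.leaf 75)))) (.su 32 (.ss (3/2) (.ss (5/4) (.leaf 124) (.leaf 124)) (.ss (7/4) (.leaf 120) (.leaf 83))) (.ss (3/2) (.ss (5/4) (.leaf 124) (.leaf 124)) (.ss (7/4) (.leaf 124) (.leaf 99))))) (.su 44 (.su 40 (.ss (3/2) (.ss (5/4) (.leaf 124) (.leaf 124)) (.ss (7/4) (.leaf 124) (.leaf 102))) (.ss (3/2) (.ss (5/4) (.leaf 124) (.leaf 124)) (.ss (7/4) (.leaf 124) (.leaf 105)))) (.su 48 (.ss (3/2) (.ss (5/4) (.leaf 124) (.leaf 124)) (.ss (7/4) (.leaf 124) (.leaf 109))) (.ss (3/2) (.ss (5/4) (.leaf 124) (.leaf 124)) (.ss (7/4) (.leaf 124) (.leaf 113))))))) (.su 76 (.su 64 (.su 56 (.ss (3/2) (.ss (5/4) (.leaf 124) (.leaf 124)) (.ss (7/4) (.leaf 124) (.leaf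 116))) (.su 60 (.ss (3/2) (.ss (5/4) (.leaf 124) (.leaf 124)) (.ss (7/4) (.leaf 124) (.leaf 119))) (.ss (3/2) (.ss (5/4) (.leaf 124) (.leaf 124)) (.ss (7/4) (.leaf 124) (.leaf 122))))) (.su 71 (.su 68 (.ss (3/2) (.ss (5/4) (.leaf 124) (.leaf 124)) (.ss (7/4) (.leaf 124) (.leaf 124))) (.ss (3/2) (.ss (5/4) (.leaf 124) (.leaf 124)) (.ss (7/4) (.leaf 124) (.leaf 124)))) (.su 74 (.ss (3/2) (.ss (5/4) (.leaf 124) (.leaf 124)) (.ss (7/4) (.leaf 124) (.leaf 124))) (.ss (3/2) (.ss (5/4) (.leaf 124) (.leaf 124)) (.ss (7/4) (.leaf 124) (.leaf 124)))))) (.su 88 (.su 82 (.su 79 (.ss (3/2) (.ss (5/4) (.leaf 124) (.leaf 124)) (.ss (7/4) (.leaf 124) (.leaf 124))) (.ss (3/2) (.ss (5/4) (.leaf 124) (.leaf 124)) (.ss (7/4) (.leaf 124) (.leaf 124)))) (.su 86 (.ss (3/2) (.ss (5/4) (.leaf 124) (.leaf 124)) (.ss (7/4) (.leaf 124) (.leaf 124))) (.ss (3/2) (.ss (5/4) (.leaf 124) (.leaf 124)) (.ss (7/4)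 (.leaf 124) (.leaf 124))))) (.su 90 (.su 89 (.ss (3/2) (.ss (5/4) (.leaf 124) (.leaf 124)) (.ss (7/4) (.leaf 124) (.leaf 124))) (.ss (3/2) (.ss (5/4) (.leaf 124) (.leaf 124)) (.ss (7/4) (.leaf 124) (.leaf 124)))) (.su 92 (.ss (3/2) (.ss (5/4) (.leaf 124) (.leaf 124)) (.ss (7/4) (.leaf 124) (.leaf 124))) (.ss (3/2) (.ss (5/4) (.leaf 124) (.leaf 124)) (.ss (7/4) (.leaf 124) (.leaf 124))))))))

/-- Certificate. -/
theorem C1 : Cert (5 / 4) (P1.A : ℝ) P1.B P1.μa P1.μm :=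
  cert54 (by decide +kernel) (cert_of_check' tb_valid T1 0 93 (by decide +kernel) (by decide +kernel)
    (by decide +kernel) (by decide +kernel) (by decide +kernel) (by decide +kernel) (by decide +kernel))

/-- Parameters. -/
def P2 : Par := ⟨5 / 4, (-7767/20000), 6083/20000, 12241/10000, 43/25000⟩

/-- Cells. -/
def T2 : CT :=
  (.su 48 (.su 21 (.su 3 (.su 1 (.ss (3/2) (.ss (5/4) (.leaf 41) (.leaf 27)) (.ss (7/4) (.leaf 17) (.leaf 4))) (.su 2 (.ss (3/2) (.ss (5/4) (.leaf 124) (.leaf 33)) (.ss (7/4) (.leaf 26) (.leaf 21))) (.ss (3/2) (.ss (5/4) (.leaf 124) (.leaf 41)) (.ss (7/4) (.leaf 31) (.leaf 26))))) (.su 11 (.su 7 (.su 4 (.ss (3/2) (.ss (5/4) (.leaf 124) (.leaf 64)) (.ss (7/4) (.leaf 36) (.leaf 30))) (.ss (3/2) (.ss (5/4) (.leaf 124) (.leaf 74)) (.ss (7/4) (.leaf 41) (.leaf 33)))) (.ss (3/2) (.ss (5/4) (.leaf 124) (.leaf 82)) (.ss (7/4) (.leaf 48) (.leaf 37)))) (.su 17 (.ss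 (3/2) (.ss (5/4) (.leaf 124) (.leaf 93)) (.ss (7/4) (.leaf 62) (.leaf 45))) (.ss (3/2) (.ss (5/4) (.leaf 124) (.leaf 124)) (.ss (7/4) (.leaf 74) (.leaf 56)))))) (.su 32 (.su 24 (.ss (3/2) (.ss (5/4) (.leaf 124) (.leaf 124)) (.ss (7/4) (.leaf 84) (.leaf 67))) (.su 28 (.ss (3/2) (.ss (5/4) (.leaf 124) (.leaf 124)) (.ss (7/4) (.leaf 114) (.leaf 75))) (.ss (3/2) (.ss (5/4) (.leaf 124) (.leaf 124)) (.ss (7/4) (.leaf 120) (.leaf 83))))) (.su 40 (.su 36 (.ss (3/2) (.ss (5/4) (.leaf 124) (.leaf 124)) (.ss (7/4) (.leaf 124) (.leaf 99))) (.ss (3/2) (.ss (5/4) (.leaf 124) (.leaf 124)) (.ss (7/4) (.leaf 124) (.leaf 102)))) (.su 44 (.ss (3/2) (.ss (5/4) (.leaf 124) (.leaf 124)) (.ss (7/4) (.leaf 124) (.leaf 105))) (.ss (3/2) (.ss (5/4) (.leaf 124) (.leaf 124)) (.ss (7/4) (.leaf 124) (.leaf 109))))))) (.su 74 (.su 60 (.su 52 (.ss (3/2) (.ss (5/4) (.leaf 124) (.leaf 124)) (.ss (7/4) (.leaf 124)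 (.leaf 113))) (.su 56 (.ss (3/2) (.ss (5/4) (.leaf 124) (.leaf 124)) (.ss (7/4) (.leaf 124) (.leaf 116))) (.su 58 (.ss (3/2) (.ss (5/4) (.leaf 124) (.leaf 124)) (.ss (7/4) (.leaf 124) (.leaf 118))) (.ss (3/2) (.ss (5/4) (.leaf 124) (.leaf 124)) (.ss (7/4) (.leaf 124) (.leaf 119)))))) (.su 68 (.su 64 (.ss (3/2) (.ss (5/4) (.leaf 124) (.leaf 124)) (.ss (7/4) (.leaf 124) (.leaf 122))) (.ss (3/2) (.ss (5/4) (.leaf 124) (.leaf 124)) (.ss (7/4) (.leaf 124) (.leaf 124)))) (.su 71 (.ss (3/2) (.ss (5/4) (.leaf 124) (.leaf 124)) (.ss (7/4) (.leaf 124) (.leaf 124))) (.ss (3/2) (.ss (5/4) (.leaf 124) (.leaf 124)) (.ss (7/4) (.leaf 124) (.leaf 124)))))) (.su 82 (.su 76 (.ss (3/2) (.ss (5/4) (.leaf 124) (.leaf 124)) (.ss (7/4) (.leaf 124) (.leaf 124))) (.su 79 (.ss (3/2) (.ss (5/4) (.leaf 124) (.leaf 124)) (.ss (7/4) (.leaf 124) (.leaf 124))) (.ss (3/2) (.ss (5/4) (.leaf 124) (.leaf 124)) (.ss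 (7/4) (.leaf 124) (.leaf 124))))) (.su 88 (.su 86 (.ss (3/2) (.ss (5/4) (.leaf 124) (.leaf 124)) (.ss (7/4) (.leaf 124) (.leaf 124))) (.ss (3/2) (.ss (5/4) (.leaf 124) (.leaf 124)) (.ss (7/4) (.leaf 124) (.leaf 124)))) (.su 89 (.ss (3/2) (.ss (5/4) (.leaf 124) (.leaf 124)) (.ss (7/4) (.leaf 124) (.leaf 124))) (.ss (3/2) (.ss (5/4) (.leaf 124) (.leaf 124)) (.ss (7/4) (.leaf 124) (.leaf 124))))))))

/-- Certificate. -/
theorem C2 : Cert (5 / 4) (P2.A : ℝ) P2.B P2.μa P2.μm :=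
  cert54 (by decide +kernel) (cert_of_check' tb_valid T2 0 90 (by decide +kernel) (by decide +kernel)
    (by decide +kernel) (by decide +kernel) (by decide +kernel) (by decide +kernel) (by decide +kernel))

/-- Parameters. -/
def P3 : Par := ⟨5 / 4, (-10147/25000), 29781/100000, 123561/100000, 233/100000⟩

/-- Cells. -/
def T3 : CT :=
  (.su 44 (.su 17 (.su 3 (.su 1 (.ss (3/2) (.ss (5/4) (.leaf 41) (.leaf 27)) (.ss (7/4) (.leaf 17) (.leaf 4))) (.su 2 (.ss (3/2) (.ss (5/4) (.leaf 124) (.leaf 34)) (.ss (7/4) (.leaf 26) (.leaf 21))) (.ss (3/2) (.ss (5/4) (.leaf 124) (.leaf 41)) (.ss (7/4) (.leaf 32) (.leaf 26))))) (.su 7 (.su 4 (.ss (3/2) (.ss (5/4) (.leaf 124) (.leaf 64)) (.ss (7/4) (.leaf 36) (.leaf 30))) (.ss (3/2) (.ss (5/4) (.leaf 124) (.leaf 74)) (.ss (7/4) (.leaf 41) (.leaf 33)))) (.su 11 (.ss (3/2) (.ss (5/4) (.leaf 124) (.leaf 82)) (.ss (7/4) (.leaf 48) (.leaf 37))) (.ss (3/2)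 (.ss (5/4) (.leaf 124) (.leaf 93)) (.ss (7/4) (.leaf 62) (.leaf 45)))))) (.su 28 (.su 21 (.ss (3/2) (.ss (5/4) (.leaf 124) (.leaf 124)) (.ss (7/4) (.leaf 74) (.leaf 56))) (.su 24 (.ss (3/2) (.ss (5/4) (.leaf 124) (.leaf 124)) (.ss (7/4) (.leaf 84) (.leaf 67))) (.ss (3/2) (.ss (5/4) (.leaf 124) (.leaf 124)) (.ss (7/4) (.leaf 114) (.leaf 75))))) (.su 36 (.su 32 (.ss (3/2) (.ss (5/4) (.leaf 124) (.leaf 124)) (.ss (7/4) (.leaf 120) (.leaf 83))) (.ss (3/2) (.ss (5/4) (.leaf 124) (.leaf 124)) (.ss (7/4) (.leaf 124) (.leaf 99)))) (.su 40 (.ss (3/2) (.ss (5/4) (.leaf 124) (.leaf 124)) (.ss (7/4) (.leaf 124) (.leaf 102))) (.ss (3/2) (.ss (5/4) (.leaf 124) (.leaf 124)) (.ss (7/4) (.leaf 124) (.leaf 105))))))) (.su 71 (.su 56 (.su 48 (.ss (3/2) (.ss (5/4) (.leaf 124) (.leaf 124)) (.ss (7/4) (.leaf 124) (.leaf 109))) (.su 52 (.ss (3/2) (.ss (5/4) (.leaf 124) (.leaf 124)) (.ss (7/4) (.leaf 124)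 (.leaf 113))) (.su 54 (.ss (3/2) (.ss (5/4) (.leaf 124) (.leaf 124)) (.ss (7/4) (.leaf 124) (.leaf 115))) (.ss (3/2) (.ss (5/4) (.leaf 124) (.leaf 124)) (.ss (7/4) (.leaf 124) (.leaf 116)))))) (.su 64 (.su 60 (.su 58 (.ss (3/2) (.ss (5/4) (.leaf 124) (.leaf 124)) (.ss (7/4) (.leaf 124) (.leaf 118))) (.ss (3/2) (.ss (5/4) (.leaf 124) (.leaf 124)) (.ss (7/4) (.leaf 124) (.leaf 119)))) (.ss (3/2) (.ss (5/4) (.leaf 124) (.leaf 124)) (.ss (7/4) (.leaf 124) (.leaf 122)))) (.su 68 (.ss (3/2) (.ss (5/4) (.leaf 124) (.leaf 124)) (.ss (7/4) (.leaf 124) (.leaf 124))) (.ss (3/2) (.ss (5/4) (.leaf 124) (.leaf 124)) (.ss (7/4) (.leaf 124) (.leaf 124)))))) (.su 79 (.su 74 (.ss (3/2) (.ss (5/4) (.leaf 124) (.leaf 124)) (.ss (7/4) (.leaf 124) (.leaf 124))) (.su 76 (.ss (3/2) (.ss (5/4) (.leaf 124) (.leaf 124)) (.ss (7/4) (.leaf 124) (.leaf 124))) (.ss (3/2) (.ss (5/4) (.leaf 124) (.leaf 124)) (.ss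 (7/4) (.leaf 124) (.leaf 124))))) (.su 86 (.su 82 (.ss (3/2) (.ss (5/4) (.leaf 124) (.leaf 124)) (.ss (7/4) (.leaf 124) (.leaf 124))) (.ss (3/2) (.ss (5/4) (.leaf 124) (.leaf 124)) (.ss (7/4) (.leaf 124) (.leaf 124)))) (.su 88 (.ss (3/2) (.ss (5/4) (.leaf 124) (.leaf 124)) (.ss (7/4) (.leaf 124) (.leaf 124))) (.ss (3/2) (.ss (5/4) (.leaf 124) (.leaf 124)) (.ss (7/4) (.leaf 124) (.leaf 124))))))))

/-- Certificate. -/
theorem C3 : Cert (5 / 4) (P3.A : ℝ) P3.B P3.μa P3.μm :=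
  cert54 (by decide +kernel) (cert_of_check' tb_valid T3 0 89 (by decide +kernel) (by decide +kernel)
    (by decide +kernel) (by decide +kernel) (by decide +kernel) (by decide +kernel) (by decide +kernel))

/-- Parameters. -/
def P4 : Par := ⟨5 / 4, (-11279/25000), 27963/100000, 7903/6250, 9/2000⟩

/-- Cells. -/
def T4 : CT :=
  (.su 44 (.su 17 (.su 3 (.su 1 (.ss (3/2) (.ss (5/4) (.leaf 43) (.leaf 28)) (.ss (7/4) (.leaf 17) (.leaf 4))) (.su 2 (.ss (3/2) (.ss (5/4) (.leaf 124) (.leaf 35)) (.ss (7/4) (.leaf 27) (.leaf 21))) (.ss (3/2) (.ss (5/4) (.leaf 124) (.leaf 42)) (.ss (7/4) (.leaf 32) (.leaf 27))))) (.su 7 (.su 4 (.ss (3/2) (.ss (5/4) (.leaf 124) (.leaf 64)) (.ss (7/4) (.leaf 37) (.leaf 31))) (.ss (3/2) (.ss (5/4) (.leaf 124) (.leaf 74)) (.ss (7/4) (.leaf 41) (.leaf 33)))) (.su 11 (.ss (3/2) (.ss (5/4) (.leaf 124) (.leaf 82)) (.ss (7/4) (.leaf 48) (.leaf 38))) (.ss (3/2) (.ss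 (5/4) (.leaf 124) (.leaf 124)) (.ss (7/4) (.leaf 62) (.leaf 45)))))) (.su 28 (.su 21 (.ss (3/2) (.ss (5/4) (.leaf 124) (.leaf 124)) (.ss (7/4) (.leaf 74) (.leaf 56))) (.su 24 (.ss (3/2) (.ss (5/4) (.leaf 124) (.leaf 124)) (.ss (7/4) (.leaf 84) (.leaf 67))) (.ss (3/2) (.ss (5/4) (.leaf 124) (.leaf 124)) (.ss (7/4) (.leaf 114) (.leaf 75))))) (.su 36 (.su 32 (.ss (3/2) (.ss (5/4) (.leaf 124) (.leaf 124)) (.ss (7/4) (.leaf 120) (.leaf 84))) (.ss (3/2) (.ss (5/4) (.leaf 124) (.leaf 124)) (.ss (7/4) (.leaf 124) (.leaf 99)))) (.su 40 (.ss (3/2) (.ss (5/4) (.leaf 124) (.leaf 124)) (.ss (7/4) (.leaf 124) (.leaf 102))) (.ss (3/2) (.ss (5/4) (.leaf 124) (.leaf 124)) (.ss (7/4) (.leaf 124) (.leaf 105))))))) (.su 68 (.su 56 (.su 48 (.su 46 (.ss (3/2) (.ss (5/4) (.leaf 124) (.leaf 124)) (.ss (7/4) (.leaf 124) (.leaf 107))) (.ss (3/2) (.ss (5/4) (.leaf 124) (.leaf 124)) (.ss (7/4) (.leaf 124) (.leaf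 109)))) (.su 52 (.su 50 (.ss (3/2) (.ss (5/4) (.leaf 124) (.leaf 124)) (.ss (7/4) (.leaf 124) (.leaf 111))) (.ss (3/2) (.ss (5/4) (.leaf 124) (.leaf 124)) (.ss (7/4) (.leaf 124) (.leaf 113)))) (.ss (3/2) (.ss (5/4) (.leaf 124) (.leaf 124)) (.ss (7/4) (.leaf 124) (.leaf 116))))) (.su 60 (.ss (3/2) (.ss (5/4) (.leaf 124) (.leaf 124)) (.ss (7/4) (.leaf 124) (.leaf 119))) (.su 64 (.ss (3/2) (.ss (5/4) (.leaf 124) (.leaf 124)) (.ss (7/4) (.leaf 124) (.leaf 122))) (.ss (3/2) (.ss (5/4) (.leaf 124) (.leaf 124)) (.ss (7/4) (.leaf 124) (.leaf 124)))))) (.su 76 (.su 71 (.ss (3/2) (.ss (5/4) (.leaf 124) (.leaf 124)) (.ss (7/4) (.leaf 124) (.leaf 124))) (.su 74 (.ss (3/2) (.ss (5/4) (.leaf 124) (.leaf 124)) (.ss (7/4) (.leaf 124) (.leaf 124))) (.ss (3/2) (.ss (5/4) (.leaf 124) (.leaf 124)) (.ss (7/4) (.leaf 124) (.leaf 124))))) (.su 82 (.su 79 (.ss (3/2) (.ss (5/4) (.leaf 124) (.leaf 124)) (.ss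 (7/4) (.leaf 124) (.leaf 124))) (.ss (3/2) (.ss (5/4) (.leaf 124) (.leaf 124)) (.ss (7/4) (.leaf 124) (.leaf 124)))) (.su 86 (.ss (3/2) (.ss (5/4) (.leaf 124) (.leaf 124)) (.ss (7/4) (.leaf 124) (.leaf 124))) (.ss (3/2) (.ss (5/4) (.leaf 124) (.leaf 124)) (.ss (7/4) (.leaf 124) (.leaf 124))))))))

/-- Certificate. -/
theorem C4 : Cert (5 / 4) (P4.A : ℝ) P4.B P4.μa P4.μm :=
  cert54 (by decide +kernel) (cert_of_check' tb_valid T4 0 88 (by decide +kernel) (by decide +kernel)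
    (by decide +kernel) (by decide +kernel) (by decide +kernel) (by decide +kernel) (by decide +kernel))

/-- Parameters. -/
def P5 : Par := ⟨5 / 4, (-23529/50000), 847/3125, 127659/100000, 569/100000⟩

/-- Cells. -/
def T5 : CT :=
  (.su 40 (.su 17 (.su 3 (.su 1 (.ss (3/2) (.ss (5/4) (.leaf 44) (.leaf 29)) (.ss (7/4) (.leaf 17) (.leaf 4))) (.su 2 (.ss (3/2) (.ss (5/4) (.leaf 124) (.leaf 35)) (.ss (7/4) (.leaf 27) (.leaf 21))) (.ss (3/2) (.ss (5/4) (.leaf 124) (.leaf 43)) (.ss (7/4) (.leaf 33) (.leaf 27))))) (.su 7 (.su 4 (.ss (3/2) (.ss (5/4) (.leaf 124) (.leaf 64)) (.ss (7/4) (.leaf 37) (.leaf 31))) (.su 5 (.ss (3/2) (.ss (5/4) (.leaf 124) (.leaf 74)) (.ss (7/4) (.leaf 41) (.leaf 33))) (.ss (3/2) (.ss (5/4) (.leaf 124) (.leaf 77)) (.ss (7/4) (.leaf 45) (.leaf 34))))) (.su 11 (.ss (3/2) (.ss (5/4) (.leaf 124) (.leaf 82)) (.ss (7/4) (.leaf 48) (.leaf 38))) (.ss (3/2) (.ss (5/4) (.leaf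 124) (.leaf 124)) (.ss (7/4) (.leaf 62) (.leaf 45)))))) (.su 28 (.su 21 (.ss (3/2) (.ss (5/4) (.leaf 124) (.leaf 124)) (.ss (7/4) (.leaf 74) (.leaf 56))) (.su 24 (.ss (3/2) (.ss (5/4) (.leaf 124) (.leaf 124)) (.ss (7/4) (.leaf 84) (.leaf 67))) (.ss (3/2) (.ss (5/4) (.leaf 124) (.leaf 124)) (.ss (7/4) (.leaf 114) (.leaf 75))))) (.su 32 (.ss (3/2) (.ss (5/4) (.leaf 124) (.leaf 124)) (.ss (7/4) (.leaf 120) (.leaf 84))) (.su 36 (.ss (3/2) (.ss (5/4) (.leaf 124) (.leaf 124)) (.ss (7/4) (.leaf 124) (.leaf 99))) (.ss (3/2) (.ss (5/4) (.leaf 124) (.leaf 124)) (.ss (7/4) (.leaf 124) (.leaf 102))))))) (.su 64 (.su 52 (.su 44 (.ss (3/2) (.ss (5/4) (.leaf 124) (.leaf 124)) (.ss (7/4) (.leaf 124) (.leaf 105))) (.su 48 (.su 46 (.ss (3/2) (.ss (5/4) (.leaf 124) (.leaf 124)) (.ss (7/4) (.leaf 124) (.leaf 107))) (.ss (3/2) (.ss (5/4) (.leaf 124) (.leaf 124)) (.ss (7/4) (.leaf 124) (.leaf 109))))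 (.su 50 (.ss (3/2) (.ss (5/4) (.leaf 124) (.leaf 124)) (.ss (7/4) (.leaf 124) (.leaf 111))) (.ss (3/2) (.ss (5/4) (.leaf 124) (.leaf 124)) (.ss (7/4) (.leaf 124) (.leaf 113)))))) (.su 56 (.ss (3/2) (.ss (5/4) (.leaf 124) (.leaf 124)) (.ss (7/4) (.leaf 124) (.leaf 116))) (.su 60 (.ss (3/2) (.ss (5/4) (.leaf 124) (.leaf 124)) (.ss (7/4) (.leaf 124) (.leaf 119))) (.ss (3/2) (.ss (5/4) (.leaf 124) (.leaf 124)) (.ss (7/4) (.leaf 124) (.leaf 122)))))) (.su 74 (.su 68 (.ss (3/2) (.ss (5/4) (.leaf 124) (.leaf 124)) (.ss (7/4) (.leaf 124) (.leaf 124))) (.su 71 (.ss (3/2) (.ss (5/4) (.leaf 124) (.leaf 124)) (.ss (7/4) (.leaf 124) (.leaf 124))) (.ss (3/2) (.ss (5/4) (.leaf 124) (.leaf 124)) (.ss (7/4) (.leaf 124) (.leaf 124))))) (.su 79 (.su 76 (.ss (3/2) (.ss (5/4) (.leaf 124) (.leaf 124)) (.ss (7/4) (.leaf 124) (.leaf 124))) (.ss (3/2) (.ss (5/4) (.leaf 124) (.leaf 124)) (.ss (7/4) (.leaf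 124) (.leaf 124)))) (.su 82 (.ss (3/2) (.ss (5/4) (.leaf 124) (.leaf 124)) (.ss (7/4) (.leaf 124) (.leaf 124))) (.ss (3/2) (.ss (5/4) (.leaf 124) (.leaf 124)) (.ss (7/4) (.leaf 124) (.leaf 124))))))))

/-- Certificate. -/
theorem C5 : Cert (5 / 4) (P5.A : ℝ) P5.B P5.μa P5.μm :=
  cert54 (by decide +kernel) (cert_of_check' tb_valid T5 0 86 (by decide +kernel) (by decide +kernel)
    (by decide +kernel) (by decide +kernel) (by decide +kernel) (by decide +kernel) (by decide +kernel))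

/-- Parameters. -/
def P6 : Par := ⟨5 / 4, (-26079/50000), 24641/100000, 13071/10000, 959/100000⟩

/-- Cells. -/
def T6 : CT :=
  (.su 40 (.su 17 (.su 3 (.su 1 (.ss (3/2) (.ss (5/4) (.leaf 46) (.leaf 30)) (.ss (7/4) (.leaf 17) (.leaf 4))) (.su 2 (.ss (3/2) (.ss (5/4) (.leaf 124) (.leaf 36)) (.ss (7/4) (.leaf 28) (.leaf 21))) (.ss (3/2) (.ss (5/4) (.leaf 124) (.leaf 44)) (.ss (7/4) (.leaf 33) (.leaf 28))))) (.su 7 (.su 4 (.ss (3/2) (.ss (5/4) (.leaf 124) (.leaf 64)) (.ss (7/4) (.leaf 38) (.leaf 31))) (.ss (3/2) (.ss (5/4) (.leaf 124) (.leaf 74)) (.ss (7/4) (.leaf 41) (.leaf 34)))) (.su 11 (.su 10 (.ss (3/2) (.ss (5/4) (.leaf 124) (.leaf 82)) (.ss (7/4) (.leaf 48) (.leaf 37))) (.ss (3/2) (.ss (5/4) (.leaf 124) (.leaf 89)) (.ss (7/4) (.leaf 55) (.leaf 40)))) (.ss (3/2) (.ss (5/4) (.leaf 124) (.leaf 124)) (.ss (7/4) (.leaf 62) (.leaf 45)))))) (.su 28 (.su 21 (.ss (3/2) (.ss (5/4) (.leaf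 124) (.leaf 124)) (.ss (7/4) (.leaf 74) (.leaf 56))) (.su 24 (.ss (3/2) (.ss (5/4) (.leaf 124) (.leaf 124)) (.ss (7/4) (.leaf 84) (.leaf 67))) (.ss (3/2) (.ss (5/4) (.leaf 124) (.leaf 124)) (.ss (7/4) (.leaf 114) (.leaf 75))))) (.su 32 (.ss (3/2) (.ss (5/4) (.leaf 124) (.leaf 124)) (.ss (7/4) (.leaf 120) (.leaf 83))) (.su 36 (.ss (3/2) (.ss (5/4) (.leaf 124) (.leaf 124)) (.ss (7/4) (.leaf 124) (.leaf 99))) (.su 38 (.ss (3/2) (.ss (5/4) (.leaf 124) (.leaf 124)) (.ss (7/4) (.leaf 124) (.leaf 100))) (.ss (3/2) (.ss (5/4) (.leaf 124) (.leaf 124)) (.ss (7/4) (.leaf 124) (.leaf 102)))))))) (.su 64 (.su 52 (.su 44 (.su 42 (.ss (3/2) (.ss (5/4) (.leaf 124) (.leaf 124)) (.ss (7/4) (.leaf 124) (.leaf 103))) (.ss (3/2) (.ss (5/4) (.leaf 124) (.leaf 124)) (.ss (7/4) (.leaf 124) (.leaf 105)))) (.su 48 (.ss (3/2) (.ss (5/4) (.leaf 124) (.leaf 124)) (.ss (7/4) (.leaf 124) (.leaf 109))) (.ss (3/2)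 (.ss (5/4) (.leaf 124) (.leaf 124)) (.ss (7/4) (.leaf 124) (.leaf 113))))) (.su 56 (.ss (3/2) (.ss (5/4) (.leaf 124) (.leaf 124)) (.ss (7/4) (.leaf 124) (.leaf 116))) (.su 60 (.ss (3/2) (.ss (5/4) (.leaf 124) (.leaf 124)) (.ss (7/4) (.leaf 124) (.leaf 119))) (.ss (3/2) (.ss (5/4) (.leaf 124) (.leaf 124)) (.ss (7/4) (.leaf 124) (.leaf 122)))))) (.su 74 (.su 68 (.ss (3/2) (.ss (5/4) (.leaf 124) (.leaf 124)) (.ss (7/4) (.leaf 124) (.leaf 124))) (.su 71 (.ss (3/2) (.ss (5/4) (.leaf 124) (.leaf 124)) (.ss (7/4) (.leaf 124) (.leaf 124))) (.ss (3/2) (.ss (5/4) (.leaf 124) (.leaf 124)) (.ss (7/4) (.leaf 124) (.leaf 124))))) (.su 76 (.ss (3/2) (.ss (5/4) (.leaf 124) (.leaf 124)) (.ss (7/4) (.leaf 124) (.leaf 124))) (.su 79 (.ss (3/2) (.ss (5/4) (.leaf 124) (.leaf 124)) (.ss (7/4) (.leaf 124) (.leaf 124))) (.ss (3/2) (.ss (5/4) (.leaf 124) (.leaf 124)) (.ss (7/4) (.leaf 124) (.leaf 124))))))))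

/-- Certificate. -/
theorem C6 : Cert (5 / 4) (P6.A : ℝ) P6.B P6.μa P6.μm :=
  cert54 (by decide +kernel) (cert_of_check' tb_valid T6 0 82 (by decide +kernel) (by decide +kernel)
    (by decide +kernel) (by decide +kernel) (by decide +kernel) (by decide +kernel) (by decide +kernel))

/-- Parameters. -/
def P7 : Par := ⟨5 / 4, (-27067/50000), 4721/20000, 32961/25000, 1139/100000⟩

/-- Cells. -/
def T7 : CT :=
  (.su 40 (.su 17 (.su 3 (.su 1 (.ss (3/2) (.ss (5/4) (.leaf 47) (.leaf 30)) (.ss (7/4) (.leaf 17) (.leaf 4))) (.su 2 (.ss (3/2) (.ss (5/4) (.leaf 124) (.leaf 37)) (.ss (7/4) (.leaf 28) (.leaf 21))) (.ss (3/2) (.ss (5/4) (.leaf 124) (.leaf 44)) (.ss (7/4) (.leaf 34) (.leaf 28))))) (.su 7 (.su 4 (.ss (3/2) (.ss (5/4) (.leaf 124) (.leaf 64)) (.ss (7/4) (.leaf 38) (.leaf 31))) (.ss (3/2) (.ss (5/4) (.leaf 124) (.leaf 74)) (.ss (7/4) (.leaf 41) (.leaf 34)))) (.su 11 (.su 10 (.ss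 (3/2) (.ss (5/4) (.leaf 124) (.leaf 82)) (.ss (7/4) (.leaf 48) (.leaf 37))) (.ss (3/2) (.ss (5/4) (.leaf 124) (.leaf 89)) (.ss (7/4) (.leaf 55) (.leaf 40)))) (.ss (3/2) (.ss (5/4) (.leaf 124) (.leaf 124)) (.ss (7/4) (.leaf 62) (.leaf 45)))))) (.su 28 (.su 21 (.ss (3/2) (.ss (5/4) (.leaf 124) (.leaf 124)) (.ss (7/4) (.leaf 74) (.leaf 56))) (.su 24 (.ss (3/2) (.ss (5/4) (.leaf 124) (.leaf 124)) (.ss (7/4) (.leaf 84) (.leaf 67))) (.ss (3/2) (.ss (5/4) (.leaf 124) (.leaf 124)) (.ss (7/4) (.leaf 114) (.leaf 75))))) (.su 32 (.ss (3/2) (.ss (5/4) (.leaf 124) (.leaf 124)) (.ss (7/4) (.leaf 120) (.leaf 83))) (.su 36 (.ss (3/2) (.ss (5/4) (.leaf 124) (.leaf 124)) (.ss (7/4) (.leaf 124) (.leaf 99))) (.su 38 (.ss (3/2) (.ss (5/4) (.leaf 124) (.leaf 124)) (.ss (7/4) (.leaf 124) (.leaf 100))) (.ss (3/2) (.ss (5/4) (.leaf 124) (.leaf 124)) (.ss (7/4) (.leaf 124) (.leaf 102)))))))) (.su 64 (.su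 52 (.su 44 (.su 42 (.ss (3/2) (.ss (5/4) (.leaf 124) (.leaf 124)) (.ss (7/4) (.leaf 124) (.leaf 103))) (.ss (3/2) (.ss (5/4) (.leaf 124) (.leaf 124)) (.ss (7/4) (.leaf 124) (.leaf 105)))) (.su 48 (.ss (3/2) (.ss (5/4) (.leaf 124) (.leaf 124)) (.ss (7/4) (.leaf 124) (.leaf 109))) (.ss (3/2) (.ss (5/4) (.leaf 124) (.leaf 124)) (.ss (7/4) (.leaf 124) (.leaf 113))))) (.su 56 (.ss (3/2) (.ss (5/4) (.leaf 124) (.leaf 124)) (.ss (7/4) (.leaf 124) (.leaf 116))) (.su 60 (.ss (3/2) (.ss (5/4) (.leaf 124) (.leaf 124)) (.ss (7/4) (.leaf 124) (.leaf 119))) (.ss (3/2) (.ss (5/4) (.leaf 124) (.leaf 124)) (.ss (7/4) (.leaf 124) (.leaf 122)))))) (.su 74 (.su 68 (.ss (3/2) (.ss (5/4) (.leaf 124) (.leaf 124)) (.ss (7/4) (.leaf 124) (.leaf 124))) (.su 71 (.ss (3/2) (.ss (5/4) (.leaf 124) (.leaf 124)) (.ss (7/4) (.leaf 124) (.leaf 124))) (.ss (3/2) (.ss (5/4) (.leaf 124) (.leaf 124)) (.ss (7/4) (.leaf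 124) (.leaf 124))))) (.su 76 (.ss (3/2) (.ss (5/4) (.leaf 124) (.leaf 124)) (.ss (7/4) (.leaf 124) (.leaf 124))) (.su 79 (.ss (3/2) (.ss (5/4) (.leaf 124) (.leaf 124)) (.ss (7/4) (.leaf 124) (.leaf 124))) (.ss (3/2) (.ss (5/4) (.leaf 124) (.leaf 124)) (.ss (7/4) (.leaf 124) (.leaf 124))))))))

/-- Certificate. -/
theorem C7 : Cert (5 / 4) (P7.A : ℝ) P7.B P7.μa P7.μm :=
  cert54 (by decide +kernel) (cert_of_check' tb_valid T7 0 82 (by decide +kernel) (by decide +kernel)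
    (by decide +kernel) (by decide +kernel) (by decide +kernel) (by decide +kernel) (by decide +kernel))

/-- Parameters. -/
def P8 : Par := ⟨5 / 4, (-7647/12500), 49/250, 13567/10000, 1907/100000⟩

/-- Cells. -/
def T8 : CT :=
  (.su 36 (.su 11 (.su 2 (.su 1 (.ss (3/2) (.ss (5/4) (.leaf 50) (.leaf 31)) (.ss (7/4) (.leaf 17) (.leaf 4))) (.ss (3/2) (.ss (5/4) (.leaf 124) (.leaf 38)) (.ss (7/4) (.leaf 29) (.leaf 21)))) (.su 3 (.ss (3/2) (.ss (5/4) (.leaf 124) (.leaf 46)) (.ss (7/4) (.leaf 34) (.leaf 28))) (.su 7 (.su 4 (.ss (3/2) (.ss (5/4) (.leaf 124) (.leaf 64)) (.ss (7/4) (.leaf 39) (.leaf 32))) (.ss (3/2) (.ss (5/4) (.leaf 124) (.leaf 74)) (.ss (7/4) (.leaf 42) (.leaf 35)))) (.su 10 (.ss (3/2) (.ss (5/4) (.leaf 124) (.leaf 82)) (.ss (7/4) (.leaf 48) (.leaf 38))) (.ss (3/2) (.ss (5/4) (.leaf 124) (.leaf 89)) (.ss (7/4) (.leaf 55) (.leaf 41))))))) (.su 24 (.su 17 (.ss (3/2) (.ss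 (5/4) (.leaf 124) (.leaf 124)) (.ss (7/4) (.leaf 62) (.leaf 45))) (.su 21 (.ss (3/2) (.ss (5/4) (.leaf 124) (.leaf 124)) (.ss (7/4) (.leaf 74) (.leaf 56))) (.ss (3/2) (.ss (5/4) (.leaf 124) (.leaf 124)) (.ss (7/4) (.leaf 84) (.leaf 67))))) (.su 28 (.ss (3/2) (.ss (5/4) (.leaf 124) (.leaf 124)) (.ss (7/4) (.leaf 114) (.leaf 75))) (.su 32 (.su 30 (.ss (3/2) (.ss (5/4) (.leaf 124) (.leaf 124)) (.ss (7/4) (.leaf 117) (.leaf 82))) (.ss (3/2) (.ss (5/4) (.leaf 124) (.leaf 124)) (.ss (7/4) (.leaf 120) (.leaf 97)))) (.su 34 (.ss (3/2) (.ss (5/4) (.leaf 124) (.leaf 124)) (.ss (7/4) (.leaf 121) (.leaf 98))) (.ss (3/2) (.ss (5/4) (.leaf 124) (.leaf 124)) (.ss (7/4) (.leaf 124) (.leaf 99)))))))) (.su 56 (.su 44 (.su 40 (.ss (3/2) (.ss (5/4) (.leaf 124) (.leaf 124)) (.ss (7/4) (.leaf 124) (.leaf 102))) (.ss (3/2) (.ss (5/4) (.leaf 124) (.leaf 124)) (.ss (7/4) (.leaf 124) (.leaf 105)))) (.su 48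 (.ss (3/2) (.ss (5/4) (.leaf 124) (.leaf 124)) (.ss (7/4) (.leaf 124) (.leaf 109))) (.su 52 (.ss (3/2) (.ss (5/4) (.leaf 124) (.leaf 124)) (.ss (7/4) (.leaf 124) (.leaf 113))) (.ss (3/2) (.ss (5/4) (.leaf 124) (.leaf 124)) (.ss (7/4) (.leaf 124) (.leaf 116)))))) (.su 68 (.su 60 (.ss (3/2) (.ss (5/4) (.leaf 124) (.leaf 124)) (.ss (7/4) (.leaf 124) (.leaf 119))) (.su 64 (.ss (3/2) (.ss (5/4) (.leaf 124) (.leaf 124)) (.ss (7/4) (.leaf 124) (.leaf 122))) (.ss (3/2) (.ss (5/4) (.leaf 124) (.leaf 124)) (.ss (7/4) (.leaf 124) (.leaf 124))))) (.su 71 (.ss (3/2) (.ss (5/4) (.leaf 124) (.leaf 124)) (.ss (7/4) (.leaf 124) (.leaf 124))) (.su 74 (.ss (3/2) (.ss (5/4) (.leaf 124) (.leaf 124)) (.ss (7/4) (.leaf 124) (.leaf 124))) (.ss (3/2) (.ss (5/4) (.leaf 124) (.leaf 124)) (.ss (7/4) (.leaf 124) (.leaf 124))))))))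

/-- Certificate. -/
theorem C8 : Cert (5 / 4) (P8.A : ℝ) P8.B P8.μa P8.μm :=
  cert54 (by decide +kernel) (cert_of_check' tb_valid T8 0 76 (by decide +kernel) (by decide +kernel)
    (by decide +kernel) (by decide +kernel) (by decide +kernel) (by decide +kernel) (by decide +kernel))

/-- Parameters. -/
def P9 : Par := ⟨5 / 4, (-74549/100000), 107/1000, 1777/1250, 3831/100000⟩

/-- Cells. -/
def T9 : CT :=
  (.su 32 (.su 11 (.su 2 (.su 1 (.ss (3/2) (.ss (5/4) (.leaf 55) (.leaf 33)) (.ss (7/4) (.leaf 17) (.leaf 4))) (.ss (3/2) (.ss (5/4) (.leaf 124) (.leaf 40)) (.ss (7/4) (.leaf 30) (.leaf 21)))) (.su 3 (.ss (3/2) (.ss (5/4) (.leaf 124) (.leaf 48)) (.ss (7/4) (.leaf 36) (.leaf 29))) (.su 7 (.su 4 (.ss (3/2) (.ss (5/4) (.leaf 124) (.leaf 64)) (.ss (7/4) (.leaf 40) (.leaf 33))) (.su 5 (.ss (3/2) (.ss (5/4) (.leaf 124) (.leaf 74)) (.ss (7/4) (.leaf 42) (.leaf 35))) (.ss (3/2) (.ss (5/4)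 (.leaf 124) (.leaf 77)) (.ss (7/4) (.leaf 45) (.leaf 36))))) (.su 10 (.su 9 (.ss (3/2) (.ss (5/4) (.leaf 124) (.leaf 82)) (.ss (7/4) (.leaf 48) (.leaf 38))) (.ss (3/2) (.ss (5/4) (.leaf 124) (.leaf 87)) (.ss (7/4) (.leaf 52) (.leaf 39)))) (.ss (3/2) (.ss (5/4) (.leaf 124) (.leaf 89)) (.ss (7/4) (.leaf 55) (.leaf 41))))))) (.su 21 (.su 17 (.ss (3/2) (.ss (5/4) (.leaf 124) (.leaf 124)) (.ss (7/4) (.leaf 62) (.leaf 46))) (.ss (3/2) (.ss (5/4) (.leaf 124) (.leaf 124)) (.ss (7/4) (.leaf 74) (.leaf 56)))) (.su 24 (.su 22 (.ss (3/2) (.ss (5/4) (.leaf 124) (.leaf 124)) (.ss (7/4) (.leaf 87) (.leaf 67))) (.ss (3/2) (.ss (5/4) (.leaf 124) (.leaf 124)) (.ss (7/4) (.leaf 104) (.leaf 71)))) (.su 28 (.su 26 (.su 25 (.ss (3/2) (.ss (5/4) (.leaf 124) (.leaf 124)) (.ss (7/4) (.leaf 108) (.leaf 75))) (.ss (3/2) (.ss (5/4) (.leaf 124) (.leaf 124)) (.ss (7/4) (.leaf 110) (.leaf 76)))) (.su 27 (.ss (3/2)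 (.ss (5/4) (.leaf 124) (.leaf 124)) (.ss (7/4) (.leaf 112) (.leaf 78))) (.ss (3/2) (.ss (5/4) (.leaf 124) (.leaf 124)) (.ss (7/4) (.leaf 113) (.leaf 86))))) (.ss (3/2) (.ss (5/4) (.leaf 124) (.leaf 124)) (.ss (7/4) (.leaf 114) (.leaf 95))))))) (.su 52 (.su 40 (.su 36 (.ss (3/2) (.ss (5/4) (.leaf 124) (.leaf 124)) (.ss (7/4) (.leaf 120) (.leaf 97))) (.ss (3/2) (.ss (5/4) (.leaf 124) (.leaf 124)) (.ss (7/4) (.leaf 124) (.leaf 99)))) (.su 44 (.ss (3/2) (.ss (5/4) (.leaf 124) (.leaf 124)) (.ss (7/4) (.leaf 124) (.leaf 102))) (.su 48 (.ss (3/2) (.ss (5/4) (.leaf 124) (.leaf 124)) (.ss (7/4) (.leaf 124) (.leaf 105))) (.ss (3/2) (.ss (5/4) (.leaf 124) (.leaf 124)) (.ss (7/4) (.leaf 124) (.leaf 109)))))) (.su 60 (.su 56 (.ss (3/2) (.ss (5/4) (.leaf 124) (.leaf 124)) (.ss (7/4) (.leaf 124) (.leaf 113))) (.ss (3/2) (.ss (5/4) (.leaf 124) (.leaf 124)) (.ss (7/4) (.leaf 124) (.leaf 116)))) (.su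 64 (.ss (3/2) (.ss (5/4) (.leaf 124) (.leaf 124)) (.ss (7/4) (.leaf 124) (.leaf 119))) (.su 68 (.ss (3/2) (.ss (5/4) (.leaf 124) (.leaf 124)) (.ss (7/4) (.leaf 124) (.leaf 121))) (.ss (3/2) (.ss (5/4) (.leaf 124) (.leaf 124)) (.ss (7/4) (.leaf 124) (.leaf 124))))))))

/-- Certificate. -/
theorem C9 : Cert (5 / 4) (P9.A : ℝ) P9.B P9.μa P9.μm :=
  cert54 (by decide +kernel) (cert_of_check' tb_valid T9 0 71 (by decide +kernel) (by decide +kernel)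
    (by decide +kernel) (by decide +kernel) (by decide +kernel) (by decide +kernel) (by decide +kernel))

/-- Parameters. -/
def P10 : Par := ⟨5 / 4, (-78591/100000), 7723/100000, 71979/50000, 141/3125⟩

/-- Cells. -/
def T10 : CT :=
  (.su 32 (.su 11 (.su 2 (.su 1 (.ss (3/2) (.ss (5/4) (.leaf 57) (.leaf 34)) (.ss (7/4) (.leaf 17) (.leaf 4))) (.ss (3/2) (.ss (5/4) (.leaf 124) (.leaf 41)) (.ss (7/4) (.leaf 30) (.leaf 21)))) (.su 3 (.ss (3/2) (.ss (5/4) (.leaf 124) (.leaf 48)) (.ss (7/4) (.leaf 36) (.leaf 30))) (.su 7 (.su 4 (.ss (3/2) (.ss (5/4) (.leaf 124) (.leaf 64)) (.ss (7/4) (.leaf 40) (.leaf 33))) (.su 5 (.ss (3/2) (.ss (5/4) (.leaf 124) (.leaf 74)) (.ss (7/4) (.leaf 42) (.leaf 35))) (.ss (3/2) (.ss (5/4) (.leaf 124) (.leaf 77)) (.ss (7/4) (.leaf 45) (.leaf 36))))) (.su 10 (.su 9 (.ss (3/2) (.ss (5/4) (.leaf 124) (.leaf 82)) (.ss (7/4) (.leaf 48) (.leaf 38))) (.ss (3/2) (.ss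 (5/4) (.leaf 124) (.leaf 87)) (.ss (7/4) (.leaf 52) (.leaf 39)))) (.ss (3/2) (.ss (5/4) (.leaf 124) (.leaf 89)) (.ss (7/4) (.leaf 55) (.leaf 41))))))) (.su 21 (.su 17 (.ss (3/2) (.ss (5/4) (.leaf 124) (.leaf 124)) (.ss (7/4) (.leaf 62) (.leaf 46))) (.ss (3/2) (.ss (5/4) (.leaf 124) (.leaf 124)) (.ss (7/4) (.leaf 74) (.leaf 56)))) (.su 24 (.su 22 (.ss (3/2) (.ss (5/4) (.leaf 124) (.leaf 124)) (.ss (7/4) (.leaf 91) (.leaf 67))) (.su 23 (.ss (3/2) (.ss (5/4) (.leaf 124) (.leaf 124)) (.ss (7/4) (.leaf 104) (.leaf 71))) (.ss (3/2) (.ss (5/4) (.leaf 124) (.leaf 124)) (.ss (7/4) (.leaf 106) (.leaf 73))))) (.su 28 (.su 26 (.su 25 (.ss (3/2) (.ss (5/4) (.leaf 124) (.leaf 124)) (.ss (7/4) (.leaf 108) (.leaf 75))) (.ss (3/2) (.ss (5/4) (.leaf 124) (.leaf 124)) (.ss (7/4) (.leaf 110) (.leaf 76)))) (.ss (3/2) (.ss (5/4) (.leaf 124) (.leaf 124)) (.ss (7/4) (.leaf 112) (.leaf 81)))) (.ss (3/2)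 (.ss (5/4) (.leaf 124) (.leaf 124)) (.ss (7/4) (.leaf 114) (.leaf 95))))))) (.su 52 (.su 40 (.su 36 (.ss (3/2) (.ss (5/4) (.leaf 124) (.leaf 124)) (.ss (7/4) (.leaf 120) (.leaf 97))) (.ss (3/2) (.ss (5/4) (.leaf 124) (.leaf 124)) (.ss (7/4) (.leaf 124) (.leaf 99)))) (.su 44 (.ss (3/2) (.ss (5/4) (.leaf 124) (.leaf 124)) (.ss (7/4) (.leaf 124) (.leaf 102))) (.su 48 (.ss (3/2) (.ss (5/4) (.leaf 124) (.leaf 124)) (.ss (7/4) (.leaf 124) (.leaf 105))) (.ss (3/2) (.ss (5/4) (.leaf 124) (.leaf 124)) (.ss (7/4) (.leaf 124) (.leaf 109)))))) (.su 60 (.su 56 (.ss (3/2) (.ss (5/4) (.leaf 124) (.leaf 124)) (.ss (7/4) (.leaf 124) (.leaf 113))) (.ss (3/2) (.ss (5/4) (.leaf 124) (.leaf 124)) (.ss (7/4) (.leaf 124) (.leaf 116)))) (.su 64 (.ss (3/2) (.ss (5/4) (.leaf 124) (.leaf 124)) (.ss (7/4) (.leaf 124) (.leaf 119))) (.su 68 (.ss (3/2) (.ss (5/4) (.leaf 124) (.leaf 124)) (.ss (7/4) (.leaf 124)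 (.leaf 121))) (.ss (3/2) (.ss (5/4) (.leaf 124) (.leaf 124)) (.ss (7/4) (.leaf 124) (.leaf 124))))))))

/-- Certificate. -/
theorem C10 : Cert (5 / 4) (P10.A : ℝ) P10.B P10.μa P10.μm :=
  cert54 (by decide +kernel) (cert_of_check' tb_valid T10 0 71 (by decide +kernel) (by decide +kernel)
    (by decide +kernel) (by decide +kernel) (by decide +kernel) (by decide +kernel) (by decide +kernel))

/-- Parameters. -/
def P11 : Par := ⟨5 / 4, (-94313/100000), (-1009/25000), 150183/100000, 1507/20000⟩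

/-- Cells. -/
def T11 : CT :=
  (.su 28 (.su 7 (.su 2 (.su 1 (.ss (3/2) (.ss (5/4) (.leaf 65) (.leaf 36)) (.ss (7/4) (.leaf 17) (.leaf 4))) (.ss (3/2) (.ss (5/4) (.leaf 124) (.leaf 42)) (.ss (7/4) (.leaf 32) (.leaf 21)))) (.su 3 (.ss (3/2) (.ss (5/4) (.leaf 124) (.leaf 50)) (.ss (7/4) (.leaf 37) (.leaf 30))) (.su 4 (.ss (3/2) (.ss (5/4) (.leaf 124) (.leaf 64)) (.ss (7/4) (.leaf 41) (.leaf 34))) (.ss (3/2) (.ss (5/4) (.leaf 124) (.leaf 74)) (.ss (7/4) (.leaf 44) (.leaf 36)))))) (.su 17 (.su 11 (.ss (3/2) (.ss (5/4) (.leaf 124) (.leaf 82)) (.ss (7/4) (.leaf 49) (.leaf 40))) (.ss (3/2) (.ss (5/4) (.leaf 124) (.leaf 124)) (.ss (7/4) (.leaf 62) (.leaf 45)))) (.su 21 (.su 19 (.su 18 (.ss (3/2) (.ss (5/4) (.leaf 124) (.leaf 124)) (.ss (7/4) (.leaf 74) (.leaf 56))) (.ss (3/2) (.ss (5/4) (.leaf 124) (.leaf 124)) (.ss (7/4) (.leaf 76) (.leaf 59)))) (.su 20 (.ss (3/2) (.ss (5/4) (.leaf 124)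 (.leaf 124)) (.ss (7/4) (.leaf 82) (.leaf 61))) (.ss (3/2) (.ss (5/4) (.leaf 124) (.leaf 124)) (.ss (7/4) (.leaf 101) (.leaf 64))))) (.su 24 (.su 22 (.ss (3/2) (.ss (5/4) (.leaf 124) (.leaf 124)) (.ss (7/4) (.leaf 102) (.leaf 67))) (.ss (3/2) (.ss (5/4) (.leaf 124) (.leaf 124)) (.ss (7/4) (.leaf 104) (.leaf 71)))) (.ss (3/2) (.ss (5/4) (.leaf 124) (.leaf 124)) (.ss (7/4) (.leaf 108) (.leaf 79))))))) (.su 44 (.su 36 (.su 32 (.ss (3/2) (.ss (5/4) (.leaf 124) (.leaf 124)) (.ss (7/4) (.leaf 114) (.leaf 95))) (.ss (3/2) (.ss (5/4) (.leaf 124) (.leaf 124)) (.ss (7/4) (.leaf 120) (.leaf 97)))) (.su 40 (.ss (3/2) (.ss (5/4) (.leaf 124) (.leaf 124)) (.ss (7/4) (.leaf 124) (.leaf 99))) (.ss (3/2) (.ss (5/4) (.leaf 124) (.leaf 124)) (.ss (7/4) (.leaf 124) (.leaf 102))))) (.su 52 (.su 48 (.ss (3/2) (.ss (5/4) (.leaf 124) (.leaf 124)) (.ss (7/4) (.leaf 124) (.leaf 105))) (.ss (3/2) (.ss (5/4)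 (.leaf 124) (.leaf 124)) (.ss (7/4) (.leaf 124) (.leaf 109)))) (.su 56 (.ss (3/2) (.ss (5/4) (.leaf 124) (.leaf 124)) (.ss (7/4) (.leaf 124) (.leaf 113))) (.su 60 (.ss (3/2) (.ss (5/4) (.leaf 124) (.leaf 124)) (.ss (7/4) (.leaf 124) (.leaf 116))) (.ss (3/2) (.ss (5/4) (.leaf 124) (.leaf 124)) (.ss (7/4) (.leaf 124) (.leaf 119))))))))

/-- Certificate. -/
theorem C11 : Cert (5 / 4) (P11.A : ℝ) P11.B P11.μa P11.μm :=
  cert54 (by decide +kernel) (cert_of_check' tb_valid T11 0 64 (by decide +kernel) (by decide +kernel)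
    (by decide +kernel) (by decide +kernel) (by decide +kernel) (by decide +kernel) (by decide +kernel))

/-- Parameters. -/
def P12 : Par := ⟨5 / 4, (-74683/50000), (-58057/100000), 18101/10000, 8567/50000⟩

/-- Cells. -/
def T12 : CT :=
  (.su 24 (.su 7 (.su 2 (.su 1 (.ss (3/2) (.ss (5/4) (.leaf 124) (.leaf 39)) (.ss (7/4) (.leaf 17) (.leaf 4))) (.ss (3/2) (.ss (5/4) (.leaf 124) (.leaf 46)) (.ss (7/4) (.leaf 34) (.leaf 21)))) (.su 3 (.ss (3/2) (.ss (5/4) (.leaf 124) (.leaf 63)) (.ss (7/4) (.leaf 40) (.leaf 32))) (.su 4 (.ss (3/2) (.ss (5/4) (.leaf 124) (.leaf 64)) (.ss (7/4) (.leaf 43) (.leaf 35))) (.su 5 (.ss (3/2) (.ss (5/4) (.leaf 124) (.leaf 74)) (.ss (7/4) (.leaf 44) (.leaf 36))) (.su 6 (.ss (3/2) (.ss (5/4) (.leaf 124) (.leaf 77)) (.ss (7/4) (.leaf 45) (.leaf 37))) (.ss (3/2) (.ss (5/4) (.leaf 124) (.leaf 80)) (.ss (7/4) (.leaf 46) (.leaf 38)))))))) (.su 17 (.su 11 (.su 10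 (.su 9 (.su 8 (.ss (3/2) (.ss (5/4) (.leaf 124) (.leaf 82)) (.ss (7/4) (.leaf 48) (.leaf 38))) (.ss (3/2) (.ss (5/4) (.leaf 124) (.leaf 85)) (.ss (7/4) (.leaf 50) (.leaf 39)))) (.ss (3/2) (.ss (5/4) (.leaf 124) (.leaf 87)) (.ss (7/4) (.leaf 52) (.leaf 40)))) (.ss (3/2) (.ss (5/4) (.leaf 124) (.leaf 124)) (.ss (7/4) (.leaf 55) (.leaf 42)))) (.su 14 (.su 12 (.ss (3/2) (.ss (5/4) (.leaf 124) (.leaf 124)) (.ss (7/4) (.leaf 62) (.leaf 45))) (.su 13 (.ss (3/2) (.ss (5/4) (.leaf 124) (.leaf 124)) (.ss (7/4) (.leaf 66) (.leaf 48))) (.ss (3/2) (.ss (5/4) (.leaf 124) (.leaf 124)) (.ss (7/4) (.leaf 67) (.leaf 49))))) (.su 16 (.su 15 (.ss (3/2) (.ss (5/4) (.leaf 124) (.leaf 124)) (.ss (7/4) (.leaf 69) (.leaf 51))) (.ss (3/2) (.ss (5/4) (.leaf 124) (.leaf 124)) (.ss (7/4) (.leaf 70) (.leaf 52)))) (.ss (3/2) (.ss (5/4) (.leaf 124) (.leaf 124)) (.ss (7/4) (.leaf 72) (.leaf 53)))))) (.su 21 (.su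 19 (.ss (3/2) (.ss (5/4) (.leaf 124) (.leaf 124)) (.ss (7/4) (.leaf 74) (.leaf 56))) (.ss (3/2) (.ss (5/4) (.leaf 124) (.leaf 124)) (.ss (7/4) (.leaf 96) (.leaf 61)))) (.ss (3/2) (.ss (5/4) (.leaf 124) (.leaf 124)) (.ss (7/4) (.leaf 102) (.leaf 67)))))) (.su 40 (.su 32 (.su 28 (.ss (3/2) (.ss (5/4) (.leaf 124) (.leaf 124)) (.ss (7/4) (.leaf 108) (.leaf 90))) (.ss (3/2) (.ss (5/4) (.leaf 124) (.leaf 124)) (.ss (7/4) (.leaf 114) (.leaf 95)))) (.su 36 (.ss (3/2) (.ss (5/4) (.leaf 124) (.leaf 124)) (.ss (7/4) (.leaf 120) (.leaf 97))) (.ss (3/2) (.ss (5/4) (.leaf 124) (.leaf 124)) (.ss (7/4) (.leaf 123) (.leaf 99))))) (.su 48 (.su 44 (.ss (3/2) (.ss (5/4) (.leaf 124) (.leaf 124)) (.ss (7/4) (.leaf 124) (.leaf 102))) (.ss (3/2) (.ss (5/4) (.leaf 124) (.leaf 124)) (.ss (7/4) (.leaf 124) (.leaf 105)))) (.su 52 (.ss (3/2) (.ss (5/4) (.leaf 124) (.leaf 124)) (.ss (7/4) (.leaf 124) (.leaf 109)))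 (.ss (3/2) (.ss (5/4) (.leaf 124) (.leaf 124)) (.ss (7/4) (.leaf 124) (.leaf 113)))))))

/-- Certificate. -/
theorem C12 : Cert (5 / 4) (P12.A : ℝ) P12.B P12.μa P12.μm :=
  cert54 (by decide +kernel) (cert_of_check' tb_valid T12 0 56 (by decide +kernel) (by decide +kernel)
    (by decide +kernel) (by decide +kernel) (by decide +kernel) (by decide +kernel) (by decide +kernel))

end Vale.Agent.Lib.P226.CD
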