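import Vale.Agent.Lib.P226.X.ClosureDefs
import Vale.Agent.Lib.P226.X.Scan

/-!
The final arithmetic of the reduction: a decision tree over the values of the fourth largest and
of the fifth largest cell, checked in natural number arithmetic, with a proof of soundness.
-/

open Real

namespace Vale.Agent.Lib.P226

/-- Lower bound for `t0` in units of `10⁻⁷`. -/
lemma t0_lower : ((3580985 : ℕ) : ℝ) / 10 ^ 7 ≤ t0 := by
  unfold t0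
  have h1 := Real.pi_lt_d6
  have h2 := Real.pi_pos
  rw [le_div_iff₀ (by positivity)]
  push_cast
  nlinarith

/-! ### Data of the decision tree -/

/-- A step of the chain for the third cell. -/
structure Cell where
  p : ℕ
  h : ℕ
  Qa : ℕ
  Qb : ℕ
  Q4 : ℕ
  Q5 : ℕ

/-- Caps used with the third cell above the bottom of the final cell. -/
structure Bd where
  p : ℕ
  Qa : ℕ
  Q4 : ℕ
  Q5 : ℕ

/-- Decision tree. -/
inductive DT where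
  | skip
  | s4 (m : ℕ) (l r : DT)
  | s5 (m : ℕ) (l r : DT)
  | inf (c : ℕ) (cells : List Cell) (ell : ℕ) (z : Bd)
  | v1 (c : ℕ) (cells : List Cell) (ell : ℕ) (zT : Bd) (Tb : ℕ) (zM : Bd) (QM M S Dl : ℕ)
  | v46 (c : ℕ) (cells : List Cell) (ell : ℕ) (zT : Bd) (Tb S₀ fuel : ℕ)

/-- The cap check with the standard shift. -/
def capQ (nodes : List (ℕ × ℕ)) (p Q h l : ℕ) : Bool := capOK p Q 10000000 h l 0 nodes

/-- Check of a step of the chain. -/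
def cellOK (nodes : List (ℕ × ℕ)) (HI c l4 h4 l5 h5 l : ℕ) (z : Cell) : Bool :=
  capQ nodes z.p z.Qa HI l && capQ nodes z.p z.Qb z.h l && capQ nodes z.p z.Q4 h4 l4 &&
    capQ nodes z.p z.Q5 h5 l5 &&
    Nat.blt (2 * z.Qa + z.Qb + z.Q4 + z.Q5 + z.p * 100000) 53580985 &&
    Nat.ble 10000 (z.p * c)

/-- Check of the chain. -/
def chainOK (nodes : List (ℕ × ℕ)) (HI c l4 h4 l5 h5 : ℕ) : ℕ → List Cell → ℕ → Bool
  | l, [], ell => Nat.ble ell l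
  | l, z :: zs, ell => cellOK nodes HI c l4 h4 l5 h5 l z && chainOK nodes HI c l4 h4 l5 h5 z.h zs ell

/-- Check of the caps of a record. -/
def bdOK (nodes : List (ℕ × ℕ)) (HI l4 h4 l5 h5 ell : ℕ) (z : Bd) : Bool :=
  capQ nodes z.p z.Qa HI ell && capQ nodes z.p z.Q4 h4 l4 && capQ nodes z.p z.Q5 h5 l5

/-- Check of the bound for the tail. -/
def tbOK (nodes : List (ℕ × ℕ)) (HI c l4 h4 l5 h5 ell Tb : ℕ) (z : Bd) : Bool :=
  bdOK nodes HI l4 h4 l5 h5 ell z && Nat.blt 10000 (z.p * c) && Nat.ble h5 Tb &&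
    Nat.ble ((3 * z.Qa + z.Q4 + z.Q5 + z.p * 100000) * 10000 + h5 * (z.p * c) + Tb * 10000)
      (53580985 * 10000 + Tb * (z.p * c) + h5 * 10000)

/-- Value check for the first criterion. -/
def v1Val (h5 Rb S Dl x : ℕ) : Bool :=
  Nat.ble Rb x && Nat.ble x S &&
    Nat.blt (9070800 * h5 + (x - Rb) * (x - Rb) + Dl * Dl) (2 * (x - Rb) * (S - x))

/-- Check of a box for the lower bound of the spanning tree polynomial. -/
def covLeaf (d0 d3 S₀ WW TT al ah bl bh : ℕ) : Bool :=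
  Nat.blt WW (al * bl) || Nat.blt ah bl || Nat.blt (3 * (ah + bh)) S₀ ||
    Nat.blt (TT + al * (d0 - bl) * (d0 - bl))
      (al * max bl d0 * max (S₀ - ah - bh) ((d0 - bh) + (d3 - bh)))

/-- Cover by bisection. -/
def cov (d0 d3 S₀ WW TT : ℕ) : ℕ → ℕ → ℕ → ℕ → ℕ → Bool
  | 0, al, ah, bl, bh => covLeaf d0 d3 S₀ WW TT al ah bl bh
  | n + 1, al, ah, bl, bh =>
      covLeaf d0 d3 S₀ WW TT al ah bl bh ||
        (if bh - bl ≤ ah - al then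
          cov d0 d3 S₀ WW TT n al ((al + ah) / 2) bl bh &&
            cov d0 d3 S₀ WW TT n ((al + ah) / 2) ah bl bh
        else
          cov d0 d3 S₀ WW TT n al ah bl ((bl + bh) / 2) &&
            cov d0 d3 S₀ WW TT n al ah ((bl + bh) / 2) bh)

/-- The check of the decision tree. -/
def checkT (nodes : List (ℕ × ℕ)) (HI : ℕ) : DT → ℕ → ℕ → ℕ → ℕ → Bool
  | .skip, _, h4, l5, _ => Nat.blt h4 l5
  | .s4 m t₁ t₂, l4, h4, l5, h5 =>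
      checkT nodes HI t₁ l4 m l5 h5 && checkT nodes HI t₂ m h4 l5 h5
  | .s5 m t₁ t₂, l4, h4, l5, h5 =>
      checkT nodes HI t₁ l4 h4 l5 m && checkT nodes HI t₂ l4 h4 m h5
  | .inf c cells ell z, l4, h4, l5, h5 =>
      chordOK c h5 nodes && chainOK nodes HI c l4 h4 l5 h5 l4 cells ell &&
        bdOK nodes HI l4 h4 l5 h5 ell z &&
        Nat.blt (3 * z.Qa + z.Q4 + z.Q5 + z.p * 100000) 53580985 && Nat.ble 10000 (z.p * c)
  | .v1 c cells ell zT Tb zM QM M S Dl, l4, h4, l5, h5 =>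
      chordOK c h5 nodes && chainOK nodes HI c l4 h4 l5 h5 l4 cells ell &&
        tbOK nodes HI c l4 h4 l5 h5 ell Tb zT &&
        bdOK nodes HI l4 h4 l5 h5 ell zM && capQ nodes zM.p QM HI M &&
        Nat.blt (QM + 2 * zM.Qa + zM.Q4 + zM.Q5 + zM.p * 100000) 53580985 &&
        Nat.ble 10000 (zM.p * c) && Nat.ble Tb 2500000 && Nat.ble ell M &&
        Nat.ble (S + (h4 + Tb)) 3580985 && Nat.ble (3 * M) (S + 2 * Dl) &&
        v1Val h5 (h4 + Tb) S Dl ell && v1Val h5 (h4 + Tb) S Dl M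
  | .v46 c cells ell zT Tb S₀ fuel, l4, h4, l5, h5 =>
      chordOK c h5 nodes && chainOK nodes HI c l4 h4 l5 h5 l4 cells ell &&
        tbOK nodes HI c l4 h4 l5 h5 ell Tb zT && Nat.ble Tb 2500000 &&
        Nat.ble Tb l4 && Nat.ble Tb ell && Nat.ble (2 * S₀ + 2 * Tb) 3580985 &&
        cov (l4 - Tb) (ell - Tb) S₀ (20387 * h5 * 100) (45869 * h5 * h5 * 100) fuel 0 HI 0 HI

/-! ### Soundness: real arithmetic -/

/-- Lower bound for the sum of products of the triangle. -/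
theorem e2_lower {c12 c13 c23 e1 e2 e3 x1 x2 x3 R : ℝ}
    (d1 : x1 = c12 + c13 + e1) (d2 : x2 = c12 + c23 + e2) (d3 : x3 = c13 + c23 + e3)
    (he1 : 0 ≤ e1) (he2 : 0 ≤ e2) (he3 : 0 ≤ e3) (hR : e1 + e2 + e3 ≤ R)
    (h12 : x2 ≤ x1) (h23 : x3 ≤ x2) (hw : 0 ≤ x3 - R) :
    (x3 - R) * (x1 + x2) / 2 - (x3 - R) ^ (2 : ℕ) / 4 - (x1 - x2) ^ (2 : ℕ) / 4 ≤
      c12 * c13 + c12 * c23 + c13 * c23 := by
  -- notation of the proof: m₁ = S - x₁ etc., with S = (x₁ + x₂ + x₃ - R) / 2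
  set S := (x1 + x2 + x3 - R) / 2 with hS
  set m1 := S - x1 with hm1
  set m2 := S - x2 with hm2
  set m3 := S - x3 with hm3
  set f1 := c23 - m1 with hf1
  set f2 := c13 - m2 with hf2
  set f3 := c12 - m3 with hf3
  have hD : (R - (e1 + e2 + e3)) / 2 ≥ 0 := by linarith
  have hf1' : f1 = (R - (e1 + e2 + e3)) / 2 + e1 := by
    simp only [hf1, hm1, hS]; rw [d1, d2, d3]; ring
  have hf2' : f2 = (R - (e1 + e2 + e3)) / 2 + e2 := by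
    simp only [hf2, hm2, hS]; rw [d1, d2, d3]; ring
  have hf3' : f3 = (R - (e1 + e2 + e3)) / 2 + e3 := by
    simp only [hf3, hm3, hS]; rw [d1, d2, d3]; ring
  have f1n : 0 ≤ f1 := by rw [hf1']; linarith
  have f2n : 0 ≤ f2 := by rw [hf2']; linarith
  have f3n : 0 ≤ f3 := by rw [hf3']; linarith
  have hsum : R ≤ f1 + f2 + f3 := by rw [hf1', hf2', hf3']; linarith
  have h31 : 0 ≤ m3 - m1 := by simp only [hm1, hm3]; linarith
  have h32 : 0 ≤ m3 - m2 := by simp only [hm2, hm3]; linarith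
  have hw' : m1 + m2 = x3 - R := by simp only [hm1, hm2, hS]; ring
  have hc23 : c23 = m1 + f1 := by simp only [hf1]; ring
  have hc13 : c13 = m2 + f2 := by simp only [hf2]; ring
  have hc12 : c12 = m3 + f3 := by simp only [hf3]; ring
  have key : m1 * m2 + (m1 + m2) * (m3 + R) ≤
      (m3 + f3) * (m2 + f2) + (m3 + f3) * (m1 + f1) + (m2 + f2) * (m1 + f1) := by
    have h1 : (m1 + m2) * R ≤ (m1 + m2) * (f1 + f2 + f3) :=
      mul_le_mul_of_nonneg_left hsum (by rw [hw']; exact hw)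
    have h2 := mul_nonneg f1n h31
    have h3 := mul_nonneg f2n h32
    have h4 := mul_nonneg f1n f2n
    have h5 := mul_nonneg f1n f3n
    have h6 := mul_nonneg f2n f3n
    nlinarith
  have e : (x3 - R) * (x1 + x2) / 2 - (x3 - R) ^ (2 : ℕ) / 4 - (x1 - x2) ^ (2 : ℕ) / 4 =
      m1 * m2 + (m1 + m2) * (m3 + R) := by
    simp only [hm1, hm2, hm3, hS]; ring
  rw [e, hc12, hc13, hc23]
  linarith

/-- The quadratic bound of the first criterion on an interval. -/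
theorem quad_lower {x l M Rb S Dl P : ℝ} (hl : l ≤ x) (hM : x ≤ M)
    (hfl : P ≤ (l - Rb) * (S - l) / 2 - (l - Rb) ^ (2 : ℕ) / 4 - Dl ^ (2 : ℕ) / 4)
    (hfM : P ≤ (M - Rb) * (S - M) / 2 - (M - Rb) ^ (2 : ℕ) / 4 - Dl ^ (2 : ℕ) / 4) :
    P ≤ (x - Rb) * (S - x) / 2 - (x - Rb) ^ (2 : ℕ) / 4 - Dl ^ (2 : ℕ) / 4 := by
  rcases eq_or_lt_of_le (hl.trans hM) with h | h
  · have : x = l := le_antisymm (by linarith) hl
    rw [this]; exact hfl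
  · have hp : 0 < M - l := by linarith
    have h1 := mul_le_mul_of_nonneg_left hfl (show 0 ≤ M - x by linarith)
    have h2 := mul_le_mul_of_nonneg_left hfM (show 0 ≤ x - l by linarith)
    have h3 := mul_nonneg (mul_nonneg (show 0 ≤ M - x by linarith) (show 0 ≤ x - l by linarith)) hp.le
    refine le_of_mul_le_mul_left ?_ hp
    nlinarith

/-- The final contradiction for the first criterion. -/
theorem v1_real {x1 x2 x3 R Rb t S M l Dl P c12 c13 c23 e1 e2 e3 : ℝ}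
    (d1 : x1 = c12 + c13 + e1) (d2 : x2 = c12 + c23 + e2) (d3 : x3 = c13 + c23 + e3)
    (he1 : 0 ≤ e1) (he2 : 0 ≤ e2) (he3 : 0 ≤ e3) (hR : e1 + e2 + e3 ≤ R) (hR0 : 0 ≤ R)
    (h12 : x2 ≤ x1) (h23 : x3 ≤ x2) (hRb : R ≤ Rb) (hlRb : Rb ≤ l) (hl : l ≤ x3) (hx1 : x1 ≤ M)
    (henergy : t < x1 + x2 + x3 + R) (hS : S + Rb ≤ t) (hDl : 3 * M ≤ S + 2 * Dl)
    (hfl : P ≤ (l - Rb) * (S - l) / 2 - (l - Rb) ^ (2 : ℕ) / 4 - Dl ^ (2 : ℕ) / 4)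
    (hfM : P ≤ (M - Rb) * (S - M) / 2 - (M - Rb) ^ (2 : ℕ) / 4 - Dl ^ (2 : ℕ) / 4)
    (hSM : l ≤ S) (hDl0 : 0 ≤ Dl) :
    P ≤ c12 * c13 + c12 * c23 + c13 * c23 := by
  have hw0 : 0 ≤ x3 - Rb := by linarith
  have hw : 0 ≤ x3 - R := by linarith
  have h1 := e2_lower d1 d2 d3 he1 he2 he3 hR h12 h23 hw
  have h2 := quad_lower hl (h23.trans (h12.trans hx1)) hfl hfM
  refine h2.trans (le_trans ?_ h1)
  -- monotonicity in `w`
  have hσ : S - x3 ≤ x1 + x2 := by linarith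
  have hΔ0 : 0 ≤ x1 - x2 := by linarith
  have hΔ : x1 - x2 ≤ Dl := by linarith
  have hΔ2 : (x1 - x2) ^ (2 : ℕ) ≤ Dl ^ (2 : ℕ) := pow_le_pow_left₀ hΔ0 hΔ 2
  have h3 : (x3 - Rb) * (S - x3) ≤ (x3 - Rb) * (x1 + x2) := mul_le_mul_of_nonneg_left hσ hw0
  have hww : 0 ≤ (Rb - R) := by linarith
  have h4 : (x3 - Rb) * (x1 + x2) / 2 - (x3 - Rb) ^ (2 : ℕ) / 4 ≤
      (x3 - R) * (x1 + x2) / 2 - (x3 - R) ^ (2 : ℕ) / 4 := by
    have e : (x3 - R) * (x1 + x2) / 2 - (x3 - R) ^ (2 : ℕ) / 4 -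
        ((x3 - Rb) * (x1 + x2) / 2 - (x3 - Rb) ^ (2 : ℕ) / 4) =
        (Rb - R) * ((x1 + x2) / 2 - ((x3 - R) + (x3 - Rb)) / 4) := by ring
    have : 0 ≤ (x1 + x2) / 2 - ((x3 - R) + (x3 - Rb)) / 4 := by
      have : x3 ≤ x1 := h23.trans h12
      linarith
    nlinarith [mul_nonneg hww this]
  linarith

/-! ### The third criterion: an abstract form -/

/-- The hypotheses for the cover by boxes (real quantities, in absolute units). -/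
structure V46H (d0 d3 S₀ W τ a b X : ℝ) : Prop where
  ha : 0 ≤ a
  hb : 0 ≤ b
  hX : 0 ≤ X
  hba : b ≤ a
  hW : a * b ≤ W
  h3 : S₀ ≤ 3 * (a + b)
  hS : S₀ - a - b ≤ X
  hm : max (d0 - b) 0 + max (d3 - b) 0 ≤ X
  hE : a * ((b + max (d0 - b) 0) * X - (max (d0 - b) 0) ^ (2 : ℕ)) ≤ τ

/-- From the tree polynomial data to the hypotheses. -/
theorem v46H_of {d0 d3 S₀ W τ a b A' B' : ℝ} (hb : 0 ≤ b) (hA : 0 ≤ A') (hB : 0 ≤ B') (hba : b ≤ a)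
    (hW : a * b ≤ W) (h3 : S₀ ≤ 3 * (a + b)) (hS : S₀ ≤ a + b + A' + B')
    (hdA : d0 ≤ b + A') (hdB : d0 ≤ b + B') (hd3 : d3 ≤ b + A' ∨ d3 ≤ b + B')
    (hT : a * (b * (A' + B') + A' * B') ≤ τ) :
    V46H d0 d3 S₀ W τ a b (A' + B') := by
  have ha : 0 ≤ a := hb.trans hba
  have hm1A : max (d0 - b) 0 ≤ A' := max_le (by linarith) hA
  have hm1B : max (d0 - b) 0 ≤ B' := max_le (by linarith) hB
  have hm10 : 0 ≤ max (d0 - b) 0 := le_max_right _ _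
  refine ⟨ha, hb, add_nonneg hA hB, hba, hW, h3, by linarith, ?_, ?_⟩
  · rcases hd3 with h | h
    · have : max (d3 - b) 0 ≤ A' := max_le (by linarith) hA
      linarith
    · have : max (d3 - b) 0 ≤ B' := max_le (by linarith) hB
      linarith
  · refine le_trans (mul_le_mul_of_nonneg_left ?_ ha) hT
    have := mul_nonneg (sub_nonneg.mpr hm1A) (sub_nonneg.mpr hm1B)
    nlinarith

/-- Cast of a truncated difference. -/
lemma natSub_le (x y : ℕ) : ((x - y : ℕ) : ℝ) ≤ max ((x : ℝ) - y) 0 := by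
  rcases le_total y x with h | h
  · rw [Nat.cast_sub h]; exact le_max_left _ _
  · rw [Nat.sub_eq_zero_of_le h]; simpa using le_max_right _ _

/-- Cast of a truncated difference, divided. -/
lemma natSub_div_le (d bh : ℕ) {b : ℝ} (hb : b ≤ (bh : ℝ) / 10 ^ 7) :
    ((d - bh : ℕ) : ℝ) / 10 ^ 7 ≤ max ((d : ℝ) / 10 ^ 7 - b) 0 := by
  rcases le_total bh d with h | h
  · rw [Nat.cast_sub h]
    refine le_trans ?_ (le_max_left _ _)
    have : ((d : ℝ) - bh) / 10 ^ 7 = (d : ℝ) / 10 ^ 7 - (bh : ℝ) / 10 ^ 7 := by ring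
    linarith
  · rw [Nat.sub_eq_zero_of_le h]
    simp

/-- Cast of a doubly truncated difference, divided. -/
lemma natSub2_div_le (S ah bh : ℕ) {a b X : ℝ} (ha : a ≤ (ah : ℝ) / 10 ^ 7)
    (hb : b ≤ (bh : ℝ) / 10 ^ 7) (hX : 0 ≤ X) (hS : (S : ℝ) / 10 ^ 7 - a - b ≤ X) :
    ((S - ah - bh : ℕ) : ℝ) / 10 ^ 7 ≤ X := by
  rcases le_total (ah + bh) S with h | h
  · have h1 : S - ah - bh = S - (ah + bh) := by omega
    rw [h1, Nat.cast_sub h]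
    push_cast
    have : ((S : ℝ) - (ah + bh)) / 10 ^ 7 = (S : ℝ) / 10 ^ 7 - (ah : ℝ) / 10 ^ 7 - (bh : ℝ) / 10 ^ 7 := by
      ring
    linarith
  · have h1 : S - ah - bh = 0 := by omega
    rw [h1]
    simpa using hX

/-- Leaf of the cover. -/
theorem covLeaf_sound {d0 d3 S₀ WW TT al ah bl bh : ℕ} {a b X : ℝ}
    (H : V46H ((d0 : ℝ) / 10 ^ 7) ((d3 : ℝ) / 10 ^ 7) ((S₀ : ℝ) / 10 ^ 7) ((WW : ℝ) / 10 ^ 14)
      ((TT : ℝ) / 10 ^ 21) a b X)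
    (hc : covLeaf d0 d3 S₀ WW TT al ah bl bh = true)
    (h1 : (al : ℝ) / 10 ^ 7 ≤ a) (h2 : a ≤ (ah : ℝ) / 10 ^ 7)
    (h3 : (bl : ℝ) / 10 ^ 7 ≤ b) (h4 : b ≤ (bh : ℝ) / 10 ^ 7) : False := by
  simp only [covLeaf, Bool.or_eq_true, Nat.blt_eq] at hc
  have hal : (0 : ℝ) ≤ (al : ℝ) / 10 ^ 7 := by positivity
  have hbl : (0 : ℝ) ≤ (bl : ℝ) / 10 ^ 7 := by positivity
  rcases hc with ((hc | hc) | hc) | hc
  · have h5 : (WW : ℝ) < al * bl := by exact_mod_cast hc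
    have h6 : (al : ℝ) / 10 ^ 7 * ((bl : ℝ) / 10 ^ 7) ≤ a * b := mul_le_mul h1 h3 hbl H.ha
    have h7 := H.hW
    have h8 : (WW : ℝ) / 10 ^ 14 < (al : ℝ) / 10 ^ 7 * ((bl : ℝ) / 10 ^ 7) := by
      have e : (al : ℝ) / 10 ^ 7 * ((bl : ℝ) / 10 ^ 7) = al * bl / 10 ^ 14 := by ring
      rw [e]; exact div_lt_div_of_pos_right h5 (by positivity)
    linarith
  · have h5 : (ah : ℝ) < bl := by exact_mod_cast hc
    have h6 : (ah : ℝ) / 10 ^ 7 < (bl : ℝ) / 10 ^ 7 := div_lt_div_of_pos_right h5 (by positivity)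
    have := H.hba
    linarith
  · have h5 : 3 * ((ah : ℝ) + bh) < S₀ := by exact_mod_cast hc
    have h6 : 3 * ((ah : ℝ) / 10 ^ 7 + (bh : ℝ) / 10 ^ 7) < (S₀ : ℝ) / 10 ^ 7 := by
      have e : 3 * ((ah : ℝ) / 10 ^ 7 + (bh : ℝ) / 10 ^ 7) = 3 * ((ah : ℝ) + bh) / 10 ^ 7 := by ring
      rw [e]; exact div_lt_div_of_pos_right h5 (by positivity)
    have := H.h3
    linarith
  · -- the main case
    set Bl : ℝ := ((max bl d0 : ℕ) : ℝ) / 10 ^ 7 with hBl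
    set Xl : ℝ := ((max (S₀ - ah - bh) ((d0 - bh) + (d3 - bh)) : ℕ) : ℝ) / 10 ^ 7 with hXl
    set ml : ℝ := ((d0 - bl : ℕ) : ℝ) / 10 ^ 7 with hml
    set M₁ := max ((d0 : ℝ) / 10 ^ 7 - b) 0 with hM₁
    have hM₁0 : 0 ≤ M₁ := le_max_right _ _
    have hBl0 : 0 ≤ Bl := by positivity
    have hXl0 : 0 ≤ Xl := by positivity
    have hml0 : 0 ≤ ml := by positivity
    -- `M₁ ≤ ml`
    have hM₁ml : M₁ ≤ ml := by
      refine max_le ?_ hml0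
      rcases le_total bl d0 with hh | hh
      · have : ml = ((d0 : ℝ) - bl) / 10 ^ 7 := by rw [hml, Nat.cast_sub hh]
        rw [this]
        have : ((d0 : ℝ) - bl) / 10 ^ 7 = (d0 : ℝ) / 10 ^ 7 - (bl : ℝ) / 10 ^ 7 := by ring
        linarith
      · have hh' : (d0 : ℝ) ≤ bl := by exact_mod_cast hh
        have : (d0 : ℝ) / 10 ^ 7 ≤ (bl : ℝ) / 10 ^ 7 := div_le_div_of_nonneg_right hh' (by positivity)
        linarith
    -- `Bl ≤ b + M₁`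
    have hBlb : Bl ≤ b + M₁ := by
      rw [hBl]
      push_cast
      have e : max (bl : ℝ) d0 / 10 ^ 7 = max ((bl : ℝ) / 10 ^ 7) ((d0 : ℝ) / 10 ^ 7) := by
        rw [max_div_div_right (by positivity)]
      rw [e]
      refine max_le (by linarith) ?_
      have : (d0 : ℝ) / 10 ^ 7 - b ≤ M₁ := le_max_left _ _
      linarith
    -- `Xl ≤ X`
    have hXlX : Xl ≤ X := by
      rw [hXl]
      push_cast
      rw [← max_div_div_right (by positivity)]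
      refine max_le ?_ ?_
      · have := natSub2_div_le S₀ ah bh h2 h4 H.hX H.hS
        simpa using this
      · have h5 := natSub_div_le d0 bh h4
        have h6 := natSub_div_le d3 bh h4
        have h7 := H.hm
        have e : (((d0 - bh : ℕ) : ℝ) + ((d3 - bh : ℕ) : ℝ)) / 10 ^ 7 =
            ((d0 - bh : ℕ) : ℝ) / 10 ^ 7 + ((d3 - bh : ℕ) : ℝ) / 10 ^ 7 := by ring
        rw [e]
        linarith
    -- the numeric inequality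
    have hcR : (TT : ℝ) + al * ((d0 - bl : ℕ) : ℝ) * ((d0 - bl : ℕ) : ℝ) <
        al * ((max bl d0 : ℕ) : ℝ) * ((max (S₀ - ah - bh) ((d0 - bh) + (d3 - bh)) : ℕ) : ℝ) := by
      exact_mod_cast hc
    have hc2 : (TT : ℝ) / 10 ^ 21 + (al : ℝ) / 10 ^ 7 * ml * ml < (al : ℝ) / 10 ^ 7 * Bl * Xl := by
      have e1 : (al : ℝ) / 10 ^ 7 * Bl * Xl = (al * ((max bl d0 : ℕ) : ℝ) *
          ((max (S₀ - ah - bh) ((d0 - bh) + (d3 - bh)) : ℕ) : ℝ)) / 10 ^ 21 := by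
        rw [hBl, hXl]; ring
      have e2 : (TT : ℝ) / 10 ^ 21 + (al : ℝ) / 10 ^ 7 * ml * ml =
          ((TT : ℝ) + al * ((d0 - bl : ℕ) : ℝ) * ((d0 - bl : ℕ) : ℝ)) / 10 ^ 21 := by
        rw [hml]; ring
      rw [e1, e2]
      exact div_lt_div_of_pos_right hcR (by positivity)
    have hTT : (0 : ℝ) ≤ (TT : ℝ) / 10 ^ 21 := by positivity
    set α : ℝ := (al : ℝ) / 10 ^ 7 with hα
    set E' := Bl * Xl - ml ^ (2 : ℕ) with hE'
    have hαE : (TT : ℝ) / 10 ^ 21 < α * E' := by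
      rw [hE']; nlinarith
    have hE'pos : 0 < E' := by
      by_contra hneg
      push Not at hneg
      have := mul_nonpos_of_nonneg_of_nonpos hal hneg
      linarith
    have hEE : E' ≤ (b + M₁) * X - M₁ ^ (2 : ℕ) := by
      have h5 : Bl * Xl ≤ (b + M₁) * X := mul_le_mul hBlb hXlX hXl0 (hBl0.trans hBlb)
      have h6 : M₁ ^ (2 : ℕ) ≤ ml ^ (2 : ℕ) := pow_le_pow_left₀ hM₁0 hM₁ml 2
      rw [hE']
      linarith
    have h7 : α * E' ≤ a * ((b + M₁) * X - M₁ ^ (2 : ℕ)) :=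
      mul_le_mul h1 hEE hE'pos.le H.ha
    have h8 : a * ((b + M₁) * X - M₁ ^ (2 : ℕ)) ≤ (TT : ℝ) / 10 ^ 21 := H.hE
    linarith

/-- The cover by bisection. -/
theorem cov_sound {d0 d3 S₀ WW TT : ℕ} {a b X : ℝ}
    (H : V46H ((d0 : ℝ) / 10 ^ 7) ((d3 : ℝ) / 10 ^ 7) ((S₀ : ℝ) / 10 ^ 7) ((WW : ℝ) / 10 ^ 14)
      ((TT : ℝ) / 10 ^ 21) a b X) :
    ∀ (n al ah bl bh : ℕ), cov d0 d3 S₀ WW TT n al ah bl bh = true →
      (al : ℝ) / 10 ^ 7 ≤ a → a ≤ (ah : ℝ) / 10 ^ 7 →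
      (bl : ℝ) / 10 ^ 7 ≤ b → b ≤ (bh : ℝ) / 10 ^ 7 → False := by
  intro n
  induction n with
  | zero =>
    intro al ah bl bh hc h1 h2 h3 h4
    exact covLeaf_sound H hc h1 h2 h3 h4
  | succ n ih =>
    intro al ah bl bh hc h1 h2 h3 h4
    simp only [cov, Bool.or_eq_true] at hc
    rcases hc with hc | hc
    · exact covLeaf_sound H hc h1 h2 h3 h4
    · split_ifs at hc with hif
      · simp only [Bool.and_eq_true] at hc
        rcases le_total a ((((al + ah) / 2 : ℕ) : ℝ) / 10 ^ 7) with h | h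
        · exact ih _ _ _ _ hc.1 h1 h h3 h4
        · exact ih _ _ _ _ hc.2 h h2 h3 h4
      · simp only [Bool.and_eq_true] at hc
        rcases le_total b ((((bl + bh) / 2 : ℕ) : ℝ) / 10 ^ 7) with h | h
        · exact ih _ _ _ _ hc.1 h1 h2 h3 h
        · exact ih _ _ _ _ hc.2 h1 h2 h h4

/-- The spanning tree polynomial bounds the leading product. -/
lemma trees_lb1 {c12 c13 c14 c23 c24 c34 : ℝ} (h12 : 0 ≤ c12) (h13 : 0 ≤ c13) (h14 : 0 ≤ c14)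
    (h23 : 0 ≤ c23) (h24 : 0 ≤ c24) (h34 : 0 ≤ c34) :
    c12 * (c34 * ((c13 + c23) + (c14 + c24)) + (c13 + c23) * (c14 + c24)) ≤
      treesK4 c12 c13 c14 c23 c24 c34 := by
  have e : treesK4 c12 c13 c14 c23 c24 c34 -
      c12 * (c34 * ((c13 + c23) + (c14 + c24)) + (c13 + c23) * (c14 + c24)) =
      c13 * c24 * (c34 + c14 + c23) + c14 * c23 * (c34 + c13 + c24) + c13 * c23 * c34 +
        c14 * c24 * c34 := by
    unfold treesK4; ring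
  have h : 0 ≤ c13 * c24 * (c34 + c14 + c23) + c14 * c23 * (c34 + c13 + c24) + c13 * c23 * c34 +
      c14 * c24 * c34 := by positivity
  linarith

/-! ### Soundness for a configuration -/

namespace Cfg

variable {nodes : List (ℕ × ℕ)} (C : Cfg nodes)

lemma a₁_le : C.a₁ ≤ 1 := by
  have := C.a_sum; linarith [C.a₂_nn, C.a₃_nn, C.a₄_nn, C.a₅_nn, C.aR_nn]
lemma a₂_le : C.a₂ ≤ 1 := by
  have := C.a_sum; linarith [C.a₁_nn, C.a₃_nn, C.a₄_nn, C.a₅_nn, C.aR_nn]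
lemma a₃_le : C.a₃ ≤ 1 := by
  have := C.a_sum; linarith [C.a₂_nn, C.a₁_nn, C.a₄_nn, C.a₅_nn, C.aR_nn]
lemma a₄_le : C.a₄ ≤ 1 := by
  have := C.a_sum; linarith [C.a₂_nn, C.a₃_nn, C.a₁_nn, C.a₅_nn, C.aR_nn]
lemma a₅_le : C.a₅ ≤ 1 := by
  have := C.a_sum; linarith [C.a₂_nn, C.a₃_nn, C.a₄_nn, C.a₁_nn, C.aR_nn]

/-- Upper bound from the last node. -/
lemma x_le_HI {HI : ℕ} (hHI : (100000, HI) ∈ nodes) {a x : ℝ} (hT : Tb nodes a x) (ha : a ≤ 1) :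
    x ≤ (HI : ℝ) / 10 ^ 7 := by
  have := hT _ hHI
  simp only at this
  apply this
  norm_num
  exact ha

/-- The budget identity. -/
theorem budget {p c yb : ℕ} (hch : chordOK c yb nodes = true) (hy : C.y ≤ (yb : ℝ) / 10 ^ 7)
    {Q₁ Q₂ Q₃ Q₄ Q₅ : ℕ}
    (h₁ : C.x₁ - (p : ℝ) / 100 * C.a₁ ≤ ((Q₁ : ℝ) - ((10000000 : ℕ) : ℝ)) / 10 ^ 7)
    (h₂ : C.x₂ - (p : ℝ) / 100 * C.a₂ ≤ ((Q₂ : ℝ) - ((10000000 : ℕ) : ℝ)) / 10 ^ 7)
    (h₃ : C.x₃ - (p : ℝ) / 100 * C.a₃ ≤ ((Q₃ : ℝ) - ((10000000 : ℕ) : ℝ)) / 10 ^ 7)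
    (h₄ : C.x₄ - (p : ℝ) / 100 * C.a₄ ≤ ((Q₄ : ℝ) - ((10000000 : ℕ) : ℝ)) / 10 ^ 7)
    (h₅ : C.y - (p : ℝ) / 100 * C.a₅ ≤ ((Q₅ : ℝ) - ((10000000 : ℕ) : ℝ)) / 10 ^ 7) :
    (C.T - C.y) * ((p : ℝ) * c / 10000 - 1) <
      ((Q₁ + Q₂ + Q₃ + Q₄ + Q₅ + p * 100000 : ℕ) : ℝ) / 10 ^ 7 - 53580985 / 10 ^ 7 := by
  have hP0 : (0 : ℝ) ≤ (p : ℝ) / 100 := by positivity
  have hch' := mul_le_mul_of_nonneg_left (C.chord c yb hch hy) hP0
  have hs : (p : ℝ) / 100 * C.a₁ + (p : ℝ) / 100 * C.a₂ + (p : ℝ) / 100 * C.a₃ +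
      (p : ℝ) / 100 * C.a₄ + (p : ℝ) / 100 * C.a₅ + (p : ℝ) / 100 * C.aR = (p : ℝ) / 100 := by
    have := C.a_sum
    linear_combination ((p : ℝ) / 100) * this
  have ht := t0_lower
  have he := C.energy
  push_cast at h₁ h₂ h₃ h₄ h₅ ht ⊢
  have e : (C.T - C.y) * ((p : ℝ) * c / 10000 - 1) =
      (p : ℝ) / 100 * ((c : ℝ) / 100 * (C.T - C.y)) - (C.T - C.y) := by ring
  rw [e]
  norm_num at h₁ h₂ h₃ h₄ h₅ ht ⊢
  linarith

/-- A cap with the standard shift. -/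
lemma cap {p Q h l : ℕ} {a x : ℝ} (hT : Tb nodes a x) (h0 : 0 ≤ a) (h1 : a ≤ 1)
    (hl : (l : ℝ) / 10 ^ 7 ≤ x) (hh : x ≤ (h : ℝ) / 10 ^ 7) (hc : capQ nodes p Q h l = true) :
    x - (p : ℝ) / 100 * a ≤ ((Q : ℝ) - ((10000000 : ℕ) : ℝ)) / 10 ^ 7 :=
  capOK_sound hT h0 h1 hl hh hc

/-- A step of the chain. -/
theorem cell_sound {HI : ℕ} (hHI : (100000, HI) ∈ nodes) {c l4 h4 l5 h5 l : ℕ}
    (hch : chordOK c h5 nodes = true)
    (h4l : (l4 : ℝ) / 10 ^ 7 ≤ C.x₄) (h4h : C.x₄ ≤ (h4 : ℝ) / 10 ^ 7)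
    (h5l : (l5 : ℝ) / 10 ^ 7 ≤ C.y) (h5h : C.y ≤ (h5 : ℝ) / 10 ^ 7)
    (hl : (l : ℝ) / 10 ^ 7 ≤ C.x₃) {z : Cell} (hz : cellOK nodes HI c l4 h4 l5 h5 l z = true) :
    (z.h : ℝ) / 10 ^ 7 ≤ C.x₃ := by
  simp only [cellOK, Bool.and_eq_true, Nat.blt_eq, Nat.ble_eq] at hz
  obtain ⟨⟨⟨⟨⟨h1, h2⟩, h3⟩, h4'⟩, h5'⟩, h6⟩ := hz
  by_contra hcon
  push Not at hcon
  have hb := C.budget (p := z.p) (c := c) hch h5h
    (cap C.tb₁ C.a₁_nn C.a₁_le (hl.trans (C.o23.trans C.o12)) (x_le_HI hHI C.tb₁ C.a₁_le) h1)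
    (cap C.tb₂ C.a₂_nn C.a₂_le (hl.trans C.o23) (x_le_HI hHI C.tb₂ C.a₂_le) h1)
    (cap C.tb₃ C.a₃_nn C.a₃_le hl hcon.le h2)
    (cap C.tb₄ C.a₄_nn C.a₄_le h4l h4h h3)
    (cap C.tb₅ C.a₅_nn C.a₅_le h5l h5h h4')
  have hκ : (0 : ℝ) ≤ (z.p : ℝ) * c / 10000 - 1 := by
    have : (10000 : ℝ) ≤ (z.p : ℝ) * c := by exact_mod_cast h6
    have e : (z.p : ℝ) * c / 10000 - 1 = ((z.p : ℝ) * c - 10000) / 10000 := by ring
    rw [e]; apply div_nonneg <;> linarith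
  have h0 := mul_nonneg (sub_nonneg.mpr C.y_le_T) hκ
  have h7 : ((z.Qa + z.Qa + z.Qb + z.Q4 + z.Q5 + z.p * 100000 : ℕ) : ℝ) < 53580985 := by
    have : z.Qa + z.Qa + z.Qb + z.Q4 + z.Q5 + z.p * 100000 < 53580985 := by omega
    exact_mod_cast this
  have h8 : ((z.Qa + z.Qa + z.Qb + z.Q4 + z.Q5 + z.p * 100000 : ℕ) : ℝ) / 10 ^ 7 <
      53580985 / 10 ^ 7 := div_lt_div_of_pos_right h7 (by positivity)
  linarith

/-- The chain. -/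
theorem chain_sound {HI : ℕ} (hHI : (100000, HI) ∈ nodes) {c l4 h4 l5 h5 : ℕ}
    (hch : chordOK c h5 nodes = true)
    (h4l : (l4 : ℝ) / 10 ^ 7 ≤ C.x₄) (h4h : C.x₄ ≤ (h4 : ℝ) / 10 ^ 7)
    (h5l : (l5 : ℝ) / 10 ^ 7 ≤ C.y) (h5h : C.y ≤ (h5 : ℝ) / 10 ^ 7) {ell : ℕ} :
    ∀ (zs : List Cell) (l : ℕ), (l : ℝ) / 10 ^ 7 ≤ C.x₃ →
      chainOK nodes HI c l4 h4 l5 h5 l zs ell = true → (ell : ℝ) / 10 ^ 7 ≤ C.x₃ := by
  intro zs
  induction zs with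
  | nil =>
    intro l hl hc
    simp only [chainOK, Nat.ble_eq] at hc
    have h : (ell : ℝ) ≤ l := by exact_mod_cast hc
    exact (div_le_div_of_nonneg_right h (by positivity)).trans hl
  | cons z zs ih =>
    intro l hl hc
    simp only [chainOK, Bool.and_eq_true] at hc
    exact ih _ (C.cell_sound hHI hch h4l h4h h5l h5h hl hc.1) hc.2

/-- The budget for a record. -/
theorem bd_budget {HI : ℕ} (hHI : (100000, HI) ∈ nodes) {c l4 h4 l5 h5 ell : ℕ}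
    (hch : chordOK c h5 nodes = true)
    (h4l : (l4 : ℝ) / 10 ^ 7 ≤ C.x₄) (h4h : C.x₄ ≤ (h4 : ℝ) / 10 ^ 7)
    (h5l : (l5 : ℝ) / 10 ^ 7 ≤ C.y) (h5h : C.y ≤ (h5 : ℝ) / 10 ^ 7)
    (hl : (ell : ℝ) / 10 ^ 7 ≤ C.x₃) {z : Bd} (hz : bdOK nodes HI l4 h4 l5 h5 ell z = true) :
    (C.T - C.y) * ((z.p : ℝ) * c / 10000 - 1) <
      ((z.Qa + z.Qa + z.Qa + z.Q4 + z.Q5 + z.p * 100000 : ℕ) : ℝ) / 10 ^ 7 - 53580985 / 10 ^ 7 := by
  simp only [bdOK, Bool.and_eq_true] at hz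
  obtain ⟨⟨h1, h3⟩, h4'⟩ := hz
  exact C.budget (p := z.p) (c := c) hch h5h
    (cap C.tb₁ C.a₁_nn C.a₁_le (hl.trans (C.o23.trans C.o12)) (x_le_HI hHI C.tb₁ C.a₁_le) h1)
    (cap C.tb₂ C.a₂_nn C.a₂_le (hl.trans C.o23) (x_le_HI hHI C.tb₂ C.a₂_le) h1)
    (cap C.tb₃ C.a₃_nn C.a₃_le hl (x_le_HI hHI C.tb₃ C.a₃_le) h1)
    (cap C.tb₄ C.a₄_nn C.a₄_le h4l h4h h3)
    (cap C.tb₅ C.a₅_nn C.a₅_le h5l h5h h4')

/-- The bound for the tail. -/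
theorem T_bound {HI : ℕ} (hHI : (100000, HI) ∈ nodes) {c l4 h4 l5 h5 ell Tb : ℕ}
    (hch : chordOK c h5 nodes = true)
    (h4l : (l4 : ℝ) / 10 ^ 7 ≤ C.x₄) (h4h : C.x₄ ≤ (h4 : ℝ) / 10 ^ 7)
    (h5l : (l5 : ℝ) / 10 ^ 7 ≤ C.y) (h5h : C.y ≤ (h5 : ℝ) / 10 ^ 7)
    (hl : (ell : ℝ) / 10 ^ 7 ≤ C.x₃) {z : Bd} (hz : tbOK nodes HI c l4 h4 l5 h5 ell Tb z = true) :
    C.T ≤ (Tb : ℝ) / 10 ^ 7 := by
  simp only [tbOK, Bool.and_eq_true, Nat.blt_eq, Nat.ble_eq] at hz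
  obtain ⟨⟨⟨h1, h2⟩, h3⟩, h4'⟩ := hz
  have hb := C.bd_budget hHI hch h4l h4h h5l h5h hl h1
  have hpc : (10000 : ℝ) < (z.p : ℝ) * c := by exact_mod_cast h2
  set κ : ℝ := (z.p : ℝ) * c / 10000 - 1 with hκ
  have hκ0 : 0 < κ := by
    rw [hκ]
    have e : (z.p : ℝ) * c / 10000 - 1 = ((z.p : ℝ) * c - 10000) / 10000 := by ring
    rw [e]; apply div_pos <;> linarith
  have hN : (((3 * z.Qa + z.Q4 + z.Q5 + z.p * 100000) * 10000 + h5 * (z.p * c) + Tb * 10000 : ℕ) : ℝ)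
      ≤ ((53580985 * 10000 + Tb * (z.p * c) + h5 * 10000 : ℕ) : ℝ) := by exact_mod_cast h4'
  push_cast at hN hb
  have hk2 : (z.p : ℝ) * c = 10000 * (κ + 1) := by rw [hκ]; ring
  rw [hk2] at hN
  have hcmp : κ * (C.T - C.y) < κ * (((Tb : ℝ) - h5) / 10 ^ 7) := by
    have e : (C.T - C.y) * κ = κ * (C.T - C.y) := by ring
    rw [e] at hb
    refine lt_of_lt_of_le hb ?_
    have : (3 * (z.Qa : ℝ) + z.Q4 + z.Q5 + z.p * 100000) * 10000 ≤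
        53580985 * 10000 + (Tb - h5) * (10000 * κ) := by nlinarith
    have h5' : (z.Qa : ℝ) + z.Qa + z.Qa + z.Q4 + z.Q5 + z.p * 100000 ≤
        53580985 + (Tb - h5) * κ := by nlinarith
    have e2 : κ * (((Tb : ℝ) - h5) / 10 ^ 7) = ((Tb - h5) * κ) / 10 ^ 7 := by ring
    rw [e2, div_sub_div_same]
    apply div_le_div_of_nonneg_right _ (by positivity)
    linarith
  have h6 := lt_of_mul_lt_mul_left hcmp hκ0.le
  have e3 : ((Tb : ℝ) - h5) / 10 ^ 7 = (Tb : ℝ) / 10 ^ 7 - (h5 : ℝ) / 10 ^ 7 := by ring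
  rw [e3] at h6
  linarith

/-- The bound for the largest cell. -/
theorem M_bound {HI : ℕ} (hHI : (100000, HI) ∈ nodes) {c l4 h4 l5 h5 ell QM M : ℕ}
    (hch : chordOK c h5 nodes = true)
    (h4l : (l4 : ℝ) / 10 ^ 7 ≤ C.x₄) (h4h : C.x₄ ≤ (h4 : ℝ) / 10 ^ 7)
    (h5l : (l5 : ℝ) / 10 ^ 7 ≤ C.y) (h5h : C.y ≤ (h5 : ℝ) / 10 ^ 7)
    (hl : (ell : ℝ) / 10 ^ 7 ≤ C.x₃) {z : Bd} (hz : bdOK nodes HI l4 h4 l5 h5 ell z = true)
    (hM : capQ nodes z.p QM HI M = true)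
    (hs : QM + 2 * z.Qa + z.Q4 + z.Q5 + z.p * 100000 < 53580985) (hpc : 10000 ≤ z.p * c) :
    C.x₁ ≤ (M : ℝ) / 10 ^ 7 := by
  simp only [bdOK, Bool.and_eq_true] at hz
  obtain ⟨⟨h1, h3⟩, h4'⟩ := hz
  by_contra hcon
  push Not at hcon
  have hb := C.budget (p := z.p) (c := c) hch h5h
    (cap C.tb₁ C.a₁_nn C.a₁_le hcon.le (x_le_HI hHI C.tb₁ C.a₁_le) hM)
    (cap C.tb₂ C.a₂_nn C.a₂_le (hl.trans C.o23) (x_le_HI hHI C.tb₂ C.a₂_le) h1)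
    (cap C.tb₃ C.a₃_nn C.a₃_le hl (x_le_HI hHI C.tb₃ C.a₃_le) h1)
    (cap C.tb₄ C.a₄_nn C.a₄_le h4l h4h h3)
    (cap C.tb₅ C.a₅_nn C.a₅_le h5l h5h h4')
  have hκ : (0 : ℝ) ≤ (z.p : ℝ) * c / 10000 - 1 := by
    have : (10000 : ℝ) ≤ (z.p : ℝ) * c := by exact_mod_cast hpc
    have e : (z.p : ℝ) * c / 10000 - 1 = ((z.p : ℝ) * c - 10000) / 10000 := by ring
    rw [e]; apply div_nonneg <;> linarith
  have h0 := mul_nonneg (sub_nonneg.mpr C.y_le_T) hκ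
  have h7 : ((QM + z.Qa + z.Qa + z.Q4 + z.Q5 + z.p * 100000 : ℕ) : ℝ) < 53580985 := by
    have : QM + z.Qa + z.Qa + z.Q4 + z.Q5 + z.p * 100000 < 53580985 := by omega
    exact_mod_cast this
  have h8 : ((QM + z.Qa + z.Qa + z.Q4 + z.Q5 + z.p * 100000 : ℕ) : ℝ) / 10 ^ 7 <
      53580985 / 10 ^ 7 := div_lt_div_of_pos_right h7 (by positivity)
  linarith

end Cfg

end Vale.Agent.Lib.P226
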