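import Vale.Agent.Lib.P226.X.Closure

/-!
The final arithmetic of the reduction, second part: the leaves using the three criteria, and the
soundness of the check of the decision tree.
-/

open Real

namespace Vale.Agent.Lib.P226

/-- Real form of the value check. -/
lemma v1Val_real {h5 Rb S Dl x : ℕ} (hc : v1Val h5 Rb S Dl x = true) :
    Rb ≤ x ∧ x ≤ S ∧ (((9070800 * h5 + 1 : ℕ) : ℝ)) / (4 * 10 ^ 14) ≤
      ((x : ℝ) / 10 ^ 7 - (Rb : ℝ) / 10 ^ 7) * ((S : ℝ) / 10 ^ 7 - (x : ℝ) / 10 ^ 7) / 2 -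
        ((x : ℝ) / 10 ^ 7 - (Rb : ℝ) / 10 ^ 7) ^ (2 : ℕ) / 4 - ((Dl : ℝ) / 10 ^ 7) ^ (2 : ℕ) / 4 := by
  simp only [v1Val, Bool.and_eq_true, Nat.blt_eq, Nat.ble_eq] at hc
  obtain ⟨⟨h1, h2⟩, h3⟩ := hc
  refine ⟨h1, h2, ?_⟩
  have h4 : 9070800 * h5 + 1 + (x - Rb) * (x - Rb) + Dl * Dl ≤ 2 * (x - Rb) * (S - x) := by omega
  have h5' : (((9070800 * h5 + 1 + (x - Rb) * (x - Rb) + Dl * Dl : ℕ)) : ℝ) ≤
      ((2 * (x - Rb) * (S - x) : ℕ) : ℝ) := by exact_mod_cast h4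
  push_cast [Nat.cast_sub h1, Nat.cast_sub h2] at h5'
  rw [div_le_iff₀ (by positivity)]
  push_cast
  nlinarith

namespace Cfg

variable {nodes : List (ℕ × ℕ)} (C : Cfg nodes)

/-- The leaf using the first criterion. -/
theorem v1_sound {h4 h5 Tb ell M S Dl : ℕ} (hT : C.T ≤ (Tb : ℝ) / 10 ^ 7) (hTb : Tb ≤ 2500000)
    (h4h : C.x₄ ≤ (h4 : ℝ) / 10 ^ 7) (h5h : C.y ≤ (h5 : ℝ) / 10 ^ 7)
    (hl : (ell : ℝ) / 10 ^ 7 ≤ C.x₃) (hx1 : C.x₁ ≤ (M : ℝ) / 10 ^ 7)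
    (hS : S + (h4 + Tb) ≤ 3580985) (hDl : 3 * M ≤ S + 2 * Dl)
    (hv1 : v1Val h5 (h4 + Tb) S Dl ell = true) (hv2 : v1Val h5 (h4 + Tb) S Dl M = true) :
    False := by
  obtain ⟨h1, h2, h3⟩ := v1Val_real hv1
  obtain ⟨_, h2', h3'⟩ := v1Val_real hv2
  have hT14 : C.T ≤ 1 / 4 := by
    have : (Tb : ℝ) ≤ 2500000 := by exact_mod_cast hTb
    have : (Tb : ℝ) / 10 ^ 7 ≤ 2500000 / 10 ^ 7 := div_le_div_of_nonneg_right this (by positivity)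
    have e : (2500000 : ℝ) / 10 ^ 7 = 1 / 4 := by norm_num
    linarith
  have hv := C.v1 hT14
  have hRb : ((h4 + Tb : ℕ) : ℝ) / 10 ^ 7 = (h4 : ℝ) / 10 ^ 7 + (Tb : ℝ) / 10 ^ 7 := by
    push_cast; ring
  have h1' : ((h4 + Tb : ℕ) : ℝ) / 10 ^ 7 ≤ (ell : ℝ) / 10 ^ 7 :=
    div_le_div_of_nonneg_right (by exact_mod_cast h1) (by positivity)
  have h2'' : (ell : ℝ) / 10 ^ 7 ≤ (S : ℝ) / 10 ^ 7 :=
    div_le_div_of_nonneg_right (by exact_mod_cast h2) (by positivity)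
  have hleak : C.i1 + C.i2 + C.i3 + C.i4 ≤ C.T := C.leak
  have hmain := v1_real (x1 := C.x₁) (x2 := C.x₂) (x3 := C.x₃) (R := C.x₄ + C.T)
    (Rb := ((h4 + Tb : ℕ) : ℝ) / 10 ^ 7) (t := t0) (S := (S : ℝ) / 10 ^ 7) (M := (M : ℝ) / 10 ^ 7)
    (l := (ell : ℝ) / 10 ^ 7) (Dl := (Dl : ℝ) / 10 ^ 7)
    (P := ((9070800 * h5 + 1 : ℕ) : ℝ) / (4 * 10 ^ 14))
    (c12 := C.c12) (c13 := C.c13) (c23 := C.c23) (e1 := C.c14 + C.i1) (e2 := C.c24 + C.i2)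
    (e3 := C.c34 + C.i3)
    (by linarith [C.deg1]) (by linarith [C.deg2]) (by linarith [C.deg3])
    (by linarith [C.c14_nn, C.i1_nn]) (by linarith [C.c24_nn, C.i2_nn])
    (by linarith [C.c34_nn, C.i3_nn])
    (by linarith [C.deg4, C.i4_nn]) (by linarith [C.y_pos, C.y_le, C.y_le_T]) C.o12 C.o23
    (by rw [hRb]; linarith) h1' hl hx1
    (by linarith [C.energy])
    (by
      have h5' : ((S + (h4 + Tb) : ℕ) : ℝ) ≤ ((3580985 : ℕ) : ℝ) := by exact_mod_cast hS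
      have h6 : ((S + (h4 + Tb) : ℕ) : ℝ) / 10 ^ 7 ≤ ((3580985 : ℕ) : ℝ) / 10 ^ 7 :=
        div_le_div_of_nonneg_right h5' (by positivity)
      have h7 := t0_lower
      push_cast at h6 h7 ⊢
      have e : ((S : ℝ) + (h4 + Tb)) / 10 ^ 7 = (S : ℝ) / 10 ^ 7 + ((h4 : ℝ) + Tb) / 10 ^ 7 := by ring
      rw [e] at h6
      linarith)
    (by
      have h5' : ((3 * M : ℕ) : ℝ) ≤ ((S + 2 * Dl : ℕ) : ℝ) := by exact_mod_cast hDl
      have h6 : ((3 * M : ℕ) : ℝ) / 10 ^ 7 ≤ ((S + 2 * Dl : ℕ) : ℝ) / 10 ^ 7 :=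
        div_le_div_of_nonneg_right h5' (by positivity)
      push_cast at h6
      have e : ((S : ℝ) + 2 * Dl) / 10 ^ 7 = (S : ℝ) / 10 ^ 7 + 2 * ((Dl : ℝ) / 10 ^ 7) := by ring
      have e2 : 3 * (M : ℝ) / 10 ^ 7 = 3 * ((M : ℝ) / 10 ^ 7) := by ring
      rw [e, e2] at h6
      exact h6)
    h3 h3' h2'' (by positivity)
  have h5'' : (22677 : ℝ) / 100000 * C.y ≤ (22677 : ℝ) / 100000 * ((h5 : ℝ) / 10 ^ 7) :=
    mul_le_mul_of_nonneg_left h5h (by norm_num)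
  have h8 : (22677 : ℝ) / 100000 * ((h5 : ℝ) / 10 ^ 7) <
      ((9070800 * h5 + 1 : ℕ) : ℝ) / (4 * 10 ^ 14) := by
    push_cast
    rw [lt_div_iff₀ (by positivity)]
    have e : (22677 : ℝ) / 100000 * ((h5 : ℝ) / 10 ^ 7) * (4 * 10 ^ 14) = 9070800 * (h5 : ℝ) := by
      ring
    rw [e]
    linarith
  linarith

/-- Existence of the leading edges for the criteria on matchings and spanning trees. -/
theorem exists_v46 {l4 ell h5 Tb S₀ : ℕ} (hT : C.T ≤ (Tb : ℝ) / 10 ^ 7) (hTb : Tb ≤ 2500000)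
    (h4l : (l4 : ℝ) / 10 ^ 7 ≤ C.x₄) (hl : (ell : ℝ) / 10 ^ 7 ≤ C.x₃) (h5h : C.y ≤ (h5 : ℝ) / 10 ^ 7)
    (hT4 : Tb ≤ l4) (hTe : Tb ≤ ell) (hS : 2 * S₀ + 2 * Tb ≤ 3580985) :
    ∃ a b X, V46H (((l4 - Tb : ℕ) : ℝ) / 10 ^ 7) (((ell - Tb : ℕ) : ℝ) / 10 ^ 7) ((S₀ : ℝ) / 10 ^ 7)
      (((20387 * h5 * 100 : ℕ) : ℝ) / 10 ^ 14) (((45869 * h5 * h5 * 100 : ℕ) : ℝ) / 10 ^ 21) a b X ∧
      a ≤ C.x₁ := by
  have hT14 : C.T ≤ 1 / 4 := by
    have : (Tb : ℝ) ≤ 2500000 := by exact_mod_cast hTb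
    have : (Tb : ℝ) / 10 ^ 7 ≤ 2500000 / 10 ^ 7 := div_le_div_of_nonneg_right this (by positivity)
    have e : (2500000 : ℝ) / 10 ^ 7 = 1 / 4 := by norm_num
    linarith
  have hd0 : ((l4 - Tb : ℕ) : ℝ) / 10 ^ 7 = (l4 : ℝ) / 10 ^ 7 - (Tb : ℝ) / 10 ^ 7 := by
    rw [Nat.cast_sub hT4]; ring
  have hd3 : ((ell - Tb : ℕ) : ℝ) / 10 ^ 7 = (ell : ℝ) / 10 ^ 7 - (Tb : ℝ) / 10 ^ 7 := by
    rw [Nat.cast_sub hTe]; ring
  have n12 := C.c12_nn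
  have n13 := C.c13_nn
  have n14 := C.c14_nn
  have n23 := C.c23_nn
  have n24 := C.c24_nn
  have n34 := C.c34_nn
  have i1 := C.i1_nn
  have i2 := C.i2_nn
  have i3 := C.i3_nn
  have i4 := C.i4_nn
  have d1 := C.deg1
  have d2 := C.deg2
  have d3 := C.deg3
  have d4 := C.deg4
  have hleak := C.leak
  have o12 := C.o12
  have o23 := C.o23
  have o34 := C.o34
  have he := C.energy
  have hSr : (S₀ : ℝ) / 10 ^ 7 ≤ (t0 - 2 * ((Tb : ℝ) / 10 ^ 7)) / 2 := by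
    have h5' : ((2 * S₀ + 2 * Tb : ℕ) : ℝ) ≤ ((3580985 : ℕ) : ℝ) := by exact_mod_cast hS
    have h6 : ((2 * S₀ + 2 * Tb : ℕ) : ℝ) / 10 ^ 7 ≤ ((3580985 : ℕ) : ℝ) / 10 ^ 7 :=
      div_le_div_of_nonneg_right h5' (by positivity)
    have h7 := t0_lower
    push_cast at h6 h7
    have e : (2 * (S₀ : ℝ) + 2 * Tb) / 10 ^ 7 = 2 * ((S₀ : ℝ) / 10 ^ 7) + 2 * ((Tb : ℝ) / 10 ^ 7) := by
      ring
    rw [e] at h6
    linarith
  set Sg := C.c12 + C.c13 + C.c14 + C.c23 + C.c24 + C.c34 with hSg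
  have hSg' : (S₀ : ℝ) / 10 ^ 7 ≤ Sg := by
    rw [hSg]; linarith
  have hy2 : C.y ^ (2 : ℕ) ≤ ((h5 : ℝ) / 10 ^ 7) ^ (2 : ℕ) := pow_le_pow_left₀ C.y_pos.le h5h 2
  have hτ := C.v6 hT14
  have hτ' : treesK4 C.c12 C.c13 C.c14 C.c23 C.c24 C.c34 ≤
      ((45869 * h5 * h5 * 100 : ℕ) : ℝ) / 10 ^ 21 := by
    refine hτ.trans ?_
    have e : ((45869 * h5 * h5 * 100 : ℕ) : ℝ) / 10 ^ 21 =
        45869 / 100000 * ((h5 : ℝ) / 10 ^ 7) ^ (2 : ℕ) := by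
      push_cast; ring
    rw [e]
    exact mul_le_mul_of_nonneg_left hy2 (by norm_num)
  have hW : (20387 : ℝ) / 100000 * C.y ≤ ((20387 * h5 * 100 : ℕ) : ℝ) / 10 ^ 14 := by
    have e : ((20387 * h5 * 100 : ℕ) : ℝ) / 10 ^ 14 = 20387 / 100000 * ((h5 : ℝ) / 10 ^ 7) := by
      push_cast; ring
    rw [e]
    exact mul_le_mul_of_nonneg_left h5h (by norm_num)
  have key : ∀ a b A' B' : ℝ, 0 ≤ b → 0 ≤ A' → 0 ≤ B' → b ≤ a →
      a * b ≤ 20387 / 100000 * C.y → a + b + A' + B' = Sg → Sg ≤ 3 * (a + b) →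
      (l4 : ℝ) / 10 ^ 7 - (Tb : ℝ) / 10 ^ 7 ≤ b + A' → (l4 : ℝ) / 10 ^ 7 - (Tb : ℝ) / 10 ^ 7 ≤ b + B' →
      ((ell : ℝ) / 10 ^ 7 - (Tb : ℝ) / 10 ^ 7 ≤ b + A' ∨ (ell : ℝ) / 10 ^ 7 - (Tb : ℝ) / 10 ^ 7 ≤ b + B') →
      a * (b * (A' + B') + A' * B') ≤ treesK4 C.c12 C.c13 C.c14 C.c23 C.c24 C.c34 → a ≤ C.x₁ →
      ∃ a b X, V46H (((l4 - Tb : ℕ) : ℝ) / 10 ^ 7) (((ell - Tb : ℕ) : ℝ) / 10 ^ 7) ((S₀ : ℝ) / 10 ^ 7)
        (((20387 * h5 * 100 : ℕ) : ℝ) / 10 ^ 14) (((45869 * h5 * h5 * 100 : ℕ) : ℝ) / 10 ^ 21) a b X ∧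
        a ≤ C.x₁ := by
    intro a b A' B' hb hA hB hba hab hsum h3 hA0 hB0 hd hτ2 hax
    refine ⟨a, b, A' + B', ?_, hax⟩
    rw [hd0, hd3]
    exact v46H_of hb hA hB hba (hab.trans hW) (by linarith) (by linarith) hA0 hB0 hd (hτ2.trans hτ')
  -- pick the matching
  have hTr := hT
  have lb1 : C.c12 * (C.c34 * ((C.c13 + C.c23) + (C.c14 + C.c24)) + (C.c13 + C.c23) * (C.c14 + C.c24))
      ≤ treesK4 C.c12 C.c13 C.c14 C.c23 C.c24 C.c34 := trees_lb1 n12 n13 n14 n23 n24 n34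
  have lb2 : C.c34 * (C.c12 * ((C.c13 + C.c14) + (C.c23 + C.c24)) + (C.c13 + C.c14) * (C.c23 + C.c24))
      ≤ treesK4 C.c12 C.c13 C.c14 C.c23 C.c24 C.c34 := by
    have h := trees_lb1 n34 n13 n23 n14 n24 n12
    have e : treesK4 C.c34 C.c13 C.c23 C.c14 C.c24 C.c12 =
        treesK4 C.c12 C.c13 C.c14 C.c23 C.c24 C.c34 := by unfold treesK4; ring
    rw [e] at h
    exact h
  have lb3 : C.c13 * (C.c24 * ((C.c12 + C.c23) + (C.c14 + C.c34)) + (C.c12 + C.c23) * (C.c14 + C.c34))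
      ≤ treesK4 C.c12 C.c13 C.c14 C.c23 C.c24 C.c34 := by
    have h := trees_lb1 n13 n12 n14 n23 n34 n24
    have e : treesK4 C.c13 C.c12 C.c14 C.c23 C.c34 C.c24 =
        treesK4 C.c12 C.c13 C.c14 C.c23 C.c24 C.c34 := by unfold treesK4; ring
    rw [e] at h
    exact h
  have lb4 : C.c24 * (C.c13 * ((C.c12 + C.c14) + (C.c23 + C.c34)) + (C.c12 + C.c14) * (C.c23 + C.c34))
      ≤ treesK4 C.c12 C.c13 C.c14 C.c23 C.c24 C.c34 := by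
    have h := trees_lb1 n24 n12 n23 n14 n34 n13
    have e : treesK4 C.c24 C.c12 C.c23 C.c14 C.c34 C.c13 =
        treesK4 C.c12 C.c13 C.c14 C.c23 C.c24 C.c34 := by unfold treesK4; ring
    rw [e] at h
    exact h
  have lb5 : C.c14 * (C.c23 * ((C.c12 + C.c24) + (C.c13 + C.c34)) + (C.c12 + C.c24) * (C.c13 + C.c34))
      ≤ treesK4 C.c12 C.c13 C.c14 C.c23 C.c24 C.c34 := by
    have h := trees_lb1 n14 n12 n13 n24 n34 n23
    have e : treesK4 C.c14 C.c12 C.c13 C.c24 C.c34 C.c23 =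
        treesK4 C.c12 C.c13 C.c14 C.c23 C.c24 C.c34 := by unfold treesK4; ring
    rw [e] at h
    exact h
  have lb6 : C.c23 * (C.c14 * ((C.c12 + C.c13) + (C.c24 + C.c34)) + (C.c12 + C.c13) * (C.c24 + C.c34))
      ≤ treesK4 C.c12 C.c13 C.c14 C.c23 C.c24 C.c34 := by
    have h := trees_lb1 n23 n12 n24 n13 n34 n14
    have e : treesK4 C.c23 C.c12 C.c24 C.c13 C.c34 C.c14 =
        treesK4 C.c12 C.c13 C.c14 C.c23 C.c24 C.c34 := by unfold treesK4; ring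
    rw [e] at h
    exact h
  have v4a := C.v4a hT14
  have v4b := C.v4b hT14
  have v4c := C.v4c hT14
  have hm : Sg ≤ 3 * (C.c12 + C.c34) ∨ Sg ≤ 3 * (C.c13 + C.c24) ∨ Sg ≤ 3 * (C.c14 + C.c23) := by
    by_contra hcon
    push Not at hcon
    rw [hSg] at hcon
    obtain ⟨h1, h2, h3⟩ := hcon
    linarith
  rcases hm with hm | hm | hm
  · rcases le_total C.c34 C.c12 with hor | hor
    · exact key C.c12 C.c34 (C.c13 + C.c23) (C.c14 + C.c24) n34 (by linarith) (by linarith) hor v4a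
        (by rw [hSg]; ring) hm (by linarith) (by linarith) (Or.inl (by linarith)) lb1 (by linarith)
    · exact key C.c34 C.c12 (C.c13 + C.c14) (C.c23 + C.c24) n12 (by linarith) (by linarith) hor
        (by rw [mul_comm]; exact v4a) (by rw [hSg]; ring) (by linarith) (by linarith) (by linarith)
        (Or.inl (by linarith)) lb2 (by linarith)
  · rcases le_total C.c24 C.c13 with hor | hor
    · exact key C.c13 C.c24 (C.c12 + C.c23) (C.c14 + C.c34) n24 (by linarith) (by linarith) hor v4b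
        (by rw [hSg]; ring) hm (by linarith) (by linarith) (Or.inl (by linarith)) lb3 (by linarith)
    · exact key C.c24 C.c13 (C.c12 + C.c14) (C.c23 + C.c34) n13 (by linarith) (by linarith) hor
        (by rw [mul_comm]; exact v4b) (by rw [hSg]; ring) (by linarith) (by linarith) (by linarith)
        (Or.inl (by linarith)) lb4 (by linarith)
  · rcases le_total C.c23 C.c14 with hor | hor
    · exact key C.c14 C.c23 (C.c12 + C.c24) (C.c13 + C.c34) n23 (by linarith) (by linarith) hor v4c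
        (by rw [hSg]; ring) hm (by linarith) (by linarith) (Or.inl (by linarith)) lb5 (by linarith)
    · exact key C.c23 C.c14 (C.c12 + C.c13) (C.c24 + C.c34) n14 (by linarith) (by linarith) hor
        (by rw [mul_comm]; exact v4c) (by rw [hSg]; ring) (by linarith) (by linarith) (by linarith)
        (Or.inl (by linarith)) lb6 (by linarith)

/-- The soundness of the check of the decision tree. -/
theorem checkT_sound {HI : ℕ} (hHI : (100000, HI) ∈ nodes) (t : DT) :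
    ∀ l4 h4 l5 h5 : ℕ, checkT nodes HI t l4 h4 l5 h5 = true →
      (l4 : ℝ) / 10 ^ 7 ≤ C.x₄ → C.x₄ ≤ (h4 : ℝ) / 10 ^ 7 →
      (l5 : ℝ) / 10 ^ 7 ≤ C.y → C.y ≤ (h5 : ℝ) / 10 ^ 7 → False := by
  induction t with
  | skip =>
    intro l4 h4 l5 h5 hc _ h2 h3 _
    simp only [checkT, Nat.blt_eq] at hc
    have h : (h4 : ℝ) < l5 := by exact_mod_cast hc
    have h' : (h4 : ℝ) / 10 ^ 7 < (l5 : ℝ) / 10 ^ 7 := div_lt_div_of_pos_right h (by positivity)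
    have := C.y_le
    linarith
  | s4 m t₁ t₂ ih₁ ih₂ =>
    intro l4 h4 l5 h5 hc h1 h2 h3 h4'
    simp only [checkT, Bool.and_eq_true] at hc
    rcases le_total C.x₄ ((m : ℝ) / 10 ^ 7) with h | h
    · exact ih₁ _ _ _ _ hc.1 h1 h h3 h4'
    · exact ih₂ _ _ _ _ hc.2 h h2 h3 h4'
  | s5 m t₁ t₂ ih₁ ih₂ =>
    intro l4 h4 l5 h5 hc h1 h2 h3 h4'
    simp only [checkT, Bool.and_eq_true] at hc
    rcases le_total C.y ((m : ℝ) / 10 ^ 7) with h | h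
    · exact ih₁ _ _ _ _ hc.1 h1 h2 h3 h
    · exact ih₂ _ _ _ _ hc.2 h1 h2 h h4'
  | inf c cells ell z =>
    intro l4 h4 l5 h5 hc h1 h2 h3 h4'
    simp only [checkT, Bool.and_eq_true, Nat.blt_eq, Nat.ble_eq] at hc
    obtain ⟨⟨⟨⟨hch, hcn⟩, hbd⟩, hs⟩, hpc⟩ := hc
    have hl := C.chain_sound hHI hch h1 h2 h3 h4' cells l4 (h1.trans (C.o34)) hcn
    have hb := C.bd_budget hHI hch h1 h2 h3 h4' hl hbd
    have hκ : (0 : ℝ) ≤ (z.p : ℝ) * c / 10000 - 1 := by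
      have : (10000 : ℝ) ≤ (z.p : ℝ) * c := by exact_mod_cast hpc
      have e : (z.p : ℝ) * c / 10000 - 1 = ((z.p : ℝ) * c - 10000) / 10000 := by ring
      rw [e]; apply div_nonneg <;> linarith
    have h0 := mul_nonneg (sub_nonneg.mpr C.y_le_T) hκ
    have h7 : ((z.Qa + z.Qa + z.Qa + z.Q4 + z.Q5 + z.p * 100000 : ℕ) : ℝ) < 53580985 := by
      have : z.Qa + z.Qa + z.Qa + z.Q4 + z.Q5 + z.p * 100000 < 53580985 := by omega
      exact_mod_cast this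
    have h8 : ((z.Qa + z.Qa + z.Qa + z.Q4 + z.Q5 + z.p * 100000 : ℕ) : ℝ) / 10 ^ 7 <
        53580985 / 10 ^ 7 := div_lt_div_of_pos_right h7 (by positivity)
    linarith
  | v1 c cells ell zT Tb zM QM M S Dl =>
    intro l4 h4 l5 h5 hc h1 h2 h3 h4'
    simp only [checkT, Bool.and_eq_true, Nat.blt_eq, Nat.ble_eq] at hc
    obtain ⟨⟨⟨⟨⟨⟨⟨⟨⟨⟨⟨⟨hch, hcn⟩, htb⟩, hbd⟩, hqm⟩, hs⟩, hpc⟩, hTb⟩, _⟩, hS⟩, hDl⟩, hv1⟩, hv2⟩ := hc
    have hl := C.chain_sound hHI hch h1 h2 h3 h4' cells l4 (h1.trans (C.o34)) hcn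
    have hT := C.T_bound hHI hch h1 h2 h3 h4' hl htb
    have hM := C.M_bound hHI hch h1 h2 h3 h4' hl hbd hqm hs hpc
    exact C.v1_sound hT hTb h2 h4' hl hM hS hDl hv1 hv2
  | v46 c cells ell zT Tb S₀ fuel =>
    intro l4 h4 l5 h5 hc h1 h2 h3 h4'
    simp only [checkT, Bool.and_eq_true, Nat.ble_eq] at hc
    obtain ⟨⟨⟨⟨⟨⟨⟨hch, hcn⟩, htb⟩, hTb⟩, hT4⟩, hTe⟩, hS⟩, hcov⟩ := hc
    have hl := C.chain_sound hHI hch h1 h2 h3 h4' cells l4 (h1.trans (C.o34)) hcn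
    have hT := C.T_bound hHI hch h1 h2 h3 h4' hl htb
    obtain ⟨a, b, X, H, hax⟩ := C.exists_v46 hT hTb h1 hl h4' hT4 hTe hS
    have hx1 := x_le_HI hHI C.tb₁ C.a₁_le
    refine cov_sound H fuel 0 HI 0 HI hcov (by simpa using H.ha) (hax.trans hx1)
      (by simpa using H.hb) ?_
    exact (H.hba.trans hax).trans hx1

include C in
/-- The final contradiction for a configuration, given a correct check of a decision tree. -/
theorem false_of_check {HI : ℕ} (hHI : (100000, HI) ∈ nodes) (hHI' : HI ≤ 1600000) {t : DT}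
    (hc : checkT nodes HI t 0 1600000 0 1600000 = true) : False := by
  have hcast : (HI : ℝ) / 10 ^ 7 ≤ ((1600000 : ℕ) : ℝ) / 10 ^ 7 :=
    div_le_div_of_nonneg_right (by exact_mod_cast hHI') (by positivity)
  have hx4 := x_le_HI hHI C.tb₄ C.a₄_le
  have hy := x_le_HI hHI C.tb₅ C.a₅_le
  have hy0 := C.y_pos
  refine C.checkT_sound hHI t 0 1600000 0 1600000 hc ?_ (hx4.trans hcast) ?_ (hy.trans hcast)
  · have := C.y_le; simp; linarith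
  · simp; linarith

end Cfg

end Vale.Agent.Lib.P226
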