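import Vale.Agent.Lib.P226.X.Defs

/-!
Definitions for the final arithmetic part of the reduction: a table of upper bounds for the energy
of a cell in terms of its measure (natural number coded), its consequences, and the configuration
of numbers to which the final arithmetic applies.
-/

open Real

namespace Vale.Agent.Lib.P226

/-- `Tb nodes a x`: for every node `(A, X)`, `a ≤ A / 10^5` implies `x ≤ X / 10^7`. -/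
def Tb (nodes : List (ℕ × ℕ)) (a x : ℝ) : Prop :=
  ∀ n ∈ nodes, a ≤ (n.1 : ℝ) / 10 ^ 5 → x ≤ (n.2 : ℝ) / 10 ^ 7

/-- Check of the line `x - (p / 100) a ≤ (Qp - Qm) / 10^7` on `l / 10^7 ≤ x ≤ h / 10^7`,
`a ≥ prev / 10^5`, `a ≤ 1`, scanning the nodes. -/
def capOK (p Qp Qm h l : ℕ) : ℕ → List (ℕ × ℕ) → Bool
  | prev, [] => Nat.ble 100000 prev
  | prev, n :: ns =>
      Nat.ble (h + Qm) (p * prev + Qp) ||
        ((Nat.blt n.2 l || Nat.ble (min n.2 h + Qm) (p * prev + Qp)) && capOK p Qp Qm h l n.1 ns)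

/-- Check that `x ≤ yb / 10^7` implies `a ≥ (c / 100) x`, scanning the nodes.  For the first node
the bound comes from `x ^ 2 ≤ 3 a ^ 3`, `x ≤ X₀`: `3 c³ X₀ ≤ 1` in the right units. -/
def chordGo (c yb : ℕ) : ℕ → List (ℕ × ℕ) → Bool
  | prev, [] => Nat.ble 100000 prev
  | prev, n :: ns =>
      -- `a ≥ prev / 10^5`, if `a ≤ n.1 / 10^5` then `x ≤ min (n.2) yb`, need `prev/10^5 ≥ c/100 * x`
      Nat.ble (c * min n.2 yb) (prev * 10 ^ 4) && chordGo c yb n.1 ns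

/-- The complete chord check. -/
def chordOK (c yb : ℕ) : List (ℕ × ℕ) → Bool
  | [] => false
  | n :: ns => Nat.ble (3 * c * c * c * n.2) (10 ^ 13) && chordGo c yb n.1 ns

/-- The numbers describing a critical configuration with at least five cells: the four largest
cells and the tail. -/
structure Cfg (nodes : List (ℕ × ℕ)) where
  x₁ : ℝ
  x₂ : ℝ
  x₃ : ℝ
  x₄ : ℝ
  y : ℝ
  T : ℝ
  a₁ : ℝ
  a₂ : ℝ
  a₃ : ℝ
  a₄ : ℝ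
  a₅ : ℝ
  aR : ℝ
  c12 : ℝ
  c13 : ℝ
  c14 : ℝ
  c23 : ℝ
  c24 : ℝ
  c34 : ℝ
  i1 : ℝ
  i2 : ℝ
  i3 : ℝ
  i4 : ℝ
  y_pos : 0 < y
  y_le : y ≤ x₄
  o34 : x₄ ≤ x₃
  o23 : x₃ ≤ x₂
  o12 : x₂ ≤ x₁
  y_le_T : y ≤ T
  a₁_nn : 0 ≤ a₁
  a₂_nn : 0 ≤ a₂
  a₃_nn : 0 ≤ a₃
  a₄_nn : 0 ≤ a₄
  a₅_nn : 0 ≤ a₅
  aR_nn : 0 ≤ aR
  a_sum : a₁ + a₂ + a₃ + a₄ + a₅ + aR = 1
  tb₁ : Tb nodes a₁ x₁
  tb₂ : Tb nodes a₂ x₂
  tb₃ : Tb nodes a₃ x₃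
  tb₄ : Tb nodes a₄ x₄
  tb₅ : Tb nodes a₅ y
  chord : ∀ c yb : ℕ, chordOK c yb nodes = true → y ≤ (yb : ℝ) / 10 ^ 7 →
    (c : ℝ) / 100 * (T - y) ≤ aR
  energy : t0 < x₁ + x₂ + x₃ + x₄ + T
  c12_nn : 0 ≤ c12
  c13_nn : 0 ≤ c13
  c14_nn : 0 ≤ c14
  c23_nn : 0 ≤ c23
  c24_nn : 0 ≤ c24
  c34_nn : 0 ≤ c34
  i1_nn : 0 ≤ i1
  i2_nn : 0 ≤ i2
  i3_nn : 0 ≤ i3
  i4_nn : 0 ≤ i4
  deg1 : x₁ = c12 + c13 + c14 + i1
  deg2 : x₂ = c12 + c23 + c24 + i2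
  deg3 : x₃ = c13 + c23 + c34 + i3
  deg4 : x₄ = c14 + c24 + c34 + i4
  leak : i1 + i2 + i3 + i4 ≤ T
  /-- criterion V1 for the triple `1,2,3` and fourth vertex `4` -/
  v1 : T ≤ 1 / 4 → c12 * c13 + c12 * c23 + c13 * c23 ≤ 22677 / 100000 * y
  /-- criterion V4 for the three matchings -/
  v4a : T ≤ 1 / 4 → c12 * c34 ≤ 20387 / 100000 * y
  v4b : T ≤ 1 / 4 → c13 * c24 ≤ 20387 / 100000 * y
  v4c : T ≤ 1 / 4 → c14 * c23 ≤ 20387 / 100000 * y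
  /-- criterion V6 -/
  v6 : T ≤ 1 / 4 → treesK4 c12 c13 c14 c23 c24 c34 ≤ 45869 / 100000 * y ^ 2

end Vale.Agent.Lib.P226
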