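import Vale.Agent.Lib.P226.X.Crit
import Vale.Agent.Lib.P226.X.Ball

/-!
General lemmas for the small-ball criteria: layer-cake bound, one-dimensional integrals,
the competitor inequality, the potentials.
-/

open MeasureTheory ProbabilityTheory Real Set Filter
open scoped RealInnerProductSpace ENNReal

namespace Vale.Agent.Lib.P226

variable {E : Type*} [NormedAddCommGroup E] [InnerProductSpace ℝ E] [FiniteDimensional ℝ E]
  [MeasurableSpace E] [BorelSpace E]

/-! ### one-dimensional integrals -/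

lemma hasDerivAt_maxpow (n : ℕ) (y : ℝ) :
    HasDerivAt (fun y : ℝ => (max y 0) ^ (n + 2)) (((n : ℝ) + 2) * (max y 0) ^ (n + 1)) y := by
  rcases lt_trichotomy y 0 with hy | rfl | hy
  · have h0 : (fun y : ℝ => (max y 0) ^ (n + 2)) =ᶠ[nhds y] fun _ => (0 : ℝ) := by
      filter_upwards [gt_mem_nhds hy] with z hz
      rw [max_eq_right hz.le]
      simp
    rw [max_eq_right hy.le]
    have : ((n : ℝ) + 2) * (0 : ℝ) ^ (n + 1) = 0 := by simp
    rw [this]
    exact (hasDerivAt_const y (0 : ℝ)).congr_of_eventuallyEq h0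
  · have hL : HasDerivWithinAt (fun y : ℝ => (max y 0) ^ (n + 2)) 0 (Iic 0) 0 := by
      have : HasDerivWithinAt (fun _ : ℝ => (0 : ℝ)) 0 (Iic 0) 0 := hasDerivWithinAt_const _ _ _
      refine this.congr (fun z hz => ?_) ?_
      · rw [max_eq_right hz]; simp
      · simp
    have hR : HasDerivWithinAt (fun y : ℝ => (max y 0) ^ (n + 2)) 0 (Ici 0) 0 := by
      have : HasDerivWithinAt (fun z : ℝ => z ^ (n + 2)) 0 (Ici 0) 0 := by
        have := (hasDerivAt_pow (n + 2) (0 : ℝ)).hasDerivWithinAt (s := Ici 0)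
        simpa using this
      refine this.congr (fun z hz => ?_) ?_
      · rw [max_eq_left hz]
      · simp
    have h := hL.union hR
    rw [Iic_union_Ici, hasDerivWithinAt_univ] at h
    simpa using h
  · have h0 : (fun y : ℝ => (max y 0) ^ (n + 2)) =ᶠ[nhds y] fun z => z ^ (n + 2) := by
      filter_upwards [lt_mem_nhds hy] with z hz
      rw [max_eq_left hz.le]
    rw [max_eq_left hy.le]
    refine HasDerivAt.congr_of_eventuallyEq ?_ h0
    have := hasDerivAt_pow (n + 2) y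
    refine this.congr_deriv ?_
    push_cast
    simp

lemma hasDerivAt_maxpow_sub (n : ℕ) (y w : ℝ) :
    HasDerivAt (fun w : ℝ => -((max (y - w) 0) ^ (n + 2) / ((n : ℝ) + 2)))
      ((max (y - w) 0) ^ (n + 1)) w := by
  have h1 : HasDerivAt (fun w : ℝ => y - w) (-1) w := by
    simpa using (hasDerivAt_id w).const_sub y
  have h2 := (hasDerivAt_maxpow n (y - w)).comp w h1
  have h3 := (h2.div_const ((n : ℝ) + 2)).neg
  refine h3.congr_deriv ?_
  have : (n : ℝ) + 2 ≠ 0 := by positivity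
  field_simp

lemma maxpow_nonneg (n : ℕ) (y : ℝ) : 0 ≤ (max y 0) ^ n := pow_nonneg (le_max_right _ _) _

lemma tendsto_maxpow_sub (n : ℕ) (y : ℝ) :
    Tendsto (fun w : ℝ => -((max (y - w) 0) ^ (n + 2) / ((n : ℝ) + 2))) atTop (nhds 0) := by
  refine tendsto_const_nhds.congr' ?_
  filter_upwards [eventually_ge_atTop y] with w hw
  rw [max_eq_right (by linarith)]
  simp

lemma integrableOn_maxpow_sub (n : ℕ) (y : ℝ) :
    IntegrableOn (fun w : ℝ => (max (y - w) 0) ^ (n + 1)) (Ioi 0) :=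
  integrableOn_Ioi_deriv_of_nonneg' (fun w _ => hasDerivAt_maxpow_sub n y w)
    (fun _ _ => maxpow_nonneg _ _) (tendsto_maxpow_sub n y)

lemma integral_maxpow_sub (n : ℕ) (y : ℝ) :
    ∫ w in Ioi (0 : ℝ), (max (y - w) 0) ^ (n + 1) = (max y 0) ^ (n + 2) / ((n : ℝ) + 2) := by
  rw [integral_Ioi_of_hasDerivAt_of_nonneg' (fun w _ => hasDerivAt_maxpow_sub n y w)
    (fun _ _ => maxpow_nonneg _ _) (tendsto_maxpow_sub n y)]
  simp

/-! ### layer cake -/

omit [FiniteDimensional ℝ E] in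
lemma layer_bound {μ : Measure E} [IsProbabilityMeasure μ] {X : E → ℝ} (hX : Integrable X μ)
    {g : ℝ × E → ℝ} (gm : Measurable g) (g0 : ∀ p, 0 ≤ g p) {G : E → ℝ} (hG : Integrable G μ)
    (hgi : ∀ x, IntegrableOn (fun w => g (w, x)) (Ioi 0))
    (hgG : ∀ x, ∫ w in Ioi (0 : ℝ), g (w, x) = G x) {K : ℝ} (hK : 0 ≤ K)
    (hb : ∀ w, 0 < w → μ.real {x | w < X x} ≤ K * ∫ x, g (w, x) ∂μ) :
    ∫ x, max (X x) 0 ∂μ ≤ K * ∫ x, G x ∂μ := by
  set ν : Measure ℝ := volume.restrict (Ioi 0) with hν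
  have hint : Integrable g (ν.prod μ) := by
    rw [integrable_prod_iff' gm.aestronglyMeasurable]
    refine ⟨Eventually.of_forall hgi, ?_⟩
    refine hG.congr (Eventually.of_forall fun x => ?_)
    simp only [Real.norm_of_nonneg (g0 _)]
    exact (hgG x).symm
  have hmax : Integrable (fun x => max (X x) 0) μ := hX.sup (integrable_const 0)
  have h1 := hmax.integral_eq_integral_meas_lt (Eventually.of_forall fun x => le_max_right _ _)
  rw [h1]
  have h2 : Integrable (fun w => ∫ x, g (w, x) ∂μ) ν := hint.integral_prod_left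
  have h3 : ∫ t in Ioi (0 : ℝ), μ.real {a | t < max (X a) 0}
      ≤ ∫ t in Ioi (0 : ℝ), K * ∫ x, g (t, x) ∂μ := by
    refine integral_mono_of_nonneg (Eventually.of_forall fun t => measureReal_nonneg)
      (h2.const_mul K) ?_
    rw [Filter.EventuallyLE, ae_restrict_iff' measurableSet_Ioi]
    refine Eventually.of_forall fun t ht => ?_
    have ht' : (0 : ℝ) < t := ht
    have : {a | t < max (X a) 0} = {a | t < X a} := by
      ext a
      simp only [Set.mem_ofPred_eq, lt_max_iff]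
      constructor
      · rintro (h | h)
        · exact h
        · exact absurd h (not_lt.mpr ht'.le)
      · exact Or.inl
    rw [this]
    exact hb t ht'
  refine h3.trans (le_of_eq ?_)
  rw [integral_const_mul]
  congr 1
  rw [integral_integral_swap (f := fun w x => g (w, x)) hint]
  exact integral_congr_ae (Eventually.of_forall hgG)

/-! ### integrability -/

lemma integrable_pos_pow (z : E) (c : ℝ) (p : ℕ) (hp : p ≠ 0) :
    Integrable (fun x : E => (max (⟪z, x⟫ - c) 0) ^ p) (stdGaussian E) := by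
  have h1 : MemLp (fun x : E => innerSL ℝ z x) p (stdGaussian E) :=
    IsGaussian.memLp_dual (stdGaussian E) (innerSL ℝ z) p (by simp)
  have h2 : MemLp (fun x : E => innerSL ℝ z x - c) p (stdGaussian E) :=
    h1.sub (memLp_const c)
  have h3 := h2.integrable_norm_pow hp
  refine h3.mono' (by fun_prop) (Eventually.of_forall fun x => ?_)
  simp only [innerSL_apply_apply, Real.norm_eq_abs]
  rw [abs_of_nonneg (maxpow_nonneg _ _)]
  refine pow_le_pow_left₀ (le_max_right _ _) ?_ _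
  exact max_le (le_abs_self _) (abs_nonneg _)

/-! ### the competitor inequality -/

variable {S : Finset ℕ} {u : ℕ → E}

/-- The competitor inequality. -/
lemma comp_general {k : ℕ} (hP : PB E k) (h : Crit S u) {B : Finset ℕ} (hB : B.Nonempty)
    (hBS : B ⊆ S) (hc : B.card ≤ k) (n : E) (ρ : ℕ → ℝ) {L Q : ℝ}
    (hL : ∑ i ∈ B, ρ i * ⟪u i, n⟫ = L) (hL0 : L ≤ 0)
    (hQ : ∑ i ∈ B, ρ i ^ 2 * ‖n‖ ^ 2 = Q)
    (hD : -L + ∑ l ∈ S \ B, ∫ x, max (⟪u l, x⟫ - mx B hB (fun i => u i + ρ i • n) x) 0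
      ∂(stdGaussian E) ≤ t0 / 2) :
    ∑ l ∈ S \ B, ‖u l‖ ^ 2 - Q ≤ 2 * ∑ l ∈ S \ B,
      ∫ x, max (⟪u l, x⟫ - mx B hB (fun i => u i + ρ i • n) x) 0 ∂(stdGaussian E) := by
  set Γ := ∑ l ∈ S \ B, ∫ x, max (⟪u l, x⟫ - mx B hB (fun i => u i + ρ i • n) x) 0
      ∂(stdGaussian E) with hΓ
  have hΓ0 : 0 ≤ Γ := Finset.sum_nonneg fun l _ => integral_nonneg fun x => le_max_right _ _
  have hsplit : ∑ l ∈ S \ B, ‖u l‖ ^ 2 + ∑ l ∈ B, ‖u l‖ ^ 2 = ∑ l ∈ S, ‖u l‖ ^ 2 :=
    Finset.sum_sdiff hBS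
  have hsum : ∑ i ∈ B, ‖u i + ρ i • n‖ ^ 2 = ∑ i ∈ B, ‖u i‖ ^ 2 + 2 * L + Q := by
    rw [← hL, ← hQ, Finset.mul_sum, ← Finset.sum_add_distrib, ← Finset.sum_add_distrib]
    refine Finset.sum_congr rfl fun i _ => ?_
    rw [norm_add_sq_real, inner_smul_right, norm_smul, Real.norm_eq_abs, mul_pow, sq_abs]
  have hcomp := comp_integral h hB hBS n ρ
  rw [hL] at hcomp
  have hrem := removal_gen hP h hB hc (fun i => u i + ρ i • n)
    (e := ∑ l ∈ S \ B, ‖u l‖ ^ 2 - 2 * L - Q) (D := -L + Γ)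
    (by rw [hsum]; linarith) (by linarith) (by linarith) hD
  have ht0 : 0 < t0 := t0_pos_M1
  have hsq : 0 ≤ (-L + Γ) ^ 2 / t0 := by positivity
  linarith

end Vale.Agent.Lib.P226
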