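import Vale.Agent.Lib.P226.Family

/-!
Shared definitions for the reduction of the Gaussian propeller problem to four cells.
No proofs of substance here; see the other files of this folder.
-/

open MeasureTheory ProbabilityTheory Real Set Filter
open scoped RealInnerProductSpace ENNReal

namespace Vale.Agent.Lib.P226

/-- The propeller constant `9 / (8 π)`. -/
noncomputable def t0 : ℝ := 9 / (8 * π)

/-- The standard Gaussian density on the line. -/
noncomputable def phi (x : ℝ) : ℝ := cG * rexp (-(x ^ 2 / 2))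

/-- The Gaussian tail `Q u = ∫_u^∞ phi`. -/
noncomputable def Qf (u : ℝ) : ℝ := ∫ g in Ioi u, phi g

/-- `Gf κ u sl = ∫_u^∞ min (sl (g-u), κ g) phi g dg`. -/
noncomputable def Gf (κ u sl : ℝ) : ℝ := ∫ g in Ioi u, min (sl * (g - u)) (κ * g) * phi g

/-- Weighted spanning tree polynomial of the complete graph on four vertices (16 trees), with
edge weights `c12 c13 c14 c23 c24 c34`. -/
noncomputable def treesK4 (c12 c13 c14 c23 c24 c34 : ℝ) : ℝ :=
  c12 * c34 * (c13 + c24 + c14 + c23) + c13 * c24 * (c12 + c34 + c14 + c23)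
    + c14 * c23 * (c12 + c34 + c13 + c24)
    + c12 * c13 * c14 + c12 * c23 * c24 + c13 * c23 * c34 + c14 * c24 * c34

/-- A certificate: a pointwise upper bound for `Gf`, linear in `Qf`, `phi`. -/
def Cert (κ A B μa μm : ℝ) : Prop :=
  ∀ u : ℝ, 0 ≤ u → ∀ sl : ℝ, 1 ≤ sl → sl ≤ 2 →
    Gf κ u sl ≤ μa * Qf u + μm + (A + B * (sl - 1)) / sl * phi u

variable (E : Type*) [NormedAddCommGroup E] [InnerProductSpace ℝ E] [FiniteDimensional ℝ E]
  [MeasurableSpace E] [BorelSpace E]

/-- Every partition of `E` into at most `n` cells has energy at most `t0`. -/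
def PB (n : ℕ) : Prop :=
  ∀ S : Finset ℕ, S.card ≤ n → ∀ A : ℕ → Set E, Good S A → ∑ l ∈ S, ‖mom (A l)‖ ^ 2 ≤ t0

variable {E}

/-- A critical configuration: fixed point of the moment map with large energy and pairwise
negative inner products. -/
structure Crit (S : Finset ℕ) (u : ℕ → E) : Prop where
  fixed : ∀ l ∈ S, mom (vor S u l) = u l
  big : t0 < ∑ l ∈ S, ‖u l‖ ^ 2
  neg : ∀ a ∈ S, ∀ b ∈ S, a ≠ b → ⟪u a, u b⟫ < 0

/-- The measure of the Voronoi cell. -/
noncomputable def area (S : Finset ℕ) (u : ℕ → E) (m : ℕ) : ℝ :=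
  (stdGaussian E).real (vor S u m)

/-- The loss from removing cell `m`. -/
noncomputable def Delta (S : Finset ℕ) (u : ℕ → E) (m : ℕ) (h : (S.erase m).Nonempty) : ℝ :=
  ∫ x, max (⟪u m, x⟫ - mx (S.erase m) h u x) 0 ∂(stdGaussian E)

end Vale.Agent.Lib.P226
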