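import Vale.Agent.Lib.P226.X.ClosureDefs
import Vale.Agent.Lib.P226.X.Crit

/-!
The final induction of the reduction of the Gaussian propeller problem to four cells, and the
passage from `PB` to the statement on Euclidean space.
-/

open MeasureTheory ProbabilityTheory Real Set Filter
open scoped RealInnerProductSpace ENNReal

namespace Vale.Agent.Lib.P226

variable {E : Type*} [NormedAddCommGroup E] [InnerProductSpace ℝ E] [FiniteDimensional ℝ E]
  [MeasurableSpace E] [BorelSpace E]

lemma PB.mono {n m : ℕ} (h : PB E n) (hmn : m ≤ n) : PB E m :=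
  fun S hS A hA => h S (hS.trans hmn) A hA

/-- The induction: if no critical configuration with at least five cells exists, assuming the
bound for fewer cells, then `PB E 4` implies `PB E n` for every `n`. -/
theorem pb_all_of_step
    (hstep : ∀ {S : Finset ℕ} {u : ℕ → E}, Crit S u → 5 ≤ S.card → PB E (S.card - 1) → False)
    (h4 : PB E 4) : ∀ n : ℕ, PB E n := by
  have hge : ∀ n : ℕ, PB E (n + 4) := by
    intro n
    induction n with
    | zero => simpa using h4
    | succ n ih =>
      intro S hS A hA
      by_cases hle : S.card ≤ n + 4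
      · exact ih S hle A hA
      have hcard : S.card = n + 4 + 1 := by omega
      by_contra hF
      push Not at hF
      obtain ⟨u, hu⟩ := exists_crit (n := n + 4) (by omega) ih hcard hA hF
      have hp : PB E (S.card - 1) := by
        rw [hcard]
        simpa using ih
      exact hstep hu (by omega) hp
  intro n
  exact (hge n).mono (by omega)

/-- The form with the table and the configuration. -/
theorem pb_all_of_cfg {nodes : List (ℕ × ℕ)}
    (hT : ∀ {S : Finset ℕ} {u : ℕ → E}, Crit S u → 5 ≤ S.card → PB E (S.card - 1) →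
      ∀ m ∈ S, Tb nodes (area S u m) (‖u m‖ ^ 2))
    (hcfg : ∀ {S : Finset ℕ} {u : ℕ → E}, Crit S u → 5 ≤ S.card → PB E 4 →
      (∀ m ∈ S, Tb nodes (area S u m) (‖u m‖ ^ 2)) → Nonempty (Cfg nodes))
    (hC : Cfg nodes → False) (h4 : PB E 4) : ∀ n : ℕ, PB E n :=
  pb_all_of_step (fun hu hk hp => by
    obtain ⟨C⟩ := hcfg hu hk h4 (hT hu hk hp)
    exact hC C) h4

/-- `PB` for all numbers of cells gives the bound for pairwise disjoint measurable sets. -/
theorem moment_bound_of_PB (hP : ∀ n : ℕ, PB E n) {k : ℕ} (A : Fin k → Set E)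
    (hA : ∀ i, MeasurableSet (A i)) (hd : Pairwise (Function.onFun Disjoint A)) :
    ∑ i, ‖∫ x in A i, x ∂(stdGaussian E)‖ ^ 2 ≤ 9 / (8 * π) := by
  classical
  -- the extended partition, indexed by `Finset.range (k + 1)`
  let B : ℕ → Set E := fun l => if h : l < k then A ⟨l, h⟩ else (⋃ i, A i)ᶜ
  have hBk : ∀ i : Fin k, B i = A i := fun i => by
    simp [B]
  have hBlast : B k = (⋃ i, A i)ᶜ := by
    simp [B]
  have hgood : Good (Finset.range (k + 1)) B := by
    refine ⟨?_, ?_, ?_⟩
    · intro l _
      by_cases h : l < k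
      · simp only [B, h, dif_pos]
        exact hA _
      · simp only [B, h, dif_neg, not_false_eq_true]
        exact (MeasurableSet.iUnion hA).compl
    · intro l hl n hn hln
      by_cases h1 : l < k <;> by_cases h2 : n < k
      · simp only [B, h1, h2, dif_pos]
        exact hd (fun e => hln (by simpa using congrArg Fin.val e))
      · simp only [B, h1, h2, dif_pos, dif_neg, not_false_eq_true]
        exact Set.disjoint_compl_right_iff_subset.2 (Set.subset_iUnion A ⟨l, h1⟩)
      · simp only [B, h1, h2, dif_pos, dif_neg, not_false_eq_true]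
        exact Set.disjoint_compl_left_iff_subset.2 (Set.subset_iUnion A ⟨n, h2⟩)
      · rw [Finset.mem_range] at hl hn
        exact absurd (show l = n by omega) hln
    · intro x
      by_cases hx : x ∈ ⋃ i, A i
      · obtain ⟨i, hi⟩ := Set.mem_iUnion.1 hx
        exact ⟨i, Finset.mem_range.2 (by omega), by rw [hBk]; exact hi⟩
      · exact ⟨k, Finset.mem_range.2 (by omega), by rw [hBlast]; exact hx⟩
  have h1 := hP (k + 1) (Finset.range (k + 1)) (by simp) B hgood
  rw [Finset.sum_range_succ] at h1
  have h2 : ∑ i, ‖∫ x in A i, x ∂(stdGaussian E)‖ ^ 2 = ∑ l ∈ Finset.range k, ‖mom (B l)‖ ^ 2 := by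
    rw [Finset.sum_range]
    refine Finset.sum_congr rfl fun i _ => ?_
    rw [hBk]
    rfl
  rw [h2]
  have h3 : 0 ≤ ‖mom (B k)‖ ^ 2 := by positivity
  have h4 : t0 = 9 / (8 * π) := rfl
  linarith

end Vale.Agent.Lib.P226
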