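import Vale.Agent.Lib.P226.X.Stein
import Vale.Agent.Lib.P226.X.Crit

/-!
The cell bound: the loss from removing a cell of a critical configuration, computed in the frame
adapted to that cell.
-/

open MeasureTheory ProbabilityTheory Real Set Filter Topology
open scoped RealInnerProductSpace ENNReal NNReal

namespace Vale.Agent.Lib.P226

section OneD2

lemma gauss_indicator (t : ℝ) (h : ℝ → ℝ) :
    ∫ g, (Ioi t).indicator h g ∂(gaussianReal 0 1) = ∫ g in Ioi t, h g * phi g := by
  rw [integral_gaussianReal_eq_integral_smul one_ne_zero, ← integral_indicator measurableSet_Ioi]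
  congr 1
  ext g
  by_cases hg : g ∈ Ioi t
  · rw [indicator_of_mem hg, indicator_of_mem hg, ← phi_eq_pdf, smul_eq_mul, mul_comm]
  · rw [indicator_of_notMem hg, indicator_of_notMem hg, smul_zero]

lemma integral_Ioi_mul_phi (t : ℝ) : ∫ g in Ioi t, g * phi g = phi t := by
  have e : ∀ g, g * phi g = cG * (g * rexp (-(g ^ 2 / 2))) := fun g => by unfold phi; ring
  simp_rw [e]
  rw [integral_const_mul, integral_Ioi_mul_gauss]
  rfl

lemma ae_ne_gauss (t : ℝ) : ∀ᵐ g ∂(gaussianReal 0 1), g ≠ t := by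
  rw [ae_iff]
  simp only [ne_eq, Decidable.not_not]
  exact (gaussianReal_absolutelyContinuous 0 one_ne_zero) (by simp)

lemma psi_eq (y : ℝ) : psi y = phi y - y * Qf y := by
  unfold psi
  rw [integral_gaussianReal_eq_integral_smul one_ne_zero]
  have hzero : ∀ g, g ∉ Ioi y → gaussianPDFReal 0 1 g • max (g - y) 0 = 0 := by
    intro g hg
    have : g ≤ y := not_lt.mp hg
    have h : max (g - y) 0 = 0 := max_eq_right (by linarith)
    simp [h]
  rw [← setIntegral_eq_integral_of_forall_compl_eq_zero hzero]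
  have hcongr : ∫ g in Ioi y, gaussianPDFReal 0 1 g • max (g - y) 0 =
      ∫ g in Ioi y, (g * phi g - y * phi g) := by
    apply setIntegral_congr_fun measurableSet_Ioi
    intro g hg
    have hg' : y < g := hg
    have h : max (g - y) 0 = g - y := max_eq_left (by linarith)
    simp only [smul_eq_mul, h, ← phi_eq_pdf]
    ring
  have hi1 : IntegrableOn (fun g => g * phi g) (Ioi y) := by
    have h : Integrable (fun g => cG * (g * rexp (-(g ^ 2 / 2)))) :=
      integrable_mul_gauss.const_mul _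
    refine (h.congr (Eventually.of_forall fun g => ?_)).integrableOn
    simp only [phi]; ring
  have hi2 : IntegrableOn (fun g => y * phi g) (Ioi y) :=
    (integrable_phi.const_mul y).integrableOn
  rw [hcongr, integral_sub hi1 hi2, integral_Ioi_mul_phi, integral_const_mul]
  rfl

end OneD2

variable {E : Type*} [NormedAddCommGroup E] [InnerProductSpace ℝ E] [FiniteDimensional ℝ E]
  [MeasurableSpace E] [BorelSpace E]

lemma integrable_split (e : E) (he : ‖e‖ = 1) (f : E → ℝ) (hf : Integrable f (stdGaussian E)) :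
    Integrable (fun y => ∫ t, f (splitMap e (t, y)) ∂(gaussianReal 0 1)) (stdGaussian E) := by
  have hmap := map_splitMap e he
  have hs : AEStronglyMeasurable f
      (((gaussianReal 0 1).prod (stdGaussian E)).map (splitMap e)) := by
    rw [hmap]; exact hf.aestronglyMeasurable
  have hi : Integrable (fun p => f (splitMap e p)) ((gaussianReal 0 1).prod (stdGaussian E)) := by
    have h2 : Integrable f (((gaussianReal 0 1).prod (stdGaussian E)).map (splitMap e)) := by
      rw [hmap]; exact hf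
    exact (integrable_map_measure hs (measurable_splitMap e).aemeasurable).mp h2
  exact hi.integral_prod_right

lemma setIntegral_section (e : E) (he : ‖e‖ = 1) (A : Set E) (hA : MeasurableSet A) (l : E → ℝ)
    (h1 : ∀ y g, l y < g → splitMap e (g, y) ∈ A) (h2 : ∀ y g, splitMap e (g, y) ∈ A → l y ≤ g)
    (q : E → ℝ) (hq : Integrable q (stdGaussian E)) :
    ∫ x in A, q x ∂(stdGaussian E) =
      ∫ y, (∫ g in Ioi (l y), q (splitMap e (g, y)) * phi g) ∂(stdGaussian E) := by
  rw [← integral_indicator hA, integral_split e he _ (hq.indicator hA)]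
  congr 1
  ext y
  rw [← gauss_indicator]
  apply integral_congr_ae
  filter_upwards [ae_ne_gauss (l y)] with g hg
  by_cases hl : l y < g
  · rw [indicator_of_mem (h1 y g hl), indicator_of_mem (show g ∈ Ioi (l y) from hl)]
  · have hnot : splitMap e (g, y) ∉ A := fun hmem =>
      hg (le_antisymm (not_lt.mp hl) (h2 y g hmem))
    rw [indicator_of_notMem hnot, indicator_of_notMem (show g ∉ Ioi (l y) from hl)]

/-! ### The isoperimetric tangent -/

theorem iso_tangent {S : Finset ℕ} {u : ℕ → E} (h : Crit S u) {m : ℕ} (hm : m ∈ S) {y : ℝ}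
    (hy : 0 ≤ y) : ‖u m‖ ≤ phi y + y * (area S u m - Qf y) := by
  have hfix := h.fixed m hm
  have hS : S.Nonempty := ⟨m, hm⟩
  have hA : MeasurableSet (vor S u m) := (vor_good S u hS).meas m hm
  by_cases hz : u m = 0
  · rw [hz, norm_zero]
    have hp : 0 ≤ psi y := integral_nonneg fun g => le_max_right _ _
    rw [psi_eq y] at hp
    have ha : 0 ≤ area S u m := measureReal_nonneg
    nlinarith [mul_nonneg hy ha]
  · have hs : 0 < ‖u m‖ := norm_pos_iff.mpr hz
    have h2 := norm_sq_moment_le (vor S u m) hA (‖u m‖ * y)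
    have hmom : ∫ x in vor S u m, x ∂(stdGaussian E) = u m := hfix
    rw [hmom, integral_max_inner (u m) hz, mul_div_cancel_left₀ _ hs.ne', psi_eq y] at h2
    have harea : ((stdGaussian E) (vor S u m)).toReal = area S u m := rfl
    rw [harea] at h2
    have h3 : ‖u m‖ * ‖u m‖ ≤ ‖u m‖ * (phi y + y * (area S u m - Qf y)) := by
      nlinarith
    exact le_of_mul_le_mul_left h3 hs

/-! ### The frame adapted to a cell -/

section FrameDefs

variable (u : ℕ → E) (m : ℕ)

/-- Normalised edge weights at the cell `m`. -/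
noncomputable def fβ (j : ℕ) : ℝ := (-⟪u m, u j⟫) / ‖u m‖ ^ 2

/-- The projection of `u j` orthogonally to `u m`. -/
noncomputable def fv (j : ℕ) : E := u j + fβ u m j • u m

/-- The slope of the frame coordinate. -/
noncomputable def fσ (j : ℕ) : ℝ := ‖u m‖ * (1 + fβ u m j)

/-- The normalised linear forms of the frame. -/
noncomputable def fw (j : ℕ) : E := (fσ u m j)⁻¹ • fv u m j

/-- The unit vector along `u m`. -/
noncomputable def fe : E := (‖u m‖)⁻¹ • u m

end FrameDefs

section FrameAlg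

variable {u : ℕ → E} {m : ℕ}

omit [FiniteDimensional ℝ E] [MeasurableSpace E] [BorelSpace E] in
lemma fe_norm (hu : u m ≠ 0) : ‖fe u m‖ = 1 := by
  have hs : 0 < ‖u m‖ := norm_pos_iff.mpr hu
  rw [fe, norm_smul, norm_inv, norm_norm]
  field_simp

omit [FiniteDimensional ℝ E] [MeasurableSpace E] [BorelSpace E] in
lemma um_eq (hu : u m ≠ 0) : u m = ‖u m‖ • fe u m := by
  have hs : 0 < ‖u m‖ := norm_pos_iff.mpr hu
  rw [fe, smul_smul, mul_inv_cancel₀ hs.ne', one_smul]

omit [FiniteDimensional ℝ E] [MeasurableSpace E] [BorelSpace E] in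
lemma inner_fv_um (hu : u m ≠ 0) (j : ℕ) : ⟪fv u m j, u m⟫ = 0 := by
  have hs : 0 < ‖u m‖ := norm_pos_iff.mpr hu
  rw [fv, inner_add_left, inner_smul_left, real_inner_self_eq_norm_sq, fβ, real_inner_comm]
  simp only [conj_trivial]
  field_simp
  ring

omit [FiniteDimensional ℝ E] [MeasurableSpace E] [BorelSpace E] in
lemma inner_fv_fe (hu : u m ≠ 0) (j : ℕ) : ⟪fv u m j, fe u m⟫ = 0 := by
  rw [fe, inner_smul_right, inner_fv_um hu, mul_zero]

omit [FiniteDimensional ℝ E] [MeasurableSpace E] [BorelSpace E] in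
lemma inner_fw_fe (hu : u m ≠ 0) (j : ℕ) : ⟪fw u m j, fe u m⟫ = 0 := by
  rw [fw, inner_smul_left, inner_fv_fe hu, mul_zero]

lemma key_frame (hu : u m ≠ 0) {j : ℕ} (hσ : fσ u m j ≠ 0) (g : ℝ) (y : E) :
    ⟪u m, splitMap (fe u m) (g, y)⟫ - ⟪u j, splitMap (fe u m) (g, y)⟫ =
      fσ u m j * (g - ⟪fw u m j, y⟫) := by
  have hs : 0 < ‖u m‖ := norm_pos_iff.mpr hu
  set x := splitMap (fe u m) (g, y) with hx
  have h0 : ⟪fe u m, x⟫ = g := inner_e_splitMap _ (fe_norm hu) g y
  have h1 : ⟪u m, x⟫ = ‖u m‖ * g := by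
    rw [← h0, fe, inner_smul_left]
    simp only [conj_trivial]
    field_simp
  have h2 : ⟪fv u m j, x⟫ = ⟪fv u m j, y⟫ := by
    rw [hx, inner_splitMap, inner_fv_fe hu]
    ring
  have h3 : ⟪u j, x⟫ = ⟪fv u m j, x⟫ - fβ u m j * ⟪u m, x⟫ := by
    rw [fv, inner_add_left, inner_smul_left]
    simp
  have h4 : ⟪fw u m j, y⟫ = (fσ u m j)⁻¹ * ⟪fv u m j, y⟫ := by
    rw [fw, inner_smul_left]
    simp
  rw [h3, h1, h2, h4, mul_sub, mul_inv_cancel_left₀ hσ, fσ]
  ring

end FrameAlg

section FrameCrit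

variable {S : Finset ℕ} {u : ℕ → E} {m : ℕ}

omit [BorelSpace E] in
lemma um_ne (h : Crit S u) (hm : m ∈ S) (hne : (S.erase m).Nonempty) : u m ≠ 0 := by
  obtain ⟨b, hb⟩ := hne
  have h1 := h.neg m hm b (Finset.mem_of_mem_erase hb) (Finset.ne_of_mem_erase hb).symm
  intro h0
  rw [h0, inner_zero_left] at h1
  exact lt_irrefl _ h1

omit [BorelSpace E] in
lemma fβ_pos (h : Crit S u) (hm : m ∈ S) {j : ℕ} (hj : j ∈ S.erase m) : 0 < fβ u m j := by
  have hu : u m ≠ 0 := um_ne h hm ⟨j, hj⟩
  have hs : 0 < ‖u m‖ := norm_pos_iff.mpr hu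
  have h1 := h.neg m hm j (Finset.mem_of_mem_erase hj) (Finset.ne_of_mem_erase hj).symm
  rw [fβ]
  apply div_pos (by linarith) (by positivity)

lemma sum_fβ (h : Crit S u) (hm : m ∈ S) (hne : (S.erase m).Nonempty) :
    ∑ j ∈ S.erase m, fβ u m j = 1 := by
  have hu : u m ≠ 0 := um_ne h hm hne
  have hs : 0 < ‖u m‖ := norm_pos_iff.mpr hu
  have hd := h.degree hm
  unfold fβ
  rw [← Finset.sum_div, ← hd]
  field_simp

lemma fβ_le_one (h : Crit S u) (hm : m ∈ S) {j : ℕ} (hj : j ∈ S.erase m) : fβ u m j ≤ 1 := by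
  rw [← sum_fβ h hm ⟨j, hj⟩]
  exact Finset.single_le_sum (f := fun j => fβ u m j) (fun i hi => (fβ_pos h hm hi).le) hj

lemma fσ_pos (h : Crit S u) (hm : m ∈ S) {j : ℕ} (hj : j ∈ S.erase m) : 0 < fσ u m j := by
  have hu : u m ≠ 0 := um_ne h hm ⟨j, hj⟩
  have hs : 0 < ‖u m‖ := norm_pos_iff.mpr hu
  have := fβ_pos h hm hj
  rw [fσ]
  positivity

lemma sum_fv (h : Crit S u) (hm : m ∈ S) (hne : (S.erase m).Nonempty) :
    ∑ j ∈ S.erase m, fv u m j = 0 := by
  have h1 := h.sum_eq_zero ⟨m, hm⟩
  rw [← Finset.add_sum_erase S _ hm] at h1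
  simp only [fv]
  rw [Finset.sum_add_distrib, ← Finset.sum_smul, sum_fβ h hm hne, one_smul, add_comm]
  exact h1

lemma mx_fw_nonneg (h : Crit S u) (hm : m ∈ S) (hne : (S.erase m).Nonempty) (y : E) :
    0 ≤ mx (S.erase m) hne (fw u m) y := by
  by_contra hcon
  rw [not_le] at hcon
  have h1 : ∀ j ∈ S.erase m, fσ u m j * ⟪fw u m j, y⟫ < 0 := by
    intro j hj
    have h2 := le_mx hne (fw u m) y hj
    exact mul_neg_of_pos_of_neg (fσ_pos h hm hj) (by linarith)
  have h3 := Finset.sum_neg h1 hne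
  have h4 : ∑ j ∈ S.erase m, fσ u m j * ⟪fw u m j, y⟫ = ⟪∑ j ∈ S.erase m, fv u m j, y⟫ := by
    rw [sum_inner]
    apply Finset.sum_congr rfl
    intro j hj
    rw [fw, inner_smul_left]
    simp only [conj_trivial]
    rw [mul_inv_cancel_left₀ (fσ_pos h hm hj).ne']
  rw [h4, sum_fv h hm hne, inner_zero_left] at h3
  exact lt_irrefl _ h3

/-- A linear relation among the `fv` has constant coefficients. -/
lemma coeff_fv (h : Crit S u) (hm : m ∈ S) (q : ℕ → ℝ)
    (hq : ∑ j ∈ S.erase m, q j • fv u m j = 0) {a b : ℕ} (ha : a ∈ S.erase m)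
    (hb : b ∈ S.erase m) : q a = q b := by
  classical
  set p : ℕ → ℝ := fun l => if l = m then ∑ j ∈ S.erase m, q j * fβ u m j else q l with hp
  have hrel : ∑ l ∈ S, p l • u l = 0 := by
    rw [← Finset.add_sum_erase S _ hm]
    have h1 : ∑ l ∈ S.erase m, p l • u l = ∑ l ∈ S.erase m, q l • u l := by
      apply Finset.sum_congr rfl
      intro l hl
      simp only [hp, if_neg (Finset.ne_of_mem_erase hl)]
    have h2 : p m = ∑ j ∈ S.erase m, q j * fβ u m j := by simp [hp]
    rw [h1, h2, Finset.sum_smul]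
    simp only [mul_smul]
    rw [← Finset.sum_add_distrib, ← hq]
    apply Finset.sum_congr rfl
    intro j _
    rw [fv, smul_add]
    abel
  have h3 := h.coeff_const p hrel (Finset.mem_of_mem_erase ha) (Finset.mem_of_mem_erase hb)
  simpa [hp, if_neg (Finset.ne_of_mem_erase ha), if_neg (Finset.ne_of_mem_erase hb)] using h3

/-- The normalised forms are pairwise distinct. -/
lemma fw_distinct (h : Crit S u) (hm : m ∈ S) (hk : 5 ≤ S.card) :
    ∀ i ∈ S.erase m, ∀ j ∈ S.erase m, i ≠ j → fw u m i ≠ fw u m j := by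
  classical
  intro i hi j hj hij heq
  have hcard : 2 < (S.erase m).card := by
    rw [Finset.card_erase_of_mem hm]
    omega
  have hcard2 : 0 < (((S.erase m).erase i).erase j).card := by
    have h1 : ((S.erase m).erase i).card = (S.erase m).card - 1 := Finset.card_erase_of_mem hi
    have h2 : j ∈ (S.erase m).erase i := Finset.mem_erase.mpr ⟨hij.symm, hj⟩
    rw [Finset.card_erase_of_mem h2, h1]
    omega
  obtain ⟨t, ht⟩ := Finset.card_pos.mp hcard2
  have ht1 : t ≠ j := Finset.ne_of_mem_erase ht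
  have ht2 : t ≠ i := Finset.ne_of_mem_erase (Finset.mem_of_mem_erase ht)
  have ht3 : t ∈ S.erase m := Finset.mem_of_mem_erase (Finset.mem_of_mem_erase ht)
  set q : ℕ → ℝ := fun l => (if l = i then (fσ u m i)⁻¹ else 0) + (if l = j then -(fσ u m j)⁻¹ else 0)
    with hq
  have hrel : ∑ l ∈ S.erase m, q l • fv u m l = 0 := by
    simp only [hq, add_smul, ite_smul, zero_smul]
    rw [Finset.sum_add_distrib, Finset.sum_ite_eq' _ i, Finset.sum_ite_eq' _ j, if_pos hi, if_pos hj]
    have e1 : fw u m i = (fσ u m i)⁻¹ • fv u m i := rfl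
    have e2 : fw u m j = (fσ u m j)⁻¹ • fv u m j := rfl
    rw [neg_smul, ← e1, ← e2, heq]
    abel
  have h1 := coeff_fv h hm q hrel hi ht3
  have h2 : q i = (fσ u m i)⁻¹ := by simp [hq, hij]
  have h3 : q t = 0 := by simp [hq, ht1, ht2]
  rw [h2, h3] at h1
  exact (inv_ne_zero (fσ_pos h hm hi).ne') h1

lemma erase_card_real (hm : m ∈ S) : (((S.erase m).card : ℕ) : ℝ) = (S.card : ℝ) - 1 := by
  rw [Finset.card_erase_of_mem hm]
  have : 1 ≤ S.card := Finset.card_pos.mpr ⟨m, hm⟩
  rw [Nat.cast_sub this]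
  simp

lemma sum_fσ (h : Crit S u) (hm : m ∈ S) (hne : (S.erase m).Nonempty) :
    ∑ j ∈ S.erase m, fσ u m j = ‖u m‖ * S.card := by
  simp only [fσ]
  rw [← Finset.mul_sum, Finset.sum_add_distrib, sum_fβ h hm hne]
  simp only [Finset.sum_const, nsmul_eq_mul, mul_one]
  rw [erase_card_real hm]
  ring

/-! ### Sections of the Voronoi cell -/

lemma mem_vor_of_lt (h : Crit S u) (hm : m ∈ S) (hne : (S.erase m).Nonempty) {y : E} {g : ℝ}
    (hg : mx (S.erase m) hne (fw u m) y < g) : splitMap (fe u m) (g, y) ∈ vor S u m := by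
  have hu : u m ≠ 0 := um_ne h hm hne
  have key : ∀ n ∈ S, n ≠ m → ⟪u n, splitMap (fe u m) (g, y)⟫ < ⟪u m, splitMap (fe u m) (g, y)⟫ := by
    intro n hn hnm
    have hnR : n ∈ S.erase m := Finset.mem_erase.mpr ⟨hnm, hn⟩
    have h1 := key_frame hu (fσ_pos h hm hnR).ne' g y
    have h2 := le_mx hne (fw u m) y hnR
    have h3 : 0 < fσ u m n * (g - ⟪fw u m n, y⟫) :=
      mul_pos (fσ_pos h hm hnR) (by linarith)
    linarith
  refine ⟨fun n hn => ?_, fun n hn hlt => key n hn hlt.ne⟩
  by_cases hnm : n = m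
  · rw [hnm]
  · exact (key n hn hnm).le

lemma le_of_mem_vor (h : Crit S u) (hm : m ∈ S) (hne : (S.erase m).Nonempty) {y : E} {g : ℝ}
    (hx : splitMap (fe u m) (g, y) ∈ vor S u m) : mx (S.erase m) hne (fw u m) y ≤ g := by
  have hu : u m ≠ 0 := um_ne h hm hne
  apply mx_le
  intro n hn
  have h1 := key_frame hu (fσ_pos h hm hn).ne' g y
  have h2 := hx.1 n (Finset.mem_of_mem_erase hn)
  have h3 : 0 ≤ fσ u m n * (g - ⟪fw u m n, y⟫) := by linarith
  have h4 := (mul_nonneg_iff_of_pos_left (fσ_pos h hm hn)).mp h3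
  linarith

lemma meas_vor (hm : m ∈ S) : MeasurableSet (vor S u m) :=
  (vor_good S u ⟨m, hm⟩).meas m hm

lemma area_eq (h : Crit S u) (hm : m ∈ S) (hne : (S.erase m).Nonempty) :
    area S u m = ∫ y, Qf (mx (S.erase m) hne (fw u m) y) ∂(stdGaussian E) := by
  have hu : u m ≠ 0 := um_ne h hm hne
  have h1 := setIntegral_section (fe u m) (fe_norm hu) (vor S u m) (meas_vor hm)
    (mx (S.erase m) hne (fw u m)) (fun y g hg => mem_vor_of_lt h hm hne hg)
    (fun y g hx => le_of_mem_vor h hm hne hx) (fun _ => (1 : ℝ)) (integrable_const _)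
  simp only [one_mul] at h1
  rw [setIntegral_const] at h1
  simpa [area, Qf] using h1

lemma norm_eq_phi (h : Crit S u) (hm : m ∈ S) (hne : (S.erase m).Nonempty) :
    ‖u m‖ = ∫ y, phi (mx (S.erase m) hne (fw u m) y) ∂(stdGaussian E) := by
  have hu : u m ≠ 0 := um_ne h hm hne
  have hs : 0 < ‖u m‖ := norm_pos_iff.mpr hu
  have h1 := setIntegral_section (fe u m) (fe_norm hu) (vor S u m) (meas_vor hm)
    (mx (S.erase m) hne (fw u m)) (fun y g hg => mem_vor_of_lt h hm hne hg)
    (fun y g hx => le_of_mem_vor h hm hne hx) (fun x => ⟪fe u m, x⟫) (integrable_inner _)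
  rw [setIntegral_inner, h.fixed m hm] at h1
  have h2 : ⟪fe u m, u m⟫ = ‖u m‖ := by
    rw [fe, inner_smul_left, real_inner_self_eq_norm_sq]
    simp only [conj_trivial]
    field_simp
  rw [h2] at h1
  rw [h1]
  congr 1
  ext y
  rw [← integral_Ioi_mul_phi]
  apply setIntegral_congr_fun measurableSet_Ioi
  intro g _
  simp only
  rw [inner_e_splitMap _ (fe_norm hu)]

lemma orth_eq (h : Crit S u) (hm : m ∈ S) (hne : (S.erase m).Nonempty) (z : E)
    (hz : ⟪z, fe u m⟫ = 0) :
    ∫ y, ⟪z, y⟫ * Qf (mx (S.erase m) hne (fw u m) y) ∂(stdGaussian E) = 0 := by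
  have hu : u m ≠ 0 := um_ne h hm hne
  have h1 := setIntegral_section (fe u m) (fe_norm hu) (vor S u m) (meas_vor hm)
    (mx (S.erase m) hne (fw u m)) (fun y g hg => mem_vor_of_lt h hm hne hg)
    (fun y g hx => le_of_mem_vor h hm hne hx) (fun x => ⟪z, x⟫) (integrable_inner _)
  rw [setIntegral_inner, h.fixed m hm] at h1
  have h2 : ⟪z, u m⟫ = 0 := by
    rw [um_eq hu, inner_smul_right, hz, mul_zero]
  rw [h2] at h1
  rw [h1]
  congr 1
  ext y
  rw [Qf, ← integral_const_mul]
  apply setIntegral_congr_fun measurableSet_Ioi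
  intro g _
  simp only
  rw [inner_splitMap, hz]
  ring

/-- The masses of `phi` on the cells of the frame. -/
noncomputable def fJ (S : Finset ℕ) (u : ℕ → E) (m : ℕ) (hne : (S.erase m).Nonempty) (j : ℕ) : ℝ :=
  ∫ y in vor (S.erase m) (fw u m) j, phi (mx (S.erase m) hne (fw u m) y) ∂(stdGaussian E)

lemma sum_fJ_smul (h : Crit S u) (hm : m ∈ S) (hne : (S.erase m).Nonempty) (hk : 5 ≤ S.card) :
    ∑ j ∈ S.erase m, fJ S u m hne j • fw u m j = 0 := by
  have hu : u m ≠ 0 := um_ne h hm hne
  set z := ∑ j ∈ S.erase m, fJ S u m hne j • fw u m j with hz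
  have hze : ⟪z, fe u m⟫ = 0 := by
    rw [hz, sum_inner]
    apply Finset.sum_eq_zero
    intro j _
    rw [inner_smul_left, inner_fw_fe hu, mul_zero]
  have h1 := orth_eq h hm hne z hze
  rw [stein_mx (S.erase m) hne (fw u m) (fw_distinct h hm hk) z] at h1
  have h2 : ⟪z, z⟫ = ∑ j ∈ S.erase m, ⟪z, fw u m j⟫ * fJ S u m hne j := by
    conv_lhs => rw [hz]
    rw [inner_sum]
    apply Finset.sum_congr rfl
    intro j _
    rw [inner_smul_right]
    ring
  have h3 : ⟪z, z⟫ = 0 := by
    rw [h2]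
    have h4 : ∑ j ∈ S.erase m, ⟪z, fw u m j⟫ * fJ S u m hne j = 0 := by
      simpa [fJ] using h1
    exact h4
  exact inner_self_eq_zero.mp h3

lemma sum_fJ (h : Crit S u) (hm : m ∈ S) (hne : (S.erase m).Nonempty) :
    ∑ j ∈ S.erase m, fJ S u m hne j = ‖u m‖ := by
  have hg := vor_good (S.erase m) (fw u m) hne
  have hmx := measurable_mx hne (fw u m)
  have hint : Integrable (fun y => phi (mx (S.erase m) hne (fw u m) y)) (stdGaussian E) := by
    refine Integrable.of_bound (C := cG) (continuous_phi.measurable.comp hmx).aestronglyMeasurable ?_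
    exact ae_of_all _ fun y => by
      rw [Real.norm_of_nonneg (phi_nonneg _)]; exact phi_le _
  rw [norm_eq_phi h hm hne, hg.integral_eq _ hint]
  rfl

/-- The mass of `phi` on each frame cell is proportional to the slope. -/
lemma fJ_eq (h : Crit S u) (hm : m ∈ S) (hne : (S.erase m).Nonempty) (hk : 5 ≤ S.card) {j : ℕ}
    (hj : j ∈ S.erase m) : fJ S u m hne j = fσ u m j / S.card := by
  have hu : u m ≠ 0 := um_ne h hm hne
  have hs : 0 < ‖u m‖ := norm_pos_iff.mpr hu
  have hkpos : (0 : ℝ) < S.card := by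
    have : 0 < S.card := by omega
    exact_mod_cast this
  set q : ℕ → ℝ := fun l => fJ S u m hne l * (fσ u m l)⁻¹ with hq
  have hrel : ∑ l ∈ S.erase m, q l • fv u m l = 0 := by
    rw [← sum_fJ_smul h hm hne hk]
    apply Finset.sum_congr rfl
    intro l _
    rw [hq, fw, smul_smul]
  have hall : ∀ l ∈ S.erase m, fJ S u m hne l = q j * fσ u m l := by
    intro l hl
    have h1 := coeff_fv h hm q hrel hj hl
    rw [h1, hq]
    simp only
    rw [inv_mul_cancel_right₀ (fσ_pos h hm hl).ne']
  have hsum := sum_fJ h hm hne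
  rw [Finset.sum_congr rfl hall, ← Finset.mul_sum, sum_fσ h hm hne] at hsum
  have hqj : q j = 1 / S.card := by
    have h5 : (q j * S.card) * ‖u m‖ = 1 * ‖u m‖ := by
      rw [one_mul]
      nth_rewrite 2 [← hsum]
      ring
    have h6 := mul_right_cancel₀ hs.ne' h5
    exact eq_div_of_mul_eq hkpos.ne' h6
  rw [hall j hj, hqj]
  ring

/-! ### The loss function in the frame -/

lemma sum_inner_erase (h : Crit S u) (hm : m ∈ S) (x : E) :
    ∑ i ∈ S.erase m, ⟪u i, x⟫ = -⟪u m, x⟫ := by
  have h1 := h.sum_eq_zero ⟨m, hm⟩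
  have h2 : ⟪∑ l ∈ S, u l, x⟫ = 0 := by rw [h1, inner_zero_left]
  rw [sum_inner, ← Finset.add_sum_erase S _ hm] at h2
  linarith

/-- Pointwise bound of the loss in the frame coordinates. -/
lemma loss_le (h : Crit S u) (hm : m ∈ S) (hne : (S.erase m).Nonempty) (hk : 5 ≤ S.card) {j : ℕ}
    (hj : j ∈ S.erase m) {y : E} (hy : y ∈ vor (S.erase m) (fw u m) j) (g : ℝ) :
    max (⟪u m, splitMap (fe u m) (g, y)⟫ - mx (S.erase m) hne u (splitMap (fe u m) (g, y))) 0 ≤
      (Ioi (mx (S.erase m) hne (fw u m) y)).indicator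
        (fun g => ‖u m‖ * min ((1 + fβ u m j) * (g - mx (S.erase m) hne (fw u m) y)) ((5 / 4) * g))
        g := by
  have hu : u m ≠ 0 := um_ne h hm hne
  have hs : 0 < ‖u m‖ := norm_pos_iff.mpr hu
  set l := mx (S.erase m) hne (fw u m) y with hl
  have hl0 : 0 ≤ l := mx_fw_nonneg h hm hne y
  have hlj : l = ⟪fw u m j, y⟫ := mx_eq_of_mem_vor hne (fw u m) hj hy
  set x := splitMap (fe u m) (g, y) with hx
  have hβ := fβ_pos h hm hj
  have hσ := fσ_pos h hm hj
  have h1 : ⟪u m, x⟫ - mx (S.erase m) hne u x ≤ fσ u m j * (g - l) := by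
    have h2 := key_frame hu hσ.ne' g y
    have h3 := le_mx hne u x hj
    rw [hlj]
    linarith
  by_cases hg : l < g
  · rw [indicator_of_mem (show g ∈ Ioi l from hg)]
    have hg0 : 0 < g := by linarith
    have hYm : ⟪u m, x⟫ = ‖u m‖ * g := by
      have h0 : ⟪fe u m, x⟫ = g := inner_e_splitMap _ (fe_norm hu) g y
      rw [← h0, fe, inner_smul_left]
      simp only [conj_trivial]
      field_simp
    have h2 : ⟪u m, x⟫ - mx (S.erase m) hne u x ≤ ‖u m‖ * ((5 / 4) * g) := by
      set D := ⟪u m, x⟫ - mx (S.erase m) hne u x with hD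
      have hcard : (4 : ℝ) ≤ (S.erase m).card := by
        rw [erase_card_real hm]
        have : (5 : ℝ) ≤ S.card := by exact_mod_cast hk
        linarith
      have h3 : ∑ i ∈ S.erase m, D ≤ ∑ i ∈ S.erase m, (⟪u m, x⟫ - ⟪u i, x⟫) := by
        apply Finset.sum_le_sum
        intro i hi
        have := le_mx hne u x hi
        rw [hD]
        linarith
      rw [Finset.sum_const, nsmul_eq_mul, Finset.sum_sub_distrib, Finset.sum_const, nsmul_eq_mul,
        sum_inner_erase h hm] at h3
      have hpos : 0 ≤ ⟪u m, x⟫ := by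
        rw [hYm]; positivity
      have h4 : 4 * D ≤ ((S.erase m).card : ℝ) * D ∨ D < 0 := by
        by_cases hD0 : 0 ≤ D
        · left; exact mul_le_mul_of_nonneg_right hcard hD0
        · right; exact not_le.mp hD0
      rcases h4 with h4 | h4
      · -- `|R| D ≤ (|R|+1) Y`, hence `D ≤ (5/4) Y`
        have h5 : ((S.erase m).card : ℝ) * (D - (5 / 4) * ⟪u m, x⟫) ≤ 0 := by
          nlinarith
        have h6 : D - (5 / 4) * ⟪u m, x⟫ ≤ 0 := by
          by_contra hc
          rw [not_le] at hc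
          have := mul_pos (by linarith : (0 : ℝ) < ((S.erase m).card : ℝ)) hc
          linarith
        rw [hYm] at h6
        linarith
      · have : 0 ≤ ‖u m‖ * ((5 / 4) * g) := by positivity
        linarith
    have h3 : ⟪u m, x⟫ - mx (S.erase m) hne u x ≤ ‖u m‖ * ((1 + fβ u m j) * (g - l)) := by
      have : fσ u m j * (g - l) = ‖u m‖ * ((1 + fβ u m j) * (g - l)) := by
        rw [fσ]; ring
      linarith
    apply max_le
    · rcases le_total ((1 + fβ u m j) * (g - l)) ((5 / 4) * g) with h5 | h5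
      · rw [min_eq_left h5]; exact h3
      · rw [min_eq_right h5]; exact h2
    · have : 0 ≤ min ((1 + fβ u m j) * (g - l)) ((5 / 4) * g) :=
        le_min (mul_nonneg (by linarith) (by linarith)) (by positivity)
      positivity
  · rw [indicator_of_notMem (show g ∉ Ioi l from hg)]
    apply max_le _ le_rfl
    have h5 : fσ u m j * (g - l) ≤ 0 :=
      mul_nonpos_of_nonneg_of_nonpos hσ.le (by linarith [not_lt.mp hg])
    linarith

/-- Integrability of the frame function. -/
lemma integrable_frame_fun (l sl : ℝ) (hl : 0 ≤ l) (hsl : 0 ≤ sl) (c : ℝ) (hc : 0 ≤ c) :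
    Integrable ((Ioi l).indicator (fun g => c * min (sl * (g - l)) ((5 / 4) * g)))
      (gaussianReal 0 1) := by
  have h0 : Integrable (fun y : ℝ => y) (gaussianReal 0 1) :=
    (memLp_id_gaussianReal (μ := 0) (v := 1) 1).integrable (by norm_num)
  have hb : Integrable (fun g : ℝ => c * ((5 / 4) * |g|)) (gaussianReal 0 1) :=
    (h0.abs.const_mul _).const_mul _
  refine hb.mono' ?_ ?_
  · refine AEMeasurable.aestronglyMeasurable ?_
    refine Measurable.aemeasurable ?_
    refine Measurable.indicator ?_ measurableSet_Ioi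
    fun_prop
  · refine ae_of_all _ fun g => ?_
    by_cases hg : g ∈ Ioi l
    · rw [indicator_of_mem hg]
      have hg' : l < g := hg
      have hg0 : 0 ≤ g := by linarith
      have hmin0 : 0 ≤ min (sl * (g - l)) ((5 / 4) * g) :=
        le_min (mul_nonneg hsl (by linarith)) (by positivity)
      rw [Real.norm_of_nonneg (mul_nonneg hc hmin0), abs_of_nonneg hg0]
      exact mul_le_mul_of_nonneg_left (min_le_right _ _) hc
    · rw [indicator_of_notMem hg, norm_zero]
      positivity

/-- The inner integral of the loss on a frame cell. -/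
lemma inner_loss_le (h : Crit S u) (hm : m ∈ S) (hne : (S.erase m).Nonempty) (hk : 5 ≤ S.card)
    {j : ℕ} (hj : j ∈ S.erase m) {y : E} (hy : y ∈ vor (S.erase m) (fw u m) j) :
    ∫ g, max (⟪u m, splitMap (fe u m) (g, y)⟫ -
        mx (S.erase m) hne u (splitMap (fe u m) (g, y))) 0 ∂(gaussianReal 0 1) ≤
      ‖u m‖ * Gf (5 / 4) (mx (S.erase m) hne (fw u m) y) (1 + fβ u m j) := by
  have hu : u m ≠ 0 := um_ne h hm hne
  have hs : 0 < ‖u m‖ := norm_pos_iff.mpr hu
  set l := mx (S.erase m) hne (fw u m) y with hl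
  have hl0 : 0 ≤ l := mx_fw_nonneg h hm hne y
  have hβ := fβ_pos h hm hj
  have h1 := integrable_frame_fun l (1 + fβ u m j) hl0 (by linarith) ‖u m‖ hs.le
  have h2 : ∫ g, max (⟪u m, splitMap (fe u m) (g, y)⟫ -
        mx (S.erase m) hne u (splitMap (fe u m) (g, y))) 0 ∂(gaussianReal 0 1) ≤
      ∫ g, (Ioi l).indicator (fun g => ‖u m‖ * min ((1 + fβ u m j) * (g - l)) ((5 / 4) * g)) g
        ∂(gaussianReal 0 1) := by
    apply integral_mono_of_nonneg (ae_of_all _ fun g => le_max_right _ _) h1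
    exact ae_of_all _ fun g => loss_le h hm hne hk hj hy g
  refine h2.trans (le_of_eq ?_)
  rw [gauss_indicator, Gf, ← integral_const_mul]
  apply setIntegral_congr_fun measurableSet_Ioi
  intro g _
  simp only
  ring

/-- **The cell bound.** -/
theorem cell_bound (h : Crit S u) (hk : 5 ≤ S.card) (hm : m ∈ S) (hne : (S.erase m).Nonempty)
    {A B μa μm : ℝ} (hc : Cert (5 / 4) A B μa μm) :
    Delta S u m hne ≤ ‖u m‖ * (μa * area S u m + μm
      + ‖u m‖ * ((A * ((S.card : ℝ) - 1) + B) / S.card)) := by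
  have hu : u m ≠ 0 := um_ne h hm hne
  have hs : 0 < ‖u m‖ := norm_pos_iff.mpr hu
  have hkpos : (0 : ℝ) < S.card := by
    have : 0 < S.card := by omega
    exact_mod_cast this
  set l := mx (S.erase m) hne (fw u m) with hl
  have hlm : Measurable l := measurable_mx hne (fw u m)
  have hg := vor_good (S.erase m) (fw u m) hne
  set C : ℕ → ℝ := fun j => (A + B * (1 + fβ u m j - 1)) / (1 + fβ u m j) with hC
  set f : E → ℝ := fun x => max (⟪u m, x⟫ - mx (S.erase m) hne u x) 0 with hf
  have hfint : Integrable f (stdGaussian E) :=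
    ((integrable_inner (u m)).sub (integrable_mx hne u)).sup (integrable_const 0)
  have hD : Delta S u m hne = ∫ x, f x ∂(stdGaussian E) := rfl
  rw [hD, integral_split (fe u m) (fe_norm hu) f hfint]
  have hTint := integrable_split (fe u m) (fe_norm hu) f hfint
  have hphiInt : Integrable (fun y => phi (l y)) (stdGaussian E) := by
    refine Integrable.of_bound (C := cG)
      (continuous_phi.measurable.comp hlm).aestronglyMeasurable ?_
    exact ae_of_all _ fun y => by
      rw [Real.norm_of_nonneg (phi_nonneg _)]; exact phi_le _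
  have hQInt : Integrable (fun y => Qf (l y)) (stdGaussian E) := by
    refine Integrable.of_bound (C := 1)
      (continuous_Qf.measurable.comp hlm).aestronglyMeasurable ?_
    exact ae_of_all _ fun y => by
      rw [Real.norm_of_nonneg (Qf_nonneg _)]; exact Qf_le_one _
  have hindInt : ∀ j ∈ S.erase m, Integrable
      ((vor (S.erase m) (fw u m) j).indicator (fun y => phi (l y))) (stdGaussian E) :=
    fun j hj => hphiInt.indicator (hg.meas j hj)
  set Ub : E → ℝ := fun y => ‖u m‖ * (μa * Qf (l y) + μm +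
      ∑ j ∈ S.erase m, C j * (vor (S.erase m) (fw u m) j).indicator (fun y => phi (l y)) y) with hUb
  have hsumInt : Integrable (fun y => ∑ j ∈ S.erase m,
      C j * (vor (S.erase m) (fw u m) j).indicator (fun y => phi (l y)) y) (stdGaussian E) :=
    integrable_finsetSum _ fun j hj => (hindInt j hj).const_mul _
  have hUbInt : Integrable Ub (stdGaussian E) :=
    (((hQInt.const_mul μa).add (integrable_const μm)).add hsumInt).const_mul _
  have hle : ∀ y, ∫ g, f (splitMap (fe u m) (g, y)) ∂(gaussianReal 0 1) ≤ Ub y := by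
    intro y
    obtain ⟨j, hj, hyj⟩ := hg.cover y
    have h1 := inner_loss_le h hm hne hk hj hyj
    have hβ := fβ_pos h hm hj
    have hβ1 := fβ_le_one h hm hj
    have h2 := hc (l y) (mx_fw_nonneg h hm hne y) (1 + fβ u m j) (by linarith) (by linarith)
    have h3 : ∑ i ∈ S.erase m, C i * (vor (S.erase m) (fw u m) i).indicator
        (fun y => phi (l y)) y = C j * phi (l y) := by
      rw [Finset.sum_eq_single j]
      · rw [indicator_of_mem hyj]
      · intro i hi hij
        have hnot : y ∉ vor (S.erase m) (fw u m) i := fun hh =>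
          (Set.disjoint_left.mp (hg.disj i hi j hj hij)) hh hyj
        rw [indicator_of_notMem hnot, mul_zero]
      · intro hh; exact absurd hj hh
    simp only [hUb]
    rw [h3]
    refine h1.trans (mul_le_mul_of_nonneg_left ?_ hs.le)
    exact h2
  refine (integral_mono hTint hUbInt hle).trans (le_of_eq ?_)
  -- compute the integral of the upper bound
  simp only [hUb]
  rw [integral_const_mul]
  congr 1
  have hI1 : Integrable (fun y => μa * Qf (l y) + μm) (stdGaussian E) :=
    (hQInt.const_mul μa).add (integrable_const μm)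
  rw [integral_add hI1 hsumInt,
    integral_add (hQInt.const_mul μa) (integrable_const μm), integral_const_mul, ← area_eq h hm hne]
  have h5 : ∫ _y : E, μm ∂(stdGaussian E) = μm := by simp
  rw [h5, integral_finsetSum _ fun j hj => (hindInt j hj).const_mul _]
  have h6 : ∀ j ∈ S.erase m, ∫ y, C j * (vor (S.erase m) (fw u m) j).indicator
      (fun y => phi (l y)) y ∂(stdGaussian E) =
      ‖u m‖ * ((A + B * fβ u m j) / S.card) := by
    intro j hj
    have hβ := fβ_pos h hm hj
    rw [integral_const_mul, integral_indicator (hg.meas j hj)]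
    have h7 : ∫ y in vor (S.erase m) (fw u m) j, phi (l y) ∂(stdGaussian E) =
        fσ u m j / S.card := fJ_eq h hm hne hk hj
    rw [h7, hC, fσ]
    simp only
    have : (1 + fβ u m j) ≠ 0 := by linarith
    field_simp
    ring
  rw [Finset.sum_congr rfl h6, ← Finset.mul_sum, ← Finset.sum_div, Finset.sum_add_distrib,
    ← Finset.mul_sum, sum_fβ h hm hne]
  simp only [Finset.sum_const, nsmul_eq_mul]
  rw [erase_card_real hm]
  ring

end FrameCrit

end Vale.Agent.Lib.P226
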