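import Vale.Agent.Lib.P226.X.TableFact
import Vale.Agent.Lib.P226.X.BuildCfg
import Vale.Agent.Lib.P226.X.Final

/-!
The reduction of the Gaussian propeller problem to four cells.
-/

open MeasureTheory ProbabilityTheory Real Set Filter
open scoped RealInnerProductSpace ENNReal

namespace Vale.Agent.Lib.P226

variable {E : Type*} [NormedAddCommGroup E] [InnerProductSpace ℝ E] [FiniteDimensional ℝ E]
  [MeasurableSpace E] [BorelSpace E]

/-- The bound for at most four cells implies the bound for any number of cells. -/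
theorem pb_all_of_pb4 (h4 : PB E 4) : ∀ n : ℕ, PB E n :=
  pb_all_of_cfg (fun hu hk hp => TF.table_fact hu hk hp)
    (fun hu hk hp ht => exists_cfg hu hk hp ht) TD.cfg_false h4

/-- The form of the bound for at most four cells, on partitions indexed by `Fin 4`. -/
theorem pb4_of_partitions
    (H : ∀ A : Fin 4 → Set E, (∀ i, MeasurableSet (A i)) → Pairwise (Function.onFun Disjoint A) →
      (∀ x, ∃ i, x ∈ A i) → ∑ i, ‖∫ x in A i, x ∂(stdGaussian E)‖ ^ 2 ≤ 9 / (8 * π)) :
    PB E 4 := by
  classical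
  intro S hS A hA
  set c := S.card with hc
  let e : S ≃ Fin c := S.equivFin
  let B : Fin 4 → Set E := fun i =>
    if h : i.val < c then A (e.symm ⟨i.val, h⟩).val else ∅
  have hBc : ∀ j : Fin c, B (Fin.castLE hS j) = A (e.symm j).val := by
    intro j
    have hj : (Fin.castLE hS j).val < c := j.isLt
    simp only [B, hj, dif_pos]
    rfl
  have hB0 : ∀ i : Fin 4, ¬ i.val < c → B i = ∅ := by
    intro i hi
    simp only [B, hi, dif_neg, not_false_eq_true]
  have hBm : ∀ i, MeasurableSet (B i) := by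
    intro i
    by_cases hi : i.val < c
    · simp only [B, hi, dif_pos]
      exact hA.meas _ (e.symm ⟨i.val, hi⟩).2
    · rw [hB0 i hi]; exact MeasurableSet.empty
  have hBd : Pairwise (Function.onFun Disjoint B) := by
    intro i i' hne
    simp only [Function.onFun]
    by_cases hi : i.val < c
    · by_cases hi' : i'.val < c
      · simp only [B, hi, hi', dif_pos]
        refine hA.disj _ (e.symm ⟨i.val, hi⟩).2 _ (e.symm ⟨i'.val, hi'⟩).2 ?_
        intro heq
        have h1 := Subtype.ext heq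
        have h2 := e.symm.injective h1
        exact hne (Fin.ext (by simpa using congrArg Fin.val h2))
      · rw [hB0 i' hi']; exact Set.disjoint_empty _
    · rw [hB0 i hi]; exact Set.empty_disjoint _
  have hBcov : ∀ x, ∃ i, x ∈ B i := by
    intro x
    obtain ⟨l, hl, hx⟩ := hA.cover x
    refine ⟨Fin.castLE hS (e ⟨l, hl⟩), ?_⟩
    rw [hBc]
    simpa using hx
  have h1 := H B hBm hBd hBcov
  have h2 : ∑ l ∈ S, ‖mom (A l)‖ ^ 2 = ∑ j : Fin c, ‖mom (A (e.symm j).val)‖ ^ 2 := by
    rw [← Finset.sum_coe_sort S (fun l => ‖mom (A l)‖ ^ 2)]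
    exact (Equiv.sum_comp e.symm (fun l : S => ‖mom (A l.val)‖ ^ 2)).symm
  have h3 : ∑ j : Fin c, ‖mom (A (e.symm j).val)‖ ^ 2 ≤
      ∑ i : Fin 4, ‖∫ x in B i, x ∂(stdGaussian E)‖ ^ 2 := by
    have h4 : ∑ j : Fin c, ‖mom (A (e.symm j).val)‖ ^ 2 =
        ∑ i ∈ (Finset.univ : Finset (Fin c)).map (Fin.castLEEmb hS),
          ‖∫ x in B i, x ∂(stdGaussian E)‖ ^ 2 := by
      rw [Finset.sum_map]
      refine Finset.sum_congr rfl fun j _ => ?_
      have : (Fin.castLEEmb hS) j = Fin.castLE hS j := rfl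
      rw [this, hBc]
      rfl
    rw [h4]
    exact Finset.sum_le_sum_of_subset_of_nonneg (Finset.subset_univ _) fun _ _ _ => by positivity
  rw [h2]
  exact h3.trans h1

/-- The final bound under the bound for four cells. -/
theorem moment_bound_of_partitions4
    (H : ∀ A : Fin 4 → Set E, (∀ i, MeasurableSet (A i)) → Pairwise (Function.onFun Disjoint A) →
      (∀ x, ∃ i, x ∈ A i) → ∑ i, ‖∫ x in A i, x ∂(stdGaussian E)‖ ^ 2 ≤ 9 / (8 * π))
    {k : ℕ} (A : Fin k → Set E) (hA : ∀ i, MeasurableSet (A i))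
    (hd : Pairwise (Function.onFun Disjoint A)) :
    ∑ i, ‖∫ x in A i, x ∂(stdGaussian E)‖ ^ 2 ≤ 9 / (8 * π) :=
  moment_bound_of_PB (pb_all_of_pb4 (pb4_of_partitions H)) A hA hd

end Vale.Agent.Lib.P226
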