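import Vale.Agent.Lib.P226.X.ClosureDefs
import Vale.Agent.Lib.P226.X.Crit
import Vale.Agent.Lib.P226.X.Frame

/-!
A table node from a certificate, or from the isoperimetric tangent.
-/

open MeasureTheory ProbabilityTheory Real Set Filter
open scoped RealInnerProductSpace ENNReal

namespace Vale.Agent.Lib.P226

variable {E : Type*} [NormedAddCommGroup E] [InnerProductSpace ℝ E] [FiniteDimensional ℝ E]
  [MeasurableSpace E] [BorelSpace E]

private lemma cG_mul_le : cG * (11 / 25) ≤ t0 / 2 := by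
  have hpi : π < 3.15 := Real.pi_lt_d2
  have hpi0 := Real.pi_pos
  have hc0 := cG_pos
  have hc2 := one_div_two_pi_eq
  have ht : t0 / 2 = 9 / (16 * π) := by
    unfold t0; field_simp; norm_num
  rw [ht]
  have h0 : (0 : ℝ) ≤ 9 / (16 * π) := by positivity
  apply abs_le_of_sq_le_sq' _ h0 |>.2
  have h1 : (cG * (11 / 25)) ^ 2 = 121 / 625 * cG ^ 2 := by ring
  rw [h1, hc2]
  have h2 : (9 / (16 * π)) ^ 2 = 81 / (256 * π ^ 2) := by
    field_simp; norm_num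
  rw [h2, div_mul_div_comm, div_le_div_iff₀ (by positivity) (by positivity)]
  nlinarith [mul_pos hpi0 hpi0, mul_pos (mul_pos hpi0 hpi0) hpi0]

private lemma tangent_aux {τ t : ℝ} (h1 : τ < 1) (h2 : t < 1) :
    1 / (1 - τ) - τ / (1 - τ) ^ 2 + t * (1 / (1 - τ) ^ 2) ≤ 1 / (1 - t) := by
  have h1t : 0 < 1 - t := by linarith
  have hτ1' : 0 < 1 - τ := by linarith
  have e1 : 1 / (1 - τ) - τ / (1 - τ) ^ 2 + t * (1 / (1 - τ) ^ 2)
      = ((1 - τ) - τ + t) / (1 - τ) ^ 2 := by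
    field_simp
  rw [e1, div_le_div_iff₀ (by positivity) h1t]
  nlinarith [sq_nonneg (t - τ)]

private lemma quad_max (c1 c2 t : ℝ) (hc2 : 0 < c2) : c1 * t - c2 * t ^ 2 ≤ c1 ^ 2 / (4 * c2) := by
  rw [le_div_iff₀ (by positivity)]
  nlinarith [sq_nonneg (c1 - 2 * c2 * t)]

/-- If the cell has measure at most `a₀` then its norm is smaller than `s₀`. The number `L` is a
lower bound of `1 / t0`, `τ` the tangency point for `1 / (1 - t)`. -/
theorem node_cert {S : Finset ℕ} {u : ℕ → E} (h : Crit S u) (hk : 5 ≤ S.card)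
    (hP : PB E (S.card - 1)) {m : ℕ} (hm : m ∈ S) {A B μa μm a₀ s₀ τ L : ℝ}
    (hc : Cert (5 / 4) A B μa μm) (hs₀ : 0 < s₀) (hA : A ≤ 0) (hBA : A ≤ B) (hμa : 0 ≤ μa)
    (hAB : A + (B - A) / 5 ≤ 0) (hτ0 : 0 ≤ τ) (hτ1 : τ < 1) (hL0 : 0 ≤ L) (hL : L ≤ 1 / t0)
    (hW : μa * a₀ + μm + s₀ * (A + (B - A) / 5) ≤ 11 / 25)
    (hB' : 0 < s₀ * (B - A))
    (hcheck : 2 * (μa * a₀ + μm + s₀ * A) - s₀ * L * (μa * a₀ + μm + s₀ * A) ^ 2
        - s₀ * (1 / (1 - τ) - τ / (1 - τ) ^ 2)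
      + (2 * (s₀ * (B - A)) - 2 * s₀ * L * (μa * a₀ + μm + s₀ * A) * (s₀ * (B - A))
          - s₀ / (1 - τ) ^ 2) ^ 2 / (4 * (s₀ * L * (s₀ * (B - A)) ^ 2)) < 0)
    (hL1 : 0 < s₀ * L * (s₀ * (B - A)) ^ 2) :
    area S u m ≤ a₀ → ‖u m‖ < s₀ := by
  intro harea
  by_contra hlt
  push Not at hlt
  have hs_pos : 0 < ‖u m‖ := lt_of_lt_of_le hs₀ hlt
  have hne : (S.erase m).Nonempty := by
    rw [← Finset.card_pos, Finset.card_erase_of_mem hm]; omega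
  have hcell := cell_bound h hk hm hne hc
  -- the number of cells
  have hn5 : (5 : ℝ) ≤ S.card := by exact_mod_cast hk
  have hn0 : (0 : ℝ) < S.card := by linarith
  obtain ⟨t, ht⟩ : ∃ t : ℝ, t = 1 / (S.card : ℝ) := ⟨_, rfl⟩
  have ht0 : 0 < t := by rw [ht]; positivity
  have ht5 : t ≤ 1 / 5 := by
    rw [ht]
    exact one_div_le_one_div_of_le (by norm_num) hn5
  have ht1 : t < 1 := by linarith
  have e : (A * ((S.card : ℝ) - 1) + B) / S.card = A + (B - A) * t := by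
    rw [ht]; field_simp; ring
  rw [e] at hcell
  have hBA' : 0 ≤ B - A := by linarith
  have hC : A + (B - A) * t ≤ 0 := by
    have : (B - A) * t ≤ (B - A) * (1 / 5) := mul_le_mul_of_nonneg_left ht5 hBA'
    linarith
  obtain ⟨W, hWdef⟩ : ∃ W : ℝ, W = μa * a₀ + μm + s₀ * (A + (B - A) * t) := ⟨_, rfl⟩
  have hΔ : Delta S u m hne ≤ ‖u m‖ * W := by
    refine hcell.trans ?_
    apply mul_le_mul_of_nonneg_left _ hs_pos.le
    have h1 : μa * area S u m ≤ μa * a₀ := mul_le_mul_of_nonneg_left harea hμa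
    have h2 : ‖u m‖ * (A + (B - A) * t) ≤ s₀ * (A + (B - A) * t) :=
      mul_le_mul_of_nonpos_right hlt hC
    rw [hWdef]
    linarith
  have hWle : W ≤ 11 / 25 := by
    have h1 : s₀ * ((B - A) * t) ≤ s₀ * ((B - A) * (1 / 5)) :=
      mul_le_mul_of_nonneg_left (mul_le_mul_of_nonneg_left ht5 hBA') hs₀.le
    rw [hWdef]
    have h2 : s₀ * (A + (B - A) * t) = s₀ * A + s₀ * ((B - A) * t) := by ring
    have h3 : s₀ * (A + (B - A) / 5) = s₀ * A + s₀ * ((B - A) * (1 / 5)) := by ring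
    rw [h2]
    rw [h3] at hW
    linarith
  have hscG : ‖u m‖ ≤ cG := by
    have h1 := iso_tangent h hm (le_refl (0 : ℝ))
    have h2 : phi 0 = cG := by simp [phi]
    rw [h2] at h1
    linarith
  have hΔ0 : 0 ≤ Delta S u m hne := integral_nonneg fun x => le_max_right _ _
  have hW0 : 0 ≤ W := by
    by_contra hneg
    push Not at hneg
    have := mul_neg_of_pos_of_neg hs_pos hneg
    linarith
  have hD : ‖u m‖ * W ≤ t0 / 2 := by
    have h1 : ‖u m‖ * W ≤ cG * (11 / 25) :=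
      mul_le_mul hscG hWle hW0 cG_pos.le
    exact h1.trans cG_mul_le
  -- removal of the cell
  obtain ⟨k, hk'⟩ : ∃ k, S.card = k + 1 := ⟨S.card - 1, by omega⟩
  have hPk : PB E k := by
    have : S.card - 1 = k := by omega
    rwa [this] at hP
  have hk1 : 1 ≤ k := by omega
  have hrem := removal_cell hPk h hk' hk1 hm hne hΔ hD
  -- rewrite in terms of `t`
  have hkr : ((k : ℝ) + 1) = S.card := by rw [hk']; push_cast; ring
  have hk0 : (0 : ℝ) < k := by exact_mod_cast hk1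
  have ht_eq : ((k : ℝ) + 1) / k = 1 / (1 - t) := by
    have e1 : 1 - t = (k : ℝ) / ((k : ℝ) + 1) := by
      rw [ht, ← hkr]
      field_simp
      ring
    rw [e1]
    field_simp
  rw [ht_eq] at hrem
  have ht0' : (0 : ℝ) < t0 := by
    unfold t0; positivity
  have h1t : 0 < 1 - t := by linarith
  -- divide by the norm
  have hdiv : ‖u m‖ * (1 / (1 - t)) ≤ 2 * W - ‖u m‖ * W ^ 2 * (1 / t0) := by
    have h2 : ‖u m‖ * (‖u m‖ * (1 / (1 - t))) ≤ ‖u m‖ * (2 * W - ‖u m‖ * W ^ 2 * (1 / t0)) := by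
      have e1 : ‖u m‖ * (‖u m‖ * (1 / (1 - t))) = 1 / (1 - t) * ‖u m‖ ^ 2 := by ring
      have e2 : ‖u m‖ * (2 * W - ‖u m‖ * W ^ 2 * (1 / t0))
          = 2 * (‖u m‖ * W) - (‖u m‖ * W) ^ 2 / t0 := by
        field_simp
      rw [e1, e2]
      exact hrem
    exact le_of_mul_le_mul_left h2 hs_pos
  -- the estimate in `s₀`
  have h3 : s₀ * (1 / (1 - t)) ≤ ‖u m‖ * (1 / (1 - t)) :=
    mul_le_mul_of_nonneg_right hlt (by positivity)
  have h4 : s₀ * L * W ^ 2 ≤ ‖u m‖ * W ^ 2 * (1 / t0) := by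
    have h5 : s₀ * W ^ 2 ≤ ‖u m‖ * W ^ 2 :=
      mul_le_mul_of_nonneg_right hlt (by positivity)
    calc s₀ * L * W ^ 2 = (s₀ * W ^ 2) * L := by ring
      _ ≤ (‖u m‖ * W ^ 2) * L := mul_le_mul_of_nonneg_right h5 hL0
      _ ≤ (‖u m‖ * W ^ 2) * (1 / t0) :=
        mul_le_mul_of_nonneg_left hL (by positivity)
  -- the tangent line of `1 / (1 - t)`
  have hτ1' : 0 < 1 - τ := by linarith
  have htan := tangent_aux hτ1 ht1
  have h6 : s₀ * (1 / (1 - τ) - τ / (1 - τ) ^ 2 + t * (1 / (1 - τ) ^ 2)) ≤ s₀ * (1 / (1 - t)) :=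
    mul_le_mul_of_nonneg_left htan hs₀.le
  -- the quadratic in `t`
  obtain ⟨W0, hW0def⟩ : ∃ W0 : ℝ, W0 = μa * a₀ + μm + s₀ * A := ⟨_, rfl⟩
  obtain ⟨W1, hW1def⟩ : ∃ W1 : ℝ, W1 = s₀ * (B - A) := ⟨_, rfl⟩
  have hWsplit : W = W0 + W1 * t := by
    rw [hWdef, hW0def, hW1def]; ring
  rw [← hW0def, ← hW1def] at hcheck
  rw [← hW1def] at hL1
  obtain ⟨c0, hc0⟩ : ∃ c0 : ℝ, c0 = 2 * W0 - s₀ * L * W0 ^ 2
      - s₀ * (1 / (1 - τ) - τ / (1 - τ) ^ 2) := ⟨_, rfl⟩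
  obtain ⟨c1, hc1⟩ : ∃ c1 : ℝ, c1 = 2 * W1 - 2 * s₀ * L * W0 * W1 - s₀ / (1 - τ) ^ 2 := ⟨_, rfl⟩
  obtain ⟨c2, hc2⟩ : ∃ c2 : ℝ, c2 = s₀ * L * W1 ^ 2 := ⟨_, rfl⟩
  rw [← hc0, ← hc1, ← hc2] at hcheck
  rw [← hc2] at hL1
  have hQ : 0 ≤ c0 + c1 * t - c2 * t ^ 2 := by
    have e1 : c0 + c1 * t - c2 * t ^ 2 = 2 * W - s₀ * L * W ^ 2
        - s₀ * (1 / (1 - τ) - τ / (1 - τ) ^ 2 + t * (1 / (1 - τ) ^ 2)) := by
      rw [hc0, hc1, hc2, hWsplit]
      field_simp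
      ring
    rw [e1]
    linarith
  -- maximum of the quadratic
  have hmax := quad_max c1 c2 t hL1
  linarith

/-- Isoperimetric node. -/
theorem node_iso {S : Finset ℕ} {u : ℕ → E} (h : Crit S u) {m : ℕ} (hm : m ∈ S)
    {y ph ql a₀ X : ℝ} (hy : 0 ≤ y) (hph : phi y ≤ ph) (hql : ql ≤ Qf y)
    (hB : 0 ≤ ph + y * (a₀ - ql)) (hX : (ph + y * (a₀ - ql)) ^ 2 ≤ X) :
    area S u m ≤ a₀ → ‖u m‖ ^ 2 ≤ X := by
  intro harea
  have h1 := iso_tangent h hm hy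
  have h2 : y * (area S u m - Qf y) ≤ y * (a₀ - ql) :=
    mul_le_mul_of_nonneg_left (by linarith) hy
  have h3 : ‖u m‖ ≤ ph + y * (a₀ - ql) := by linarith
  have h4 : ‖u m‖ ^ 2 ≤ (ph + y * (a₀ - ql)) ^ 2 :=
    pow_le_pow_left₀ (norm_nonneg _) h3 2
  linarith

end Vale.Agent.Lib.P226
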