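import Vale.Agent.Lib.P226.X.Stein

/-!
Numerical certificates for `Gf`: the analytic layer.  The bound `Gf κ u sl ≤ sl P(u,X) + κ phi X`,
reduction of `Cert` to the function `Hf`, convexity in the slope, second order bound on a cell and
polynomial enclosures of `exp (-y)` and of the Gaussian tail.
-/

open MeasureTheory Real Set Filter Topology

namespace Vale.Agent.Lib.P226

/-! ### Exact integrals -/

lemma integrable_id_phi : Integrable (fun g : ℝ => g * phi g) := by
  refine (integrable_mul_gauss.const_mul cG).congr (Eventually.of_forall fun g => ?_)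
  simp only [phi]; ring

lemma integral_Ioi_id_phi (u : ℝ) : ∫ g in Ioi u, g * phi g = phi u := by
  have h : ∀ g : ℝ, g * phi g = cG * (g * rexp (-(g ^ 2 / 2))) := by
    intro g; simp only [phi]; ring
  simp_rw [h]
  rw [integral_const_mul, integral_Ioi_mul_gauss]
  rfl

lemma hasDerivAt_phi_N (u : ℝ) : HasDerivAt phi (-(u * phi u)) u := by
  have h1 : HasDerivAt (fun y : ℝ => -(y ^ 2 / 2)) (-u) u := by
    have := (hp 1 2 u).neg
    refine this.congr_deriv ?_
    push_cast
    ring
  have h2 := (h1.exp).const_mul cG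
  refine h2.congr_deriv ?_
  simp only [phi]; ring

/-- `P(u,X) = ∫_u^X (g-u) phi g dg`. -/
noncomputable def Pf (u X : ℝ) : ℝ := phi u - phi X - u * (Qf u - Qf X)

lemma integral_Ioc_phi {u X : ℝ} (h : u ≤ X) : ∫ g in Ioc u X, phi g = Qf u - Qf X := by
  have h1 := intervalIntegral.integral_Ioi_sub_Ioi' (f := phi) (a := u) (b := X) (μ := volume)
    integrable_phi.integrableOn integrable_phi.integrableOn
  rw [intervalIntegral.integral_of_le h] at h1
  unfold Qf
  linarith

lemma integral_Ioc_id_phi {u X : ℝ} (h : u ≤ X) : ∫ g in Ioc u X, g * phi g = phi u - phi X := by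
  have h1 := intervalIntegral.integral_Ioi_sub_Ioi' (f := fun g : ℝ => g * phi g) (a := u) (b := X)
    (μ := volume) integrable_id_phi.integrableOn integrable_id_phi.integrableOn
  rw [intervalIntegral.integral_of_le h, integral_Ioi_id_phi, integral_Ioi_id_phi] at h1
  linarith

lemma integral_Ioc_sub_phi {u X : ℝ} (h : u ≤ X) :
    ∫ g in Ioc u X, (g - u) * phi g = Pf u X := by
  have e : ∀ g : ℝ, (g - u) * phi g = g * phi g - u * phi g := by intro g; ring
  simp_rw [e]
  rw [integral_sub integrable_id_phi.integrableOn (integrable_phi.integrableOn.const_mul _),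
    integral_const_mul, integral_Ioc_id_phi h, integral_Ioc_phi h]
  rfl

lemma Pf_nonneg {u X : ℝ} (h : u ≤ X) : 0 ≤ Pf u X := by
  rw [← integral_Ioc_sub_phi h]
  refine setIntegral_nonneg measurableSet_Ioc fun g hg => ?_
  have := phi_nonneg g
  have h2 : 0 ≤ g - u := by linarith [hg.1]
  positivity

lemma Gf_le {κ u sl X : ℝ} (hu : 0 ≤ u) (hκ : 0 ≤ κ) (hsl : 0 ≤ sl) (h : u ≤ X) :
    Gf κ u sl ≤ sl * Pf u X + κ * phi X := by
  set F : ℝ → ℝ := fun g => min (sl * (g - u)) (κ * g) * phi g with hF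
  have hcont : Continuous F := by
    have := continuous_phi
    simp only [hF]
    fun_prop
  have hI : IntegrableOn F (Ioi u) := by
    refine Integrable.mono' ((integrable_id_phi.const_mul κ).integrableOn) hcont.aestronglyMeasurable
      (ae_restrict_of_forall_mem measurableSet_Ioi fun g hg => ?_)
    have hg' : u < g := hg
    have hp := phi_nonneg g
    have ha : 0 ≤ sl * (g - u) := mul_nonneg hsl (by linarith)
    have hb : 0 ≤ κ * g := mul_nonneg hκ (by linarith)
    have hm : 0 ≤ min (sl * (g - u)) (κ * g) := le_min ha hb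
    have : ‖F g‖ = min (sl * (g - u)) (κ * g) * phi g := by
      simp only [hF]
      rw [Real.norm_of_nonneg (mul_nonneg hm hp)]
    rw [this]
    have h2 : min (sl * (g - u)) (κ * g) ≤ κ * g := min_le_right _ _
    calc min (sl * (g - u)) (κ * g) * phi g ≤ κ * g * phi g := by gcongr
      _ = κ * (g * phi g) := by ring
  have hsplit : Ioi u = Ioc u X ∪ Ioi X := (Ioc_union_Ioi_eq_Ioi h).symm
  have hdisj : Disjoint (Ioc u X) (Ioi X) := by
    rw [Set.disjoint_left]
    intro a ha hb
    exact absurd ha.2 (not_le.mpr hb)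
  have h1 : Gf κ u sl = (∫ g in Ioc u X, F g) + ∫ g in Ioi X, F g := by
    unfold Gf
    rw [hsplit]
    exact setIntegral_union hdisj measurableSet_Ioi
      (hI.mono_set (by rw [hsplit]; exact subset_union_left))
      (hI.mono_set (by rw [hsplit]; exact subset_union_right))
  have h2 : ∫ g in Ioc u X, F g ≤ sl * Pf u X := by
    rw [← integral_Ioc_sub_phi h, ← integral_const_mul]
    refine setIntegral_mono_on (hI.mono_set (by rw [hsplit]; exact subset_union_left))
      ((integrable_id_phi.integrableOn.sub (integrable_phi.integrableOn.const_mul u)).congr ?_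
        |>.const_mul sl) measurableSet_Ioc ?_
    · refine Eventually.of_forall fun g => ?_
      simp only [Pi.sub_apply]; ring
    · intro g _
      simp only [hF]
      have := phi_nonneg g
      calc min (sl * (g - u)) (κ * g) * phi g ≤ (sl * (g - u)) * phi g := by
            gcongr; exact min_le_left _ _
        _ = sl * ((g - u) * phi g) := by ring
  have h3 : ∫ g in Ioi X, F g ≤ κ * phi X := by
    rw [← integral_Ioi_id_phi X, ← integral_const_mul]
    refine setIntegral_mono_on (hI.mono_set (by rw [hsplit]; exact subset_union_right))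
      (integrable_id_phi.integrableOn.const_mul κ) measurableSet_Ioi ?_
    intro g _
    simp only [hF]
    have := phi_nonneg g
    calc min (sl * (g - u)) (κ * g) * phi g ≤ (κ * g) * phi g := by
          gcongr; exact min_le_right _ _
      _ = κ * (g * phi g) := by ring
  linarith

/-! ### The function `Hf` -/

/-- The function to be bounded: `sl * (bound on Gf) - sl * (right side of Cert)`. -/
noncomputable def Hf (κ A B μa μm s X u : ℝ) : ℝ :=
  s ^ 2 * Pf u X + s * (κ * phi X - μa * Qf u - μm) - (A + B * (s - 1)) * phi u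

theorem cert_of_Hf {κ A B μa μm : ℝ} (hκ : 0 ≤ κ)
    (H : ∀ u : ℝ, 0 ≤ u → ∀ s : ℝ, 1 ≤ s → s ≤ 2 → ∃ X : ℝ, u ≤ X ∧ Hf κ A B μa μm s X u ≤ 0) :
    Cert κ A B μa μm := by
  intro u hu s hs1 hs2
  obtain ⟨X, hX, hH⟩ := H u hu s hs1 hs2
  have hs0 : 0 < s := by linarith
  have h1 := Gf_le hu hκ hs0.le hX
  have e : μa * Qf u + μm + (A + B * (s - 1)) / s * phi u
      = (s * (μa * Qf u + μm) + (A + B * (s - 1)) * phi u) / s := by
    field_simp
  rw [e, le_div_iff₀ hs0]
  unfold Hf at hH
  nlinarith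

lemma Hf_chord {κ A B μa μm s₁ s₂ s X u : ℝ} (hX : u ≤ X) (h1 : s₁ ≤ s) (h2 : s ≤ s₂)
    (H1 : Hf κ A B μa μm s₁ X u ≤ 0) (H2 : Hf κ A B μa μm s₂ X u ≤ 0) :
    Hf κ A B μa μm s X u ≤ 0 := by
  have hP := Pf_nonneg hX
  rcases eq_or_lt_of_le (h1.trans h2) with h | h
  · have : s = s₁ := le_antisymm (h ▸ h2) h1
    rw [this]; exact H1
  · have hd : 0 < s₂ - s₁ := by linarith
    have key : (s₂ - s₁) * Hf κ A B μa μm s X u
        = (s₂ - s) * Hf κ A B μa μm s₁ X u + (s - s₁) * Hf κ A B μa μm s₂ X u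
          - (s₂ - s₁) * (Pf u X * ((s - s₁) * (s₂ - s))) := by
      unfold Hf
      ring
    have h3 : 0 ≤ (s₂ - s₁) * (Pf u X * ((s - s₁) * (s₂ - s))) := by
      have a1 : 0 ≤ s - s₁ := by linarith
      have a2 : 0 ≤ s₂ - s := by linarith
      positivity
    have h4 : (s₂ - s) * Hf κ A B μa μm s₁ X u ≤ 0 :=
      mul_nonpos_of_nonneg_of_nonpos (by linarith) H1
    have h5 : (s - s₁) * Hf κ A B μa μm s₂ X u ≤ 0 :=
      mul_nonpos_of_nonneg_of_nonpos (by linarith) H2
    have h6 : (s₂ - s₁) * Hf κ A B μa μm s X u ≤ 0 := by rw [key]; linarith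
    by_contra hc
    push Not at hc
    have := mul_pos hd hc
    linarith

/-! ### Second order bound -/

theorem second_order_bound {f f' f'' : ℝ → ℝ} {p q M : ℝ} (hM : 0 ≤ M)
    (h1 : ∀ x, HasDerivAt f (f' x) x) (h2 : ∀ x, HasDerivAt f' (f'' x) x)
    (hb : ∀ x ∈ Icc p q, -M ≤ f'' x) {u : ℝ} (hu : u ∈ Icc p q) :
    f u ≤ max (f p) (f q) + M * (q - p) ^ 2 / 8 := by
  have hpq : p ≤ q := hu.1.trans hu.2
  set g : ℝ → ℝ := fun x => f x + M / 2 * ((x - p) * (x - q)) with hg
  set g' : ℝ → ℝ := fun x => f' x + M / 2 * ((x - q) + (x - p)) with hg'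
  set g'' : ℝ → ℝ := fun x => f'' x + M with hg''
  have d1 : ∀ x, HasDerivAt g (g' x) x := by
    intro x
    have a1 : HasDerivAt (fun x : ℝ => x - p) 1 x := (hasDerivAt_id' x).sub_const p
    have a2 : HasDerivAt (fun x : ℝ => x - q) 1 x := (hasDerivAt_id' x).sub_const q
    have a3 := ((a1.mul a2).const_mul (M / 2))
    have := (h1 x).add a3
    refine this.congr_deriv ?_
    simp only [hg']; ring
  have d2 : ∀ x, HasDerivAt g' (g'' x) x := by
    intro x
    have a1 : HasDerivAt (fun x : ℝ => x - p) 1 x := (hasDerivAt_id' x).sub_const p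
    have a2 : HasDerivAt (fun x : ℝ => x - q) 1 x := (hasDerivAt_id' x).sub_const q
    have a3 := ((a2.add a1).const_mul (M / 2))
    have := (h2 x).add a3
    refine this.congr_deriv ?_
    simp only [hg'']; ring
  have hconv : ConvexOn ℝ (Icc p q) g := by
    refine convexOn_of_hasDerivWithinAt2_nonneg (convex_Icc p q) (f' := g') (f'' := g'') ?_ ?_ ?_ ?_
    · exact fun x _ => (d1 x).continuousAt.continuousWithinAt
    · exact fun x _ => (d1 x).hasDerivWithinAt
    · exact fun x _ => (d2 x).hasDerivWithinAt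
    · intro x hx
      have hx' : x ∈ Icc p q := interior_subset hx
      have := hb x hx'
      simp only [hg'']; linarith
  have hg_le : g u ≤ max (g p) (g q) :=
    hconv.le_max_of_mem_Icc (left_mem_Icc.mpr hpq) (right_mem_Icc.mpr hpq) hu
  have e1 : g p = f p := by simp [hg]
  have e2 : g q = f q := by simp [hg]
  rw [e1, e2] at hg_le
  have e3 : f u = g u + M / 2 * ((u - p) * (q - u)) := by simp only [hg]; ring
  have e4 : (u - p) * (q - u) ≤ (q - p) ^ 2 / 4 := by nlinarith [sq_nonneg ((u - p) - (q - u))]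
  have e5 : M / 2 * ((u - p) * (q - u)) ≤ M / 2 * ((q - p) ^ 2 / 4) := by gcongr
  rw [e3]
  have : M / 2 * ((q - p) ^ 2 / 4) = M * (q - p) ^ 2 / 8 := by ring
  linarith

/-- The bound for `Hf` on a cell, in terms of its values at the ends and a curvature bound. -/
theorem Hf_cell {κ A B μa μm s X p q B₀ : ℝ} (hB₀ : 0 ≤ B₀) (hp : 0 ≤ p)
    (hbr : ∀ x ∈ Icc p q, -B₀ ≤ (s ^ 2 - A - B * (s - 1)) * (x ^ 2 - 1) + (-(s * μa)) * x
        + (-s ^ 2) * (x ^ 2 - 2))
    {u : ℝ} (hu : u ∈ Icc p q) :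
    Hf κ A B μa μm s X u ≤ max (Hf κ A B μa μm s X p) (Hf κ A B μa μm s X q)
      + (phi p * B₀) * (q - p) ^ 2 / 8 := by
  set c1 := s ^ 2 - A - B * (s - 1) with hc1
  set c2 := -(s * μa) with hc2
  set c3 := -s ^ 2 with hc3
  have hf : (fun u => Hf κ A B μa μm s X u) = fun u =>
      c1 * phi u + c2 * Qf u + c3 * (u * Qf u) + (s ^ 2 * Qf X) * u
        + (-(s ^ 2 * phi X) + s * (κ * phi X - μm)) := by
    funext u
    simp only [Hf, Pf, hc1, hc2, hc3]
    ring
  have d1 : ∀ x, HasDerivAt (fun u => Hf κ A B μa μm s X u)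
      (c1 * (-(x * phi x)) + c2 * (-phi x) + c3 * (Qf x + x * (-phi x)) + s ^ 2 * Qf X) x := by
    intro x
    rw [hf]
    have a1 := (hasDerivAt_phi_N x).const_mul c1
    have a2 := (hasDerivAt_Qf x).const_mul c2
    have a3 := ((hasDerivAt_id' x).mul (hasDerivAt_Qf x)).const_mul c3
    have a4 := (hasDerivAt_id' x).const_mul (s ^ 2 * Qf X)
    have := ((((a1.add a2).add a3).add a4).add_const (-(s ^ 2 * phi X) + s * (κ * phi X - μm)))
    refine this.congr_deriv ?_
    ring
  have d2 : ∀ x, HasDerivAt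
      (fun x => c1 * (-(x * phi x)) + c2 * (-phi x) + c3 * (Qf x + x * (-phi x)) + s ^ 2 * Qf X)
      (phi x * (c1 * (x ^ 2 - 1) + c2 * x + c3 * (x ^ 2 - 2))) x := by
    intro x
    have a0 := (hasDerivAt_id' x).mul (hasDerivAt_phi_N x)
    have a1 := a0.neg.const_mul c1
    have a2 := (hasDerivAt_phi_N x).neg.const_mul c2
    have a3 := ((hasDerivAt_Qf x).add ((hasDerivAt_id' x).mul (hasDerivAt_phi_N x).neg)).const_mul c3
    have := (((a1.add a2).add a3).add_const (s ^ 2 * Qf X))
    refine this.congr_deriv ?_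
    simp only [Pi.neg_apply]
    ring
  have hMnn : 0 ≤ phi p * B₀ := mul_nonneg (phi_nonneg p) hB₀
  refine second_order_bound hMnn d1 d2 ?_ hu
  intro x hx
  have hbx := hbr x hx
  have hφ : phi x ≤ phi p := by
    unfold phi
    have : rexp (-(x ^ 2 / 2)) ≤ rexp (-(p ^ 2 / 2)) := by
      apply exp_le_exp.mpr
      have hx0 : p ≤ x := hx.1
      nlinarith
    have := cG_pos
    gcongr
  have hφ0 := phi_nonneg x
  have : -(phi p * B₀) ≤ -(phi x * B₀) := by
    have := mul_le_mul_of_nonneg_right hφ hB₀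
    linarith
  have h3 : phi x * (-B₀) ≤ phi x * (c1 * (x ^ 2 - 1) + c2 * x + c3 * (x ^ 2 - 2)) :=
    mul_le_mul_of_nonneg_left hbx hφ0
  linarith

/-! ### Polynomial enclosures of `exp (-y)` -/

/-- Alternating Taylor polynomial `∑_{k ≤ n} (-y)^k / k!`. -/
noncomputable def Tn : ℕ → ℝ → ℝ
  | 0, _ => 1
  | n + 1, y => Tn n y + (-y) ^ (n + 1) / (n + 1).factorial

lemma hasDerivAt_Tn (n : ℕ) (y : ℝ) : HasDerivAt (Tn (n + 1)) (-Tn n y) y := by
  induction n with
  | zero =>
    have h : Tn 1 = fun y : ℝ => 1 + (-y) ^ 1 / ((1 : ℕ).factorial : ℝ) := by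
      funext z; simp [Tn]
    rw [h]
    have : HasDerivAt (fun y : ℝ => 1 - y) (-1) y := hone y
    refine (this.congr_of_eventuallyEq (Eventually.of_forall fun z => ?_)).congr_deriv ?_
    · simp; ring
    · simp [Tn]
  | succ n ih =>
    have h : Tn (n + 1 + 1) = fun y => Tn (n + 1) y + (-y) ^ (n + 1 + 1) / (n + 1 + 1).factorial := by
      funext z; simp [Tn]
    rw [h]
    have a1 : HasDerivAt (fun y : ℝ => (-y) ^ (n + 1 + 1) / ((n + 1 + 1).factorial : ℝ))
        (-((-y) ^ (n + 1) / ((n + 1).factorial : ℝ))) y := by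
      have b := (((hasDerivAt_id' y).neg).pow (n + 1 + 1)).div_const (((n + 1 + 1).factorial : ℝ))
      refine b.congr_deriv ?_
      have hf : (((n + 1 + 1).factorial : ℕ) : ℝ) = ((n + 1 + 1 : ℕ) : ℝ) * ((n + 1).factorial : ℝ) := by
        rw [Nat.factorial_succ (n + 1)]; push_cast; ring
      have hne : (((n + 1).factorial : ℕ) : ℝ) ≠ 0 := by positivity
      have hne2 : ((n + 1 + 1 : ℕ) : ℝ) ≠ 0 := by positivity
      rw [hf]
      simp only [Nat.add_sub_cancel, Pi.neg_apply]
      field_simp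
    have := ih.add a1
    refine this.congr_deriv ?_
    simp only [Tn]
    ring

lemma Tn_zero_right (n : ℕ) : Tn n 0 = 1 := by
  induction n with
  | zero => rfl
  | succ n ih => simp [Tn, ih]

/-- Alternating enclosure of `exp (-y)`, for `y ≥ 0`. -/
theorem exp_neg_Tn (n : ℕ) {y : ℝ} (hy : 0 ≤ y) :
    Tn (2 * n + 1) y ≤ rexp (-y) ∧ rexp (-y) ≤ Tn (2 * n) y := by
  induction n generalizing y with
  | zero =>
    refine ⟨?_, ?_⟩
    · have := Real.one_sub_le_exp_neg y
      simpa [Tn] using (by linarith : 1 + -y ≤ rexp (-y))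
    · simpa [Tn] using exp_le_one_iff.mpr (by linarith : -y ≤ 0)
  | succ n ih =>
    have h2 : ∀ z, 0 ≤ z → rexp (-z) ≤ Tn (2 * (n + 1)) z := by
      intro z hz
      have key := nonneg_of_hasDerivAt (f := fun a => Tn (2 * n + 1 + 1) a - rexp (-a))
        (f' := fun a => -Tn (2 * n + 1) a + rexp (-a)) (by
          intro x
          have := (hasDerivAt_Tn (2 * n + 1) x).sub (hasDerivAt_exp_neg x)
          refine this.congr_deriv ?_
          ring) (by simp [Tn_zero_right]) (by
          intro x hx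
          have := (ih hx).1
          linarith) z hz
      have e : 2 * (n + 1) = 2 * n + 1 + 1 := by ring
      rw [e]
      linarith
    have h1 : Tn (2 * (n + 1) + 1) y ≤ rexp (-y) := by
      have key := nonneg_of_hasDerivAt (f := fun a => rexp (-a) - Tn (2 * (n + 1) + 1) a)
        (f' := fun a => -rexp (-a) + Tn (2 * (n + 1)) a) (by
          intro x
          have := (hasDerivAt_exp_neg x).sub (hasDerivAt_Tn (2 * (n + 1)) x)
          refine this.congr_deriv ?_
          ring) (by simp [Tn_zero_right]) (by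
          intro x hx
          have := h2 x hx
          linarith) y hy
      linarith
    exact ⟨h1, h2 y hy⟩

/-- Primitive of `x ↦ Tn n (x²/2)`. -/
noncomputable def Sn : ℕ → ℝ → ℝ
  | 0, x => x
  | n + 1, x => Sn n x + (-1) ^ (n + 1) * x ^ (2 * n + 3) /
      ((2 : ℝ) ^ (n + 1) * (n + 1).factorial * (2 * n + 3))

lemma hasDerivAt_Sn (n : ℕ) (x : ℝ) : HasDerivAt (Sn n) (Tn n (x ^ 2 / 2)) x := by
  induction n with
  | zero =>
    have h : Sn 0 = fun x => x := rfl
    rw [h]
    simpa [Tn] using hasDerivAt_id' x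
  | succ n ih =>
    have h : Sn (n + 1) = fun x => Sn n x + (-1) ^ (n + 1) * x ^ (2 * n + 3) /
        ((2 : ℝ) ^ (n + 1) * (n + 1).factorial * (2 * n + 3)) := by
      funext z; simp [Sn]
    rw [h]
    have a := (((hasDerivAt_id' x).pow (2 * n + 3)).const_mul (((-1 : ℝ)) ^ (n + 1))).div_const
      ((2 : ℝ) ^ (n + 1) * ((n + 1).factorial : ℝ) * (2 * n + 3))
    have := ih.add a
    refine this.congr_deriv ?_
    simp only [Tn]
    congr 1
    have e1 : 2 * n + 3 - 1 = 2 * (n + 1) := by omega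
    rw [e1, neg_pow (x ^ 2 / 2), div_pow, ← pow_mul]
    have hne : ((n + 1).factorial : ℝ) ≠ 0 := by positivity
    have hne2 : (2 * (n : ℝ) + 3) ≠ 0 := by positivity
    push_cast
    field_simp

lemma Sn_zero_right (n : ℕ) : Sn n 0 = 0 := by
  induction n with
  | zero => rfl
  | succ n ih => simp [Sn, ih]

/-- Two-sided polynomial bound of `∫_0^x exp(-g²/2) dg`, for `x ≥ 0`. -/
theorem integral_gauss_Sn (n : ℕ) {x : ℝ} (hx : 0 ≤ x) :
    Sn (2 * n + 1) x ≤ ∫ g in (0 : ℝ)..x, rexp (-(g ^ 2 / 2)) ∧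
      ∫ g in (0 : ℝ)..x, rexp (-(g ^ 2 / 2)) ≤ Sn (2 * n) x := by
  have hc : ∀ m : ℕ, Continuous (fun g : ℝ => Tn m (g ^ 2 / 2)) := by
    intro m
    induction m with
    | zero => simpa [Tn] using continuous_const
    | succ m ih =>
      simp only [Tn]
      exact ih.add (by fun_prop)
  have hI : ∀ m : ℕ, ∫ g in (0 : ℝ)..x, Tn m (g ^ 2 / 2) = Sn m x := by
    intro m
    have := intervalIntegral.integral_eq_sub_of_hasDerivAt (a := 0) (b := x)
      (fun y _ => hasDerivAt_Sn m y) ((hc m).intervalIntegrable _ _)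
    rw [this, Sn_zero_right, sub_zero]
  constructor
  · rw [← hI]
    exact intervalIntegral.integral_mono_on hx ((hc _).intervalIntegrable _ _)
      (continuous_gauss.intervalIntegrable _ _)
      (fun g _ => (exp_neg_Tn n (by positivity)).1)
  · rw [← hI]
    exact intervalIntegral.integral_mono_on hx (continuous_gauss.intervalIntegrable _ _)
      ((hc _).intervalIntegrable _ _)
      (fun g _ => (exp_neg_Tn n (by positivity)).2)

lemma Qf_zero_N : Qf 0 = 1 / 2 := by
  have h1 : ∀ g : ℝ, phi g = cG * rexp (-(g ^ 2 / 2)) := fun _ => rfl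
  unfold Qf
  simp_rw [h1]
  rw [integral_const_mul, integral_Ioi_gauss 0 le_rfl]
  simp only [intervalIntegral.integral_same, sub_zero]
  have := cG_mul_sqrt
  linear_combination (1 / 2) * this

lemma Qf_eq_half (u : ℝ) : Qf u = 1 / 2 - cG * ∫ g in (0 : ℝ)..u, rexp (-(g ^ 2 / 2)) := by
  rw [Qf_eq u, Qf_zero_N]
  congr 1
  have h1 : ∀ g : ℝ, phi g = cG * rexp (-(g ^ 2 / 2)) := fun _ => rfl
  simp_rw [h1]
  rw [intervalIntegral.integral_const_mul]

end Vale.Agent.Lib.P226
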