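import Vale.Agent.Lib.P226.X.NumCertA

/-!
Numerical certificates for `Gf`: a checker over the rationals, with its soundness proof.
-/

open MeasureTheory Real Set Filter Topology

namespace Vale.Agent.Lib.P226

/-! ### Rational bounds for `cG` -/

/-- Lower bound for `cG`. -/
def cGl : ℚ := 398942280401432 / 1000000000000000

/-- Upper bound for `cG`. -/
def cGh : ℚ := 398942280401433 / 1000000000000000

lemma cGl_le : (cGl : ℝ) ≤ cG := by
  unfold cG cGl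
  have hpi := Real.pi_lt_d20
  have hs : √(2 * π) ≤ (1000000000000000 / 398942280401432 : ℝ) := by
    apply Real.sqrt_le_iff.mpr
    constructor
    · norm_num
    · norm_num at hpi ⊢
      linarith
  have hpos : (0 : ℝ) < √(2 * π) := by positivity
  have : (1000000000000000 / 398942280401432 : ℝ)⁻¹ ≤ (√(2 * π))⁻¹ := inv_anti₀ hpos hs
  norm_num at this ⊢
  linarith

lemma le_cGh : cG ≤ (cGh : ℝ) := by
  unfold cG cGh
  have hpi := Real.pi_gt_d20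
  have hs : (1000000000000000 / 398942280401433 : ℝ) ≤ √(2 * π) := by
    apply Real.le_sqrt_of_sq_le
    norm_num at hpi ⊢
    linarith
  have hpos : (0 : ℝ) < 1000000000000000 / 398942280401433 := by norm_num
  have : (√(2 * π))⁻¹ ≤ (1000000000000000 / 398942280401433 : ℝ)⁻¹ := inv_anti₀ hpos hs
  norm_num at this ⊢
  linarith

lemma cGl_nonneg : (0 : ℝ) ≤ (cGl : ℝ) := by
  unfold cGl; norm_num

/-! ### Horner evaluation of the enclosures -/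

/-- Horner scheme for `Tn`. -/
def goT (y : ℚ) : ℕ → ℚ → ℚ
  | 0, acc => acc
  | k + 1, acc => goT y k (1 - y * acc / ((k : ℚ) + 1))

/-- Horner scheme for `Sn`. -/
def goS (y : ℚ) : ℕ → ℚ → ℚ
  | 0, acc => acc
  | k + 1, acc => goS y k (1 / (2 * (k : ℚ) + 1) - y * acc / ((k : ℚ) + 1))

lemma goT_succ (y : ℚ) (m : ℕ) (acc : ℚ) :
    ((goT y (m + 1) acc : ℚ) : ℝ) =
      Tn m y + (-(y : ℝ)) ^ (m + 1) / ((m + 1).factorial : ℝ) * acc := by
  induction m generalizing acc with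
  | zero =>
    simp only [goT, Tn]
    push_cast
    simp
    ring
  | succ m ih =>
    rw [goT, ih]
    simp only [Tn]
    push_cast
    have h1 : (((m + 1 + 1).factorial : ℕ) : ℝ) = ((m : ℝ) + 2) * ((m + 1).factorial : ℝ) := by
      rw [Nat.factorial_succ (m + 1)]; push_cast; ring
    have hne : (((m + 1).factorial : ℕ) : ℝ) ≠ 0 := by positivity
    have hne2 : (m : ℝ) + 1 + 1 ≠ 0 := by positivity
    have hne3 : (m : ℝ) + 2 ≠ 0 := by positivity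
    rw [h1]
    field_simp
    ring

lemma goT_eq (y : ℚ) (m : ℕ) : ((goT y m 1 : ℚ) : ℝ) = Tn m y := by
  cases m with
  | zero => simp [goT, Tn]
  | succ m =>
    rw [goT_succ]
    simp only [Tn]
    push_cast
    ring

/-- Closed form of the tail of `Sn`. -/
noncomputable def Un : ℕ → ℝ → ℝ
  | 0, _ => 1
  | n + 1, y => Un n y + (-y) ^ (n + 1) / (((n + 1).factorial : ℝ) * (2 * (n : ℝ) + 3))

lemma Sn_eq_Un (n : ℕ) (x : ℝ) : Sn n x = x * Un n (x ^ 2 / 2) := by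
  induction n with
  | zero => simp [Sn, Un]
  | succ n ih =>
    simp only [Sn, Un, ih]
    have hne : ((n + 1).factorial : ℝ) ≠ 0 := by positivity
    have hne2 : (2 * (n : ℝ) + 3) ≠ 0 := by positivity
    have e : x ^ (2 * n + 3) = x * (x ^ 2) ^ (n + 1) := by
      rw [← pow_mul]; rw [show 2 * n + 3 = 1 + 2 * (n + 1) by ring, pow_add, pow_one]
    rw [e, neg_pow (x ^ 2 / 2), div_pow]
    field_simp

lemma goS_succ (y : ℚ) (m : ℕ) (acc : ℚ) :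
    ((goS y (m + 1) acc : ℚ) : ℝ) =
      Un m y + (-(y : ℝ)) ^ (m + 1) / ((m + 1).factorial : ℝ) * acc := by
  induction m generalizing acc with
  | zero =>
    simp only [goS, Un]
    push_cast
    simp
    ring
  | succ m ih =>
    rw [goS, ih]
    simp only [Un]
    push_cast
    have h1 : (((m + 1 + 1).factorial : ℕ) : ℝ) = ((m : ℝ) + 2) * ((m + 1).factorial : ℝ) := by
      rw [Nat.factorial_succ (m + 1)]; push_cast; ring
    have hne : (((m + 1).factorial : ℕ) : ℝ) ≠ 0 := by positivity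
    have hne2 : (m : ℝ) + 1 + 1 ≠ 0 := by positivity
    have hne3 : (m : ℝ) + 2 ≠ 0 := by positivity
    have hne4 : 2 * (m : ℝ) + 3 ≠ 0 := by positivity
    have hne5 : 2 * ((m : ℝ) + 1) + 1 ≠ 0 := by positivity
    rw [h1]
    field_simp
    ring

/-- The value of the Horner scheme for `Sn`. -/
def sq (x : ℚ) (n : ℕ) : ℚ := x * goS (x * x / 2) n (1 / (2 * (n : ℚ) + 1))

lemma sq_eq (x : ℚ) (n : ℕ) : ((sq x n : ℚ) : ℝ) = Sn n x := by
  rw [Sn_eq_Un]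
  unfold sq
  cases n with
  | zero => simp [goS, Un]
  | succ m =>
    push_cast
    rw [goS_succ]
    simp only [Un]
    push_cast
    have e : (x : ℝ) ^ 2 / 2 = x * x / 2 := by ring
    rw [e]
    have hne4 : 2 * (m : ℝ) + 3 ≠ 0 := by positivity
    have hne5 : 2 * ((m : ℝ) + 1) + 1 ≠ 0 := by positivity
    have hne : ((m + 1).factorial : ℝ) ≠ 0 := by positivity
    field_simp
    ring

/-! ### Table entries -/

/-- A table entry: a grid point with enclosures of `phi` and `Qf`; `n` is the order used. -/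
structure Ent where
  x : ℚ
  pl : ℚ
  ph : ℚ
  ql : ℚ
  qh : ℚ
  n : ℕ

/-- The default entry. -/
def Ent.dflt : Ent := ⟨0, 0, 1, 0, 1, 0⟩

/-- Validity of an entry. -/
def Ent.Valid (e : Ent) : Prop :=
  (0 : ℝ) ≤ e.x ∧ (e.pl : ℝ) ≤ phi e.x ∧ phi e.x ≤ e.ph ∧ (e.ql : ℝ) ≤ Qf e.x ∧ Qf e.x ≤ e.qh

/-- Kernel check of validity. -/
def Ent.ok (e : Ent) : Bool :=
  decide (0 ≤ e.x) &&
  decide (e.pl ≤ cGl * goT (e.x * e.x / 2) (2 * e.n + 1) 1) &&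
  decide (cGh * goT (e.x * e.x / 2) (2 * e.n) 1 ≤ e.ph) &&
  decide (e.ql ≤ 1 / 2 - cGh * sq e.x (2 * e.n)) &&
  decide (1 / 2 - cGl * sq e.x (2 * e.n + 1) ≤ e.qh)

theorem Ent.valid_of_ok {e : Ent} (h : e.ok = true) : e.Valid := by
  simp only [Ent.ok, Bool.and_eq_true, decide_eq_true_eq] at h
  obtain ⟨⟨⟨⟨h0, h1⟩, h2⟩, h3⟩, h4⟩ := h
  have hx : (0 : ℝ) ≤ e.x := by exact_mod_cast h0
  have hy : (0 : ℝ) ≤ (e.x : ℝ) ^ 2 / 2 := by positivity
  obtain ⟨E1, E2⟩ := exp_neg_Tn e.n hy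
  obtain ⟨I1, I2⟩ := integral_gauss_Sn e.n hx
  have hcl := cGl_le
  have hch := le_cGh
  have hcl0 := cGl_nonneg
  have hch0 : (0 : ℝ) ≤ (cGh : ℝ) := by linarith [cG_pos]
  have hexp := (Real.exp_pos (-((e.x : ℝ) ^ 2 / 2))).le
  have hI0 : 0 ≤ ∫ g in (0 : ℝ)..e.x, rexp (-(g ^ 2 / 2)) :=
    intervalIntegral.integral_nonneg hx fun g _ => (Real.exp_pos _).le
  have h1' : (e.pl : ℝ) ≤ cGl * Tn (2 * e.n + 1) ((e.x : ℝ) ^ 2 / 2) := by
    have := (Rat.cast_le (K := ℝ)).mpr h1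
    push_cast at this
    rw [goT_eq] at this
    push_cast at this
    have e2 : (e.x : ℝ) * e.x / 2 = (e.x : ℝ) ^ 2 / 2 := by ring
    rwa [e2] at this
  have h2' : (cGh : ℝ) * Tn (2 * e.n) ((e.x : ℝ) ^ 2 / 2) ≤ e.ph := by
    have := (Rat.cast_le (K := ℝ)).mpr h2
    push_cast at this
    rw [goT_eq] at this
    push_cast at this
    have e2 : (e.x : ℝ) * e.x / 2 = (e.x : ℝ) ^ 2 / 2 := by ring
    rwa [e2] at this
  have h3' : (e.ql : ℝ) ≤ 1 / 2 - cGh * Sn (2 * e.n) e.x := by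
    have := (Rat.cast_le (K := ℝ)).mpr h3
    push_cast at this
    rwa [sq_eq] at this
  have h4' : 1 / 2 - (cGl : ℝ) * Sn (2 * e.n + 1) e.x ≤ e.qh := by
    have := (Rat.cast_le (K := ℝ)).mpr h4
    push_cast at this
    rwa [sq_eq] at this
  refine ⟨hx, ?_, ?_, ?_, ?_⟩
  · unfold phi
    calc (e.pl : ℝ) ≤ cGl * Tn (2 * e.n + 1) ((e.x : ℝ) ^ 2 / 2) := h1'
      _ ≤ cGl * rexp (-((e.x : ℝ) ^ 2 / 2)) := mul_le_mul_of_nonneg_left E1 hcl0
      _ ≤ cG * rexp (-((e.x : ℝ) ^ 2 / 2)) := mul_le_mul_of_nonneg_right hcl hexp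
  · unfold phi
    calc cG * rexp (-((e.x : ℝ) ^ 2 / 2)) ≤ cGh * rexp (-((e.x : ℝ) ^ 2 / 2)) :=
          mul_le_mul_of_nonneg_right hch hexp
      _ ≤ cGh * Tn (2 * e.n) ((e.x : ℝ) ^ 2 / 2) := mul_le_mul_of_nonneg_left E2 hch0
      _ ≤ e.ph := h2'
  · rw [Qf_eq_half]
    have a1 : cG * ∫ g in (0 : ℝ)..e.x, rexp (-(g ^ 2 / 2)) ≤
        cGh * ∫ g in (0 : ℝ)..e.x, rexp (-(g ^ 2 / 2)) := mul_le_mul_of_nonneg_right hch hI0
    have a2 : (cGh : ℝ) * ∫ g in (0 : ℝ)..e.x, rexp (-(g ^ 2 / 2)) ≤ cGh * Sn (2 * e.n) e.x :=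
      mul_le_mul_of_nonneg_left I2 hch0
    linarith
  · rw [Qf_eq_half]
    have a1 : (cGl : ℝ) * ∫ g in (0 : ℝ)..e.x, rexp (-(g ^ 2 / 2)) ≤
        cG * ∫ g in (0 : ℝ)..e.x, rexp (-(g ^ 2 / 2)) := mul_le_mul_of_nonneg_right hcl hI0
    have a2 : (cGl : ℝ) * Sn (2 * e.n + 1) e.x ≤ cGl * ∫ g in (0 : ℝ)..e.x, rexp (-(g ^ 2 / 2)) :=
      mul_le_mul_of_nonneg_left I1 hcl0
    linarith

lemma Ent.dflt_valid : Ent.dflt.Valid := by
  refine ⟨by simp [Ent.dflt], by simpa [Ent.dflt] using phi_nonneg 0, ?_, ?_, ?_⟩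
  · have h1 := phi_le 0
    have h2 := cG_le
    simp only [Ent.dflt, Rat.cast_zero, Rat.cast_one]
    linarith
  · simpa [Ent.dflt] using Qf_nonneg 0
  · simpa [Ent.dflt] using Qf_le_one 0

/-! ### The upper bound of `Hf` at a table point -/

/-- Upper bound for `c * x` given `l ≤ x ≤ h`. -/
def mulUp (c l h : ℚ) : ℚ := if 0 ≤ c then c * h else c * l

lemma mul_le_mulUp {c l h : ℚ} {x : ℝ} (h1 : (l : ℝ) ≤ x) (h2 : x ≤ h) :
    (c : ℝ) * x ≤ (mulUp c l h : ℚ) := by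
  unfold mulUp
  split_ifs with hc
  · push_cast
    exact mul_le_mul_of_nonneg_left h2 (by exact_mod_cast hc)
  · push_cast
    exact mul_le_mul_of_nonpos_left h1 (by exact_mod_cast (not_le.mp hc).le)

/-- The parameters of a certificate. -/
structure Par where
  κ : ℚ
  A : ℚ
  B : ℚ
  μa : ℚ
  μm : ℚ

/-- Upper bound for `Hf`, at the table point `u` and with truncation `X`. -/
def hUp (P : Par) (s : ℚ) (X u : Ent) : ℚ :=
  mulUp (s * s - P.A - P.B * (s - 1)) u.pl u.ph + mulUp (-(s * s * u.x) - s * P.μa) u.ql u.qh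
    + mulUp (s * s * u.x) X.ql X.qh + mulUp (s * P.κ - s * s) X.pl X.ph - s * P.μm

lemma Hf_le_hUp (P : Par) (s : ℚ) {X u : Ent} (hX : X.Valid) (hu : u.Valid) :
    Hf P.κ P.A P.B P.μa P.μm s X.x u.x ≤ (hUp P s X u : ℚ) := by
  obtain ⟨-, a1, a2, a3, a4⟩ := hu
  obtain ⟨-, b1, b2, b3, b4⟩ := hX
  have h1 := mul_le_mulUp (c := s * s - P.A - P.B * (s - 1)) a1 a2
  have h2 := mul_le_mulUp (c := -(s * s * u.x) - s * P.μa) a3 a4
  have h3 := mul_le_mulUp (c := s * s * u.x) b3 b4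
  have h4 := mul_le_mulUp (c := s * P.κ - s * s) b1 b2
  unfold hUp Hf Pf
  push_cast at h1 h2 h3 h4 ⊢
  linarith

/-- Lower bound for the curvature bracket on `[p,q]`, in the form of the constant `B₀`. -/
def brB (P : Par) (s p q : ℚ) : ℚ :=
  let a2 := -P.A - P.B * (s - 1)
  let c2 := -(s * P.μa)
  let c1 := s * s - P.A - P.B * (s - 1)
  let low := min (a2 * (p * p)) (a2 * (q * q)) + min (c2 * p) (c2 * q) - c1 + 2 * (s * s)
  max 0 (-low)

lemma brB_nonneg (P : Par) (s p q : ℚ) : (0 : ℝ) ≤ (brB P s p q : ℚ) := by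
  have : (0 : ℚ) ≤ brB P s p q := le_max_left _ _
  exact_mod_cast this

lemma min_mul_le {a l h x : ℝ} (h1 : l ≤ x) (h2 : x ≤ h) : min (a * l) (a * h) ≤ a * x := by
  rcases le_total 0 a with ha | ha
  · exact (min_le_left _ _).trans (mul_le_mul_of_nonneg_left h1 ha)
  · exact (min_le_right _ _).trans (mul_le_mul_of_nonpos_left h2 ha)

lemma brB_bound (P : Par) (s p q : ℚ) (hp : (0 : ℝ) ≤ p) {x : ℝ} (hx : x ∈ Icc (p : ℝ) q) :
    -((brB P s p q : ℚ) : ℝ) ≤ ((s : ℝ) ^ 2 - P.A - P.B * (s - 1)) * (x ^ 2 - 1) + (-(s * P.μa)) * x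
        + (-(s : ℝ) ^ 2) * (x ^ 2 - 2) := by
  have h0 : (0 : ℝ) ≤ x := hp.trans hx.1
  have hsq1 : (p : ℝ) * p ≤ x ^ 2 := by nlinarith [hx.1]
  have hsq2 : x ^ 2 ≤ (q : ℝ) * q := by nlinarith [hx.2, hx.1]
  have m1 := min_mul_le (a := -(P.A : ℝ) - P.B * (s - 1)) hsq1 hsq2
  have m2 := min_mul_le (a := -((s : ℝ) * P.μa)) hx.1 hx.2
  have hl : -(brB P s p q) ≤ min ((-P.A - P.B * (s - 1)) * (p * p))
      ((-P.A - P.B * (s - 1)) * (q * q)) + min (-(s * P.μa) * p) (-(s * P.μa) * q)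
      - (s * s - P.A - P.B * (s - 1)) + 2 * (s * s) := by
    unfold brB
    exact neg_le.mpr (le_max_right _ _)
  have hl2 := (Rat.cast_le (K := ℝ)).mpr hl
  push_cast at hl2
  have m1' : min ((-(P.A : ℝ) - P.B * (s - 1)) * (p * p)) ((-(P.A : ℝ) - P.B * (s - 1)) * (q * q))
      ≤ (-(P.A : ℝ) - P.B * (s - 1)) * x ^ 2 := m1
  nlinarith [m1', m2, hl2]

/-! ### Cells and the tree of cells -/

/-- The check at one slope. -/
def sideOK (P : Par) (s : ℚ) (X p q : Ent) : Bool :=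
  let d := p.ph * brB P s p.x q.x * ((q.x - p.x) * (q.x - p.x)) / 8
  decide (hUp P s X p + d ≤ 0) && decide (hUp P s X q + d ≤ 0)

/-- The check on a cell `[p,q] × [s₁,s₂]`, with truncation `X`. -/
def leafOK (P : Par) (s₁ s₂ : ℚ) (X p q : Ent) : Bool :=
  decide (q.x ≤ X.x) && sideOK P s₁ X p q && sideOK P s₂ X p q

lemma sideOK_sound {P : Par} {s : ℚ} {X p q : Ent} (hX : X.Valid) (hp : p.Valid) (hq : q.Valid)
    (h : sideOK P s X p q = true) {u : ℝ} (hu : u ∈ Icc (p.x : ℝ) q.x) :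
    Hf P.κ P.A P.B P.μa P.μm s X.x u ≤ 0 := by
  simp only [sideOK, Bool.and_eq_true, decide_eq_true_eq] at h
  obtain ⟨h1, h2⟩ := h
  have h1' := (Rat.cast_le (K := ℝ)).mpr h1
  have h2' := (Rat.cast_le (K := ℝ)).mpr h2
  push_cast at h1' h2'
  have hb := brB_nonneg P s p.x q.x
  have hc := Hf_cell (κ := P.κ) (A := P.A) (B := P.B) (μa := P.μa) (μm := P.μm) (s := s)
    (X := X.x) (p := p.x) (q := q.x) (B₀ := (brB P s p.x q.x : ℚ)) hb hp.1
    (fun x hx => brB_bound P s p.x q.x hp.1 hx) hu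
  have e1 := Hf_le_hUp P s hX hp
  have e2 := Hf_le_hUp P s hX hq
  have hφ : phi p.x ≤ p.ph := hp.2.2.1
  have hd : phi p.x * ((brB P s p.x q.x : ℚ) : ℝ) * ((q.x : ℝ) - p.x) ^ 2 / 8 ≤
      (p.ph : ℝ) * (brB P s p.x q.x : ℚ) * (((q.x : ℝ) - p.x) * ((q.x : ℝ) - p.x)) / 8 := by
    have : ((q.x : ℝ) - p.x) ^ 2 = ((q.x : ℝ) - p.x) * ((q.x : ℝ) - p.x) := by ring
    rw [this]
    have h3 : 0 ≤ ((q.x : ℝ) - p.x) * ((q.x : ℝ) - p.x) := mul_self_nonneg _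
    gcongr
  have hmax : max (Hf P.κ P.A P.B P.μa P.μm s X.x p.x) (Hf P.κ P.A P.B P.μa P.μm s X.x q.x) +
      (p.ph : ℝ) * (brB P s p.x q.x : ℚ) * (((q.x : ℝ) - p.x) * ((q.x : ℝ) - p.x)) / 8 ≤ 0 := by
    rcases max_cases (Hf P.κ P.A P.B P.μa P.μm s X.x p.x) (Hf P.κ P.A P.B P.μa P.μm s X.x q.x) with
      ⟨h, -⟩ | ⟨h, -⟩
    · rw [h]; linarith
    · rw [h]; linarith
  linarith

lemma leafOK_sound {P : Par} {s₁ s₂ : ℚ} {X p q : Ent} (hX : X.Valid) (hp : p.Valid) (hq : q.Valid)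
    (h : leafOK P s₁ s₂ X p q = true) {u : ℝ} (hu : u ∈ Icc (p.x : ℝ) q.x) {s : ℝ}
    (hs : s ∈ Icc (s₁ : ℝ) s₂) : ∃ Y : ℝ, u ≤ Y ∧ Hf P.κ P.A P.B P.μa P.μm s Y u ≤ 0 := by
  simp only [leafOK, Bool.and_eq_true, decide_eq_true_eq] at h
  obtain ⟨⟨h0, h1⟩, h2⟩ := h
  have h0' : (q.x : ℝ) ≤ X.x := by exact_mod_cast h0
  have hu2 : u ≤ X.x := hu.2.trans h0'
  exact ⟨X.x, hu2, Hf_chord hu2 hs.1 hs.2 (sideOK_sound hX hp hq h1 hu)
    (sideOK_sound hX hp hq h2 hu)⟩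

/-- A binary tree of cells. -/
inductive CT where
  | leaf (j : ℕ)
  | su (i : ℕ) (l r : CT)
  | ss (s : ℚ) (l r : CT)

/-- The check of a tree of cells, with the table `tbl`. -/
def CT.check (P : Par) (tbl : ℕ → Ent) : CT → Ent → Ent → ℚ → ℚ → Bool
  | .leaf j, p, q, s₁, s₂ => leafOK P s₁ s₂ (tbl j) p q
  | .su i l r, p, q, s₁, s₂ => l.check P tbl p (tbl i) s₁ s₂ && r.check P tbl (tbl i) q s₁ s₂
  | .ss s l r, p, q, s₁, s₂ => l.check P tbl p q s₁ s && r.check P tbl p q s s₂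

theorem CT.check_sound {P : Par} {tbl : ℕ → Ent} (hV : ∀ i, (tbl i).Valid) (T : CT) :
    ∀ {p q : Ent} {s₁ s₂ : ℚ}, p.Valid → q.Valid → T.check P tbl p q s₁ s₂ = true →
      ∀ {u : ℝ}, u ∈ Icc (p.x : ℝ) q.x → ∀ {s : ℝ}, s ∈ Icc (s₁ : ℝ) s₂ →
        ∃ Y : ℝ, u ≤ Y ∧ Hf P.κ P.A P.B P.μa P.μm s Y u ≤ 0 := by
  induction T with
  | leaf j =>
    intro p q s₁ s₂ hp hq h u hu s hs
    exact leafOK_sound (hV j) hp hq h hu hs
  | su i l r ihl ihr =>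
    intro p q s₁ s₂ hp hq h u hu s hs
    simp only [CT.check, Bool.and_eq_true] at h
    rcases le_total u ((tbl i).x : ℝ) with hc | hc
    · exact ihl hp (hV i) h.1 ⟨hu.1, hc⟩ hs
    · exact ihr (hV i) hq h.2 ⟨hc, hu.2⟩ hs
  | ss m l r ihl ihr =>
    intro p q s₁ s₂ hp hq h u hu s hs
    simp only [CT.check, Bool.and_eq_true] at h
    rcases le_total s (m : ℝ) with hc | hc
    · exact ihl hp hq h.1 hu ⟨hs.1, hc⟩
    · exact ihr hp hq h.2 hu ⟨hc, hs.2⟩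

lemma phi_anti {a b : ℝ} (ha : 0 ≤ a) (hab : a ≤ b) : phi b ≤ phi a := by
  unfold phi
  have : rexp (-(b ^ 2 / 2)) ≤ rexp (-(a ^ 2 / 2)) := by
    apply exp_le_exp.mpr
    nlinarith
  have := cG_pos
  gcongr

/-- The tail: for `u ≥ U`, truncation at `u` itself. -/
lemma Hf_tail {κ A B μa μm s U u : ℝ} (hκ : 0 ≤ κ) (hμa : 0 ≤ μa) (hA : 0 ≤ A) (hAB : 0 ≤ A + B)
    (hU : 0 ≤ U) (hu : U ≤ u) (hs1 : 1 ≤ s) (hs2 : s ≤ 2) (ht : κ * phi U ≤ μm) :
    Hf κ A B μa μm s u u ≤ 0 := by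
  have h1 : Pf u u = 0 := by simp [Pf]
  have h2 : 0 ≤ A + B * (s - 1) := by nlinarith
  have h3 := phi_nonneg u
  have h4 := Qf_nonneg u
  have h5 := phi_anti hU hu
  have h6 : κ * phi u ≤ μm := (mul_le_mul_of_nonneg_left h5 hκ).trans ht
  unfold Hf
  rw [h1]
  have hs0 : 0 ≤ s := by linarith
  have h7 : s * (κ * phi u - μa * Qf u - μm) ≤ 0 :=
    mul_nonpos_of_nonneg_of_nonpos hs0 (by nlinarith [mul_nonneg hμa h4])
  nlinarith [mul_nonneg h2 h3]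

/-- The main theorem of the checker. -/
theorem cert_of_check {P : Par} {tbl : ℕ → Ent} (hV : ∀ i, (tbl i).Valid) (T : CT) (i j : ℕ)
    (h0 : (tbl i).x = 0) (hκ : 0 ≤ P.κ) (hμa : 0 ≤ P.μa) (hA : 0 ≤ P.A) (hAB : 0 ≤ P.A + P.B)
    (ht : P.κ * (tbl j).ph ≤ P.μm)
    (hc : T.check P tbl (tbl i) (tbl j) 1 2 = true) :
    Cert (P.κ : ℝ) P.A P.B P.μa P.μm := by
  have hκ' : (0 : ℝ) ≤ P.κ := by exact_mod_cast hκ
  have hμa' : (0 : ℝ) ≤ P.μa := by exact_mod_cast hμa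
  have hA' : (0 : ℝ) ≤ P.A := by exact_mod_cast hA
  have hAB' : (0 : ℝ) ≤ (P.A : ℝ) + P.B := by exact_mod_cast hAB
  have ht' : (P.κ : ℝ) * phi (tbl j).x ≤ P.μm := by
    have h1 := (Rat.cast_le (K := ℝ)).mpr ht
    push_cast at h1
    exact (mul_le_mul_of_nonneg_left (hV j).2.2.1 hκ').trans h1
  refine cert_of_Hf hκ' ?_
  intro u hu s hs1 hs2
  rcases le_total u ((tbl j).x : ℝ) with hc2 | hc2
  · have hu' : u ∈ Icc (((tbl i).x : ℚ) : ℝ) (tbl j).x := by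
      rw [h0]; exact ⟨by simpa using hu, hc2⟩
    exact CT.check_sound hV T (hV i) (hV j) hc hu' (s := s) ⟨by simpa using hs1, by simpa using hs2⟩
  · exact ⟨u, le_rfl, Hf_tail hκ' hμa' hA' hAB' (hV j).1 hc2 hs1 hs2 ht'⟩

/-- The tail for general `A`, `B`: for `u ≥ U`, truncation at `u` itself. -/
lemma Hf_tail' {κ A B μa μm s U u : ℝ} (hμa : 0 ≤ μa) (hμm : 0 ≤ μm)
    (hU : 0 ≤ U) (hu : U ≤ u) (hs1 : 1 ≤ s) (hs2 : s ≤ 2) (ht1 : (κ - A) * phi U ≤ μm)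
    (ht2 : (2 * κ - A - B) * phi U ≤ 2 * μm) :
    Hf κ A B μa μm s u u ≤ 0 := by
  have h1 : Pf u u = 0 := by simp [Pf]
  have h3 := phi_nonneg u
  have h4 := Qf_nonneg u
  have h5 := phi_anti hU hu
  have hmono : ∀ c d : ℝ, 0 ≤ d → c * phi U ≤ d → c * phi u ≤ d := by
    intro c d hd hc
    rcases le_total 0 c with h | h
    · exact (mul_le_mul_of_nonneg_left h5 h).trans hc
    · exact (mul_nonpos_of_nonpos_of_nonneg h h3).trans hd
  have e1 := hmono _ _ hμm ht1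
  have e2 := hmono _ _ (by linarith) ht2
  have h6 : 0 ≤ μa * Qf u := mul_nonneg hμa h4
  unfold Hf
  rw [h1]
  have key : s ^ 2 * 0 + s * (κ * phi u - μa * Qf u - μm) - (A + B * (s - 1)) * phi u
      = (2 - s) * ((κ - A) * phi u - μm) + (s - 1) * ((2 * κ - A - B) * phi u - 2 * μm)
        - s * (μa * Qf u) := by ring
  rw [key]
  have a1 : (2 - s) * ((κ - A) * phi u - μm) ≤ 0 :=
    mul_nonpos_of_nonneg_of_nonpos (by linarith) (by linarith)
  have a2 : (s - 1) * ((2 * κ - A - B) * phi u - 2 * μm) ≤ 0 :=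
    mul_nonpos_of_nonneg_of_nonpos (by linarith) (by linarith)
  have a3 : 0 ≤ s * (μa * Qf u) := mul_nonneg (by linarith) h6
  linarith

/-- The main theorem of the checker, for general `A`, `B`. -/
theorem cert_of_check' {P : Par} {tbl : ℕ → Ent} (hV : ∀ i, (tbl i).Valid) (T : CT) (i j : ℕ)
    (h0 : (tbl i).x = 0) (hκ : 0 ≤ P.κ) (hμa : 0 ≤ P.μa) (hμm : 0 ≤ P.μm)
    (ht1 : (P.κ - P.A) * (tbl j).ph ≤ P.μm) (ht2 : (2 * P.κ - P.A - P.B) * (tbl j).ph ≤ 2 * P.μm)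
    (hc : T.check P tbl (tbl i) (tbl j) 1 2 = true) :
    Cert (P.κ : ℝ) P.A P.B P.μa P.μm := by
  have hκ' : (0 : ℝ) ≤ P.κ := by exact_mod_cast hκ
  have hμa' : (0 : ℝ) ≤ P.μa := by exact_mod_cast hμa
  have hμm' : (0 : ℝ) ≤ P.μm := by exact_mod_cast hμm
  have hcast : ∀ c d : ℚ, 0 ≤ (d : ℝ) → c * (tbl j).ph ≤ d → (c : ℝ) * phi (tbl j).x ≤ d := by
    intro c d hd h
    have h1 := (Rat.cast_le (K := ℝ)).mpr h
    push_cast at h1
    rcases le_total 0 (c : ℝ) with hc0 | hc0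
    · exact (mul_le_mul_of_nonneg_left (hV j).2.2.1 hc0).trans h1
    · exact (mul_nonpos_of_nonpos_of_nonneg hc0 (phi_nonneg _)).trans hd
  have ht1' := hcast _ _ hμm' ht1
  have ht2' := hcast _ (2 * P.μm) (by push_cast; linarith) ht2
  push_cast at ht1' ht2'
  refine cert_of_Hf hκ' ?_
  intro u hu s hs1 hs2
  rcases le_total u ((tbl j).x : ℝ) with hc2 | hc2
  · have hu' : u ∈ Icc (((tbl i).x : ℚ) : ℝ) (tbl j).x := by
      rw [h0]; exact ⟨by simpa using hu, hc2⟩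
    exact CT.check_sound hV T (hV i) (hV j) hc hu' (s := s) ⟨by simpa using hs1, by simpa using hs2⟩
  · exact ⟨u, le_rfl, Hf_tail' hμa' hμm' (hV j).1 hc2 hs1 hs2 ht1' ht2'⟩

/-- Table lookup with a default. -/
def tblOf (L : List Ent) (i : ℕ) : Ent := L.getD i Ent.dflt

lemma tblOf_valid {L : List Ent} (h : L.all Ent.ok = true) (i : ℕ) : (tblOf L i).Valid := by
  unfold tblOf
  rw [List.getD_eq_getElem?_getD]
  cases hi : L[i]? with
  | none => simpa using Ent.dflt_valid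
  | some e =>
    simp only [Option.getD_some]
    have hm : e ∈ L := List.mem_of_getElem? hi
    exact Ent.valid_of_ok (List.all_eq_true.mp h e hm)

end Vale.Agent.Lib.P226
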