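import Vale.Agent.Lib.P226.X.Defs

/-!
Stein's lemma for the Gaussian tail of a maximum of linear forms.
-/

open MeasureTheory ProbabilityTheory Real Set Filter Topology
open scoped RealInnerProductSpace ENNReal NNReal

namespace Vale.Agent.Lib.P226

section OneD

lemma phi_eq_pdf (x : ℝ) : phi x = gaussianPDFReal 0 1 x := by
  rw [gaussianPDFReal_01]; rfl

lemma continuous_phi : Continuous phi := by
  unfold phi; fun_prop

lemma integrable_phi : Integrable phi := by
  have h := integrable_gaussianPDFReal 0 1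
  have e : phi = gaussianPDFReal 0 1 := funext phi_eq_pdf
  rw [e]; exact h

lemma phi_nonneg (x : ℝ) : 0 ≤ phi x := by
  unfold phi; have := cG_pos; positivity

lemma phi_le (x : ℝ) : phi x ≤ cG := by
  unfold phi
  have h : rexp (-(x ^ 2 / 2)) ≤ 1 := exp_le_one_iff.mpr (by nlinarith [sq_nonneg x])
  nlinarith [cG_pos]

lemma integral_phi : ∫ x, phi x = 1 := by
  have e : phi = gaussianPDFReal 0 1 := funext phi_eq_pdf
  rw [e]; exact integral_gaussianPDFReal_eq_one 0 one_ne_zero

lemma Qf_eq (u : ℝ) : Qf u = Qf 0 - ∫ x in (0 : ℝ)..u, phi x := by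
  have h := intervalIntegral.integral_Ioi_sub_Ioi' (f := phi) (a := 0) (b := u) (μ := volume)
    integrable_phi.integrableOn integrable_phi.integrableOn
  unfold Qf
  linarith

lemma hasDerivAt_Qf (u : ℝ) : HasDerivAt Qf (-phi u) u := by
  have h := (continuous_phi.integral_hasStrictDerivAt 0 u).hasDerivAt
  have h2 := h.const_sub (Qf 0)
  exact h2.congr_of_eventuallyEq (Eventually.of_forall Qf_eq)

lemma continuous_Qf : Continuous Qf :=
  continuous_iff_continuousAt.mpr fun u => (hasDerivAt_Qf u).continuousAt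

lemma Qf_lip (a b : ℝ) : |Qf a - Qf b| ≤ cG * |a - b| := by
  have h := Convex.norm_image_sub_le_of_norm_hasDerivWithin_le (f := Qf)
    (f' := fun x => -phi x) (s := univ) (C := cG)
    (fun x _ => (hasDerivAt_Qf x).hasDerivWithinAt)
    (fun x _ => by rw [norm_neg, Real.norm_of_nonneg (phi_nonneg x)]; exact phi_le x)
    convex_univ (mem_univ b) (mem_univ a)
  simpa [Real.norm_eq_abs] using h

lemma Qf_nonneg (u : ℝ) : 0 ≤ Qf u :=
  setIntegral_nonneg measurableSet_Ioi fun x _ => phi_nonneg x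

lemma Qf_le_one (u : ℝ) : Qf u ≤ 1 := by
  have h := setIntegral_le_integral (s := Ioi u) integrable_phi (ae_of_all _ phi_nonneg)
  rw [integral_phi] at h
  exact h

lemma shift_gauss (g : ℝ → ℝ) (ε : ℝ) :
    ∫ t, g (t + ε) ∂(gaussianReal 0 1) =
      ∫ t, g t * rexp (ε * t - ε ^ 2 / 2) ∂(gaussianReal 0 1) := by
  rw [integral_gaussianReal_eq_integral_smul one_ne_zero,
    integral_gaussianReal_eq_integral_smul one_ne_zero]
  have e1 : ∀ t, gaussianPDFReal 0 1 t • g (t + ε) =
      (fun s => gaussianPDFReal 0 1 (s - ε) • g s) (t + ε) := by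
    intro t; simp
  simp_rw [e1]
  rw [integral_add_right_eq_self (fun s => gaussianPDFReal 0 1 (s - ε) • g s) ε]
  congr 1
  ext s
  rw [gaussianPDFReal_01, gaussianPDFReal_01]
  simp only [smul_eq_mul]
  have : rexp (-((s - ε) ^ 2 / 2)) = rexp (-(s ^ 2 / 2)) * rexp (ε * s - ε ^ 2 / 2) := by
    rw [← exp_add]; congr 1; ring
  rw [this]; ring

end OneD

variable {E : Type*} [NormedAddCommGroup E] [InnerProductSpace ℝ E] [FiniteDimensional ℝ E]
  [MeasurableSpace E] [BorelSpace E]

omit [FiniteDimensional ℝ E] [MeasurableSpace E] [BorelSpace E] in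
lemma splitMap_add_smul (e : E) (t ε : ℝ) (y : E) :
    splitMap e (t, y) + ε • e = splitMap e (t + ε, y) := by
  simp only [splitMap, add_smul]; abel

lemma inner_e_splitMap (e : E) (he : ‖e‖ = 1) (t : ℝ) (y : E) :
    ⟪e, splitMap e (t, y)⟫ = t := by
  rw [inner_splitMap]
  have h : ⟪e, e⟫ = 1 := by rw [real_inner_self_eq_norm_sq, he]; norm_num
  rw [h]; ring

lemma integral_split (e : E) (he : ‖e‖ = 1) (f : E → ℝ) (hf : Integrable f (stdGaussian E)) :
    ∫ x, f x ∂(stdGaussian E) =
      ∫ y, ∫ t, f (splitMap e (t, y)) ∂(gaussianReal 0 1) ∂(stdGaussian E) := by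
  have hmap := map_splitMap e he
  have hs : AEStronglyMeasurable f
      (((gaussianReal 0 1).prod (stdGaussian E)).map (splitMap e)) := by
    rw [hmap]; exact hf.aestronglyMeasurable
  have h1 : ∫ x, f x ∂(stdGaussian E) =
      ∫ x, f x ∂(((gaussianReal 0 1).prod (stdGaussian E)).map (splitMap e)) := by
    rw [hmap]
  rw [h1, integral_map (measurable_splitMap e).aemeasurable hs]
  have hi : Integrable (fun p => f (splitMap e p)) ((gaussianReal 0 1).prod (stdGaussian E)) := by
    have h2 : Integrable f (((gaussianReal 0 1).prod (stdGaussian E)).map (splitMap e)) := by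
      rw [hmap]; exact hf
    exact (integrable_map_measure hs (measurable_splitMap e).aemeasurable).mp h2
  exact integral_prod_symm _ hi

lemma integrable_exp_inner (e : E) (he : ‖e‖ = 1) (t : ℝ) :
    Integrable (fun x : E => rexp (t * ⟪e, x⟫)) (stdGaussian E) := by
  have h := integrable_exp_mul_gaussianReal (μ := 0) (v := 1) t
  rw [← map_inner_unit e he] at h
  have h2 := (integrable_map_measure (by fun_prop) (by fun_prop)).mp h
  exact h2

/-- The Cameron-Martin formula in direction `e`. -/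
theorem cameron_martin (e : E) (he : ‖e‖ = 1) (H : E → ℝ) (hm : Measurable H) {C : ℝ}
    (hC : ∀ x, |H x| ≤ C) (ε : ℝ) :
    ∫ x, H (x + ε • e) ∂(stdGaussian E) =
      ∫ x, H x * rexp (ε * ⟪e, x⟫ - ε ^ 2 / 2) ∂(stdGaussian E) := by
  have hi1 : Integrable (fun x => H (x + ε • e)) (stdGaussian E) := by
    refine Integrable.of_bound (C := C) ?_ ?_
    · exact (hm.comp (measurable_id.add_const _)).aestronglyMeasurable
    · exact ae_of_all _ fun x => by rw [Real.norm_eq_abs]; exact hC _
  have hi2 : Integrable (fun x => H x * rexp (ε * ⟪e, x⟫ - ε ^ 2 / 2)) (stdGaussian E) := by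
    have h0 : Integrable (fun x : E => C * (rexp (ε * ⟪e, x⟫) * rexp (-(ε ^ 2 / 2))))
        (stdGaussian E) :=
      ((integrable_exp_inner e he ε).mul_const _).const_mul _
    refine h0.mono' ?_ ?_
    · refine AEMeasurable.aestronglyMeasurable ?_
      exact (hm.mul (by fun_prop)).aemeasurable
    · refine ae_of_all _ fun x => ?_
      rw [Real.norm_eq_abs, abs_mul, abs_of_pos (exp_pos _)]
      have e2 : rexp (ε * ⟪e, x⟫ - ε ^ 2 / 2) = rexp (ε * ⟪e, x⟫) * rexp (-(ε ^ 2 / 2)) := by
        rw [← exp_add]; congr 1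
      rw [e2]
      exact mul_le_mul_of_nonneg_right (hC x) (by positivity)
  rw [integral_split e he _ hi1, integral_split e he _ hi2]
  congr 1
  ext y
  have e3 : ∀ t : ℝ, H (splitMap e (t, y) + ε • e) = (fun s => H (splitMap e (s, y))) (t + ε) := by
    intro t
    simp only
    rw [splitMap_add_smul]
  calc ∫ t, H (splitMap e (t, y) + ε • e) ∂(gaussianReal 0 1)
      = ∫ t, (fun s => H (splitMap e (s, y))) (t + ε) ∂(gaussianReal 0 1) :=
        integral_congr_ae (ae_of_all _ e3)
    _ = ∫ t, (fun s => H (splitMap e (s, y))) t * rexp (ε * t - ε ^ 2 / 2) ∂(gaussianReal 0 1) :=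
        shift_gauss (fun s => H (splitMap e (s, y))) ε
    _ = _ := by
        apply integral_congr_ae (ae_of_all _ fun t => ?_)
        simp only
        rw [inner_e_splitMap e he]

section Mx

variable {ι : Type*}

omit [FiniteDimensional ℝ E] [MeasurableSpace E] [BorelSpace E] in
lemma mx_lip {R : Finset ι} (hR : R.Nonempty) (w : ι → E) (x x' : E) :
    |mx R hR w x - mx R hR w x'| ≤ (∑ j ∈ R, ‖w j‖) * ‖x - x'‖ := by
  have hW : ∀ l ∈ R, ‖w l‖ ≤ ∑ j ∈ R, ‖w j‖ := fun l hl =>
    Finset.single_le_sum (f := fun j => ‖w j‖) (fun _ _ => norm_nonneg _) hl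
  have key : ∀ a b : E, mx R hR w a ≤ mx R hR w b + (∑ j ∈ R, ‖w j‖) * ‖a - b‖ := by
    intro a b
    apply mx_le
    intro l hl
    have h1 : ⟪w l, a⟫ = ⟪w l, b⟫ + ⟪w l, a - b⟫ := by rw [inner_sub_right]; ring
    have h2 : ⟪w l, a - b⟫ ≤ ‖w l‖ * ‖a - b‖ := real_inner_le_norm _ _
    have h3 := le_mx hR w b hl
    have h4 := mul_le_mul_of_nonneg_right (hW l hl) (norm_nonneg (a - b))
    linarith
  rw [abs_le]
  constructor
  · have := key x' x
    rw [norm_sub_rev] at this
    linarith
  · have := key x x'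
    linarith

lemma ae_inner_ne_zero (p : E) (hp : p ≠ 0) : ∀ᵐ y ∂(stdGaussian E), ⟪p, y⟫ ≠ 0 := by
  have hs : 0 < ‖p‖ := norm_pos_iff.mpr hp
  set e : E := (1 / ‖p‖) • p with he_def
  have he : ‖e‖ = 1 := by
    rw [he_def, norm_smul, Real.norm_of_nonneg (by positivity)]
    field_simp
  have hmap := map_inner_unit e he
  have hzero : (stdGaussian E) {y | innerSL ℝ e y = 0} = 0 := by
    have h1 : (stdGaussian E) {y | innerSL ℝ e y = 0} =
        ((stdGaussian E).map (innerSL ℝ e)) {0} := by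
      rw [Measure.map_apply (by fun_prop) (measurableSet_singleton _)]
      rfl
    rw [h1, hmap]
    exact (gaussianReal_absolutelyContinuous 0 one_ne_zero) (by simp)
  rw [ae_iff]
  refine measure_mono_null ?_ hzero
  intro y hy
  simp only [ne_eq, Decidable.not_not, Set.mem_ofPred_eq] at hy ⊢
  rw [innerSL_apply_apply, he_def, inner_smul_left, hy]
  simp

lemma ae_distinct [DecidableEq ι] {R : Finset ι} (w : ι → E)
    (hw : ∀ i ∈ R, ∀ j ∈ R, i ≠ j → w i ≠ w j) :
    ∀ᵐ y ∂(stdGaussian E), ∀ i ∈ R, ∀ j ∈ R, i ≠ j → ⟪w i, y⟫ ≠ ⟪w j, y⟫ := by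
  rw [Filter.eventually_all_finset]
  intro i hi
  rw [Filter.eventually_all_finset]
  intro j hj
  by_cases hij : i = j
  · exact ae_of_all _ fun y h => absurd hij h
  · have h := ae_inner_ne_zero (w i - w j) (sub_ne_zero.mpr (hw i hi j hj hij))
    filter_upwards [h] with y hy _ heq
    apply hy
    rw [inner_sub_left, heq, sub_self]

/-- Derivative at zero of the exponential side of the Cameron-Martin formula. -/
lemma hasDerivAt_cm_right (e : E) (he : ‖e‖ = 1) (H : E → ℝ) (hm : Measurable H) {C : ℝ}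
    (hC : ∀ x, |H x| ≤ C) :
    HasDerivAt (fun ε : ℝ => ∫ x, H x * rexp (ε * ⟪e, x⟫ - ε ^ 2 / 2) ∂(stdGaussian E))
      (∫ x, ⟪e, x⟫ * H x ∂(stdGaussian E)) 0 := by
  have hC0 : 0 ≤ C := (abs_nonneg _).trans (hC 0)
  set F : ℝ → E → ℝ := fun ε x => H x * rexp (ε * ⟪e, x⟫ - ε ^ 2 / 2) with hF
  set F' : ℝ → E → ℝ := fun ε x => H x * ((⟪e, x⟫ - ε) * rexp (ε * ⟪e, x⟫ - ε ^ 2 / 2)) with hF'
  set bd : E → ℝ := fun x => C * (rexp (2 * ⟪e, x⟫) + rexp ((-2) * ⟪e, x⟫)) with hbd
  have hbdint : Integrable bd (stdGaussian E) :=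
    ((integrable_exp_inner e he 2).add (integrable_exp_inner e he (-2))).const_mul C
  have hFm : ∀ ε, Measurable (F ε) := fun ε => hm.mul (by fun_prop)
  have hFint : Integrable (F 0) (stdGaussian E) := by
    refine Integrable.of_bound (C := C) (hFm 0).aestronglyMeasurable ?_
    refine ae_of_all _ fun x => ?_
    simp [hF, hC x]
  have hF'm : Measurable (F' 0) := by
    refine hm.mul ?_
    fun_prop
  have hderiv : ∀ x ε, HasDerivAt (fun ε => F ε x) (F' ε x) ε := by
    intro x ε
    have h1 : HasDerivAt (fun ε : ℝ => ε * ⟪e, x⟫ - ε ^ 2 / 2) (⟪e, x⟫ - ε) ε := by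
      have h2 := ((hasDerivAt_id' ε).mul_const ⟪e, x⟫).sub ((hasDerivAt_pow 2 ε).div_const 2)
      refine h2.congr_deriv ?_
      push_cast
      ring
    have h3 := (h1.exp).const_mul (H x)
    refine h3.congr_deriv ?_
    simp only [hF']
    ring
  have hbound : ∀ x, ∀ ε ∈ Metric.ball (0 : ℝ) 1, ‖F' ε x‖ ≤ bd x := by
    intro x ε hε
    have hε' : |ε| < 1 := by simpa using hε
    set s := ⟪e, x⟫ with hs
    have h1 : |s - ε| ≤ rexp |s| := by
      have h2 := abs_sub s ε
      have h3 := Real.add_one_le_exp |s|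
      linarith
    have h2 : ε * s - ε ^ 2 / 2 ≤ |s| := by
      have h3 : ε * s ≤ |ε| * |s| := by
        rw [← abs_mul]; exact le_abs_self _
      have h4 : |ε| * |s| ≤ 1 * |s| := mul_le_mul_of_nonneg_right hε'.le (abs_nonneg _)
      nlinarith [sq_nonneg ε]
    have h3 : rexp (ε * s - ε ^ 2 / 2) ≤ rexp |s| := exp_le_exp.mpr h2
    have h4 : rexp |s| * rexp |s| ≤ rexp (2 * s) + rexp ((-2) * s) := by
      rw [← exp_add]
      rcases abs_cases s with ⟨h, _⟩ | ⟨h, _⟩
      · rw [h]
        have : s + s = 2 * s := by ring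
        rw [this]
        have := exp_pos ((-2) * s)
        linarith
      · rw [h]
        have : -s + -s = (-2) * s := by ring
        rw [this]
        have := exp_pos (2 * s)
        linarith
    simp only [hF', hbd, Real.norm_eq_abs, abs_mul, abs_of_pos (exp_pos _)]
    calc |H x| * (|s - ε| * rexp (ε * s - ε ^ 2 / 2))
        ≤ C * (rexp |s| * rexp |s|) := by
          apply mul_le_mul (hC x) _ (by positivity) hC0
          exact mul_le_mul h1 h3 (exp_pos _).le (exp_pos _).le
      _ ≤ C * (rexp (2 * s) + rexp ((-2) * s)) := mul_le_mul_of_nonneg_left h4 hC0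
  obtain ⟨_, h⟩ := hasDerivAt_integral_of_dominated_loc_of_deriv_le (μ := stdGaussian E)
    (s := Metric.ball (0 : ℝ) 1) (F := F) (F' := F') (x₀ := 0) (bound := bd)
    (Metric.ball_mem_nhds _ one_pos)
    (Eventually.of_forall fun ε => (hFm ε).aestronglyMeasurable) hFint
    hF'm.aestronglyMeasurable (ae_of_all _ hbound) hbdint
    (ae_of_all _ fun x ε _ => hderiv x ε)
  have hval : ∫ x, ⟪e, x⟫ * H x ∂(stdGaussian E) = ∫ a, F' 0 a ∂(stdGaussian E) := by
    apply integral_congr_ae (ae_of_all _ fun x => ?_)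
    simp only [hF']
    simp
    ring
  rw [hval]
  exact h

/-- Derivative at zero of the translation side, for `H = Qf ∘ mx`. -/
lemma hasDerivAt_cm_left [LinearOrder ι] {R : Finset ι} (hR : R.Nonempty) (w : ι → E)
    (hw : ∀ i ∈ R, ∀ j ∈ R, i ≠ j → w i ≠ w j) (e : E) (he : ‖e‖ = 1) :
    HasDerivAt (fun ε : ℝ => ∫ x, Qf (mx R hR w (x + ε • e)) ∂(stdGaussian E))
      (∫ x, -∑ j ∈ R, ⟪e, w j⟫ * (vor R w j).indicator (fun y => phi (mx R hR w y)) x
        ∂(stdGaussian E)) 0 := by
  set L : ℝ := cG * ∑ j ∈ R, ‖w j‖ with hL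
  have hL0 : 0 ≤ L := mul_nonneg cG_pos.le (Finset.sum_nonneg fun _ _ => norm_nonneg _)
  set F : ℝ → E → ℝ := fun ε x => Qf (mx R hR w (x + ε • e)) with hF
  set F' : E → ℝ := fun x =>
    -∑ j ∈ R, ⟪e, w j⟫ * (vor R w j).indicator (fun y => phi (mx R hR w y)) x with hF'
  have hmx := measurable_mx hR w
  have hFm : ∀ ε, Measurable (F ε) := fun ε =>
    continuous_Qf.measurable.comp (hmx.comp (measurable_id.add_const _))
  have hFint : Integrable (F 0) (stdGaussian E) := by
    refine Integrable.of_bound (C := 1) (hFm 0).aestronglyMeasurable ?_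
    refine ae_of_all _ fun x => ?_
    simp only [hF]
    rw [Real.norm_of_nonneg (Qf_nonneg _)]
    exact Qf_le_one _
  have hg := vor_good R w hR
  have hF'm : Measurable F' := by
    refine Measurable.neg ?_
    refine Finset.measurable_sum _ fun j hj => ?_
    refine Measurable.const_mul ?_ _
    exact (continuous_phi.measurable.comp hmx).indicator (hg.meas j hj)
  have hlip : ∀ x, LipschitzOnWith (Real.nnabs L) (fun ε => F ε x) univ := by
    intro x
    refine LipschitzWith.lipschitzOnWith ?_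
    refine LipschitzWith.of_dist_le_mul fun a b => ?_
    rw [Real.dist_eq, Real.dist_eq]
    simp only [hF]
    have h1 := Qf_lip (mx R hR w (x + a • e)) (mx R hR w (x + b • e))
    have h2 := mx_lip hR w (x + a • e) (x + b • e)
    have h3 : ‖x + a • e - (x + b • e)‖ = |a - b| := by
      have : x + a • e - (x + b • e) = (a - b) • e := by
        rw [sub_smul]; abel
      rw [this, norm_smul, he, mul_one, Real.norm_eq_abs]
    rw [h3] at h2
    have h4 : ((Real.nnabs L : ℝ≥0) : ℝ) = L := by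
      rw [Real.coe_nnabs, abs_of_nonneg hL0]
    rw [h4]
    calc |Qf (mx R hR w (x + a • e)) - Qf (mx R hR w (x + b • e))|
        ≤ cG * |mx R hR w (x + a • e) - mx R hR w (x + b • e)| := h1
      _ ≤ cG * ((∑ j ∈ R, ‖w j‖) * |a - b|) := mul_le_mul_of_nonneg_left h2 cG_pos.le
      _ = L * |a - b| := by rw [hL]; ring
  have hdiff : ∀ᵐ x ∂(stdGaussian E), HasDerivAt (fun ε => F ε x) (F' x) 0 := by
    classical
    filter_upwards [ae_distinct (E := E) w hw] with x hx
    obtain ⟨j, hj, hxj⟩ := hg.cover x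
    have hstrict : ∀ i ∈ R, i ≠ j → ⟪w i, x⟫ < ⟪w j, x⟫ := by
      intro i hi hij
      exact lt_of_le_of_ne (hxj.1 i hi) (hx i hi j hj hij)
    have hmxx : mx R hR w x = ⟪w j, x⟫ := mx_eq_of_mem_vor hR w hj hxj
    -- near zero the maximum is attained by `j`
    have hev : ∀ᶠ ε : ℝ in 𝓝 0, ∀ i ∈ R, i ≠ j → ⟪w i, x + ε • e⟫ < ⟪w j, x + ε • e⟫ := by
      rw [Filter.eventually_all_finset]
      intro i hi
      by_cases hij : i = j
      · exact Eventually.of_forall fun ε h => absurd hij h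
      · have hc : ContinuousAt (fun ε : ℝ => ⟪w j, x + ε • e⟫ - ⟪w i, x + ε • e⟫) 0 := by
          fun_prop
        have h0 : 0 < ⟪w j, x + (0 : ℝ) • e⟫ - ⟪w i, x + (0 : ℝ) • e⟫ := by
          simp only [zero_smul, add_zero]
          linarith [hstrict i hi hij]
        filter_upwards [hc.eventually (lt_mem_nhds h0)] with ε hε _
        linarith
    have hevm : (fun ε : ℝ => F ε x) =ᶠ[𝓝 0] fun ε => Qf (⟪w j, x⟫ + ε * ⟪w j, e⟫) := by
      filter_upwards [hev] with ε hε
      simp only [hF]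
      have h1 : mx R hR w (x + ε • e) = ⟪w j, x + ε • e⟫ := by
        apply le_antisymm
        · apply mx_le
          intro i hi
          by_cases hij : i = j
          · rw [hij]
          · exact (hε i hi hij).le
        · exact le_mx hR w _ hj
      rw [h1, inner_add_right, inner_smul_right]
    have ha : HasDerivAt (fun ε : ℝ => ⟪w j, x⟫ + ε * ⟪w j, e⟫) ⟪w j, e⟫ 0 := by
      simpa using ((hasDerivAt_id' (0 : ℝ)).mul_const ⟪w j, e⟫).const_add ⟪w j, x⟫
    have hq : HasDerivAt Qf (-phi ⟪w j, x⟫) (⟪w j, x⟫ + (0 : ℝ) * ⟪w j, e⟫) := by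
      rw [zero_mul, add_zero]; exact hasDerivAt_Qf _
    have hcomp := hq.comp (0 : ℝ) ha
    have hF'x : F' x = -phi ⟪w j, x⟫ * ⟪w j, e⟫ := by
      simp only [hF']
      rw [Finset.sum_eq_single j]
      · rw [indicator_of_mem hxj, hmxx, real_inner_comm]
        ring
      · intro i hi hij
        have hdisj := hg.disj i hi j hj hij
        have hnot : x ∉ vor R w i := fun h => (Set.disjoint_left.mp hdisj) h hxj
        rw [indicator_of_notMem hnot, mul_zero]
      · intro h; exact absurd hj h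
    rw [hF'x]
    exact hcomp.congr_of_eventuallyEq hevm
  obtain ⟨_, h⟩ := hasDerivAt_integral_of_dominated_loc_of_lip (μ := stdGaussian E)
    (s := univ) (F := F) (F' := F') (x₀ := 0) (bound := fun _ => L)
    univ_mem (Eventually.of_forall fun ε => (hFm ε).aestronglyMeasurable) hFint
    hF'm.aestronglyMeasurable (ae_of_all _ hlip) (integrable_const _) hdiff
  exact h

theorem stein_mx_unit [LinearOrder ι] (R : Finset ι) (hR : R.Nonempty) (w : ι → E)
    (hw : ∀ i ∈ R, ∀ j ∈ R, i ≠ j → w i ≠ w j) (e : E) (he : ‖e‖ = 1) :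
    ∫ y, ⟪e, y⟫ * Qf (mx R hR w y) ∂(stdGaussian E) =
      - ∑ j ∈ R, ⟪e, w j⟫ * ∫ y in vor R w j, phi (mx R hR w y) ∂(stdGaussian E) := by
  have hmx := measurable_mx hR w
  have hH : Measurable (fun x => Qf (mx R hR w x)) := continuous_Qf.measurable.comp hmx
  have hC : ∀ x, |Qf (mx R hR w x)| ≤ 1 := fun x => by
    rw [abs_of_nonneg (Qf_nonneg _)]; exact Qf_le_one _
  have h1 := hasDerivAt_cm_left hR w hw e he
  have h2 := hasDerivAt_cm_right e he _ hH hC
  have heq : (fun ε : ℝ => ∫ x, Qf (mx R hR w (x + ε • e)) ∂(stdGaussian E)) =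
      fun ε : ℝ => ∫ x, Qf (mx R hR w x) * rexp (ε * ⟪e, x⟫ - ε ^ 2 / 2) ∂(stdGaussian E) := by
    ext ε
    exact cameron_martin e he _ hH hC ε
  rw [heq] at h1
  have h3 := h2.unique h1
  rw [h3]
  have hg := vor_good R w hR
  have hint : ∀ j ∈ R, Integrable (fun x => ⟪e, w j⟫ *
      (vor R w j).indicator (fun y => phi (mx R hR w y)) x) (stdGaussian E) := by
    intro j hj
    refine Integrable.const_mul ?_ _
    refine Integrable.of_bound (C := cG) ?_ ?_
    · exact ((continuous_phi.measurable.comp hmx).indicator (hg.meas j hj)).aestronglyMeasurable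
    · refine ae_of_all _ fun x => ?_
      rw [Real.norm_eq_abs]
      by_cases hx : x ∈ vor R w j
      · rw [indicator_of_mem hx, abs_of_nonneg (phi_nonneg _)]
        exact phi_le _
      · rw [indicator_of_notMem hx, abs_zero]
        exact cG_pos.le
  rw [integral_neg, integral_finsetSum _ hint]
  congr 1
  apply Finset.sum_congr rfl
  intro j hj
  rw [integral_const_mul, integral_indicator (hg.meas j hj)]

/-- Stein's lemma for `Qf` of a maximum of distinct linear forms. -/
theorem stein_mx [LinearOrder ι] (R : Finset ι) (hR : R.Nonempty) (w : ι → E)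
    (hw : ∀ i ∈ R, ∀ j ∈ R, i ≠ j → w i ≠ w j) (z : E) :
    ∫ y, ⟪z, y⟫ * Qf (mx R hR w y) ∂(stdGaussian E) =
      - ∑ j ∈ R, ⟪z, w j⟫ * ∫ y in vor R w j, phi (mx R hR w y) ∂(stdGaussian E) := by
  by_cases hz : z = 0
  · subst hz
    simp
  · have hs : 0 < ‖z‖ := norm_pos_iff.mpr hz
    set e : E := (1 / ‖z‖) • z with he_def
    have he : ‖e‖ = 1 := by
      rw [he_def, norm_smul, Real.norm_of_nonneg (by positivity)]
      field_simp
    have hze : z = ‖z‖ • e := by
      rw [he_def, smul_smul]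
      field_simp
      simp
    have h := stein_mx_unit R hR w hw e he
    have hin : ∀ a : E, ⟪z, a⟫ = ‖z‖ * ⟪e, a⟫ := by
      intro a
      conv_lhs => rw [hze]
      rw [inner_smul_left]
      simp
    simp_rw [hin, mul_assoc]
    rw [integral_const_mul, h, mul_neg, Finset.mul_sum]

end Mx

end Vale.Agent.Lib.P226
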